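import Vale.Agent.P022D.Th.Basq
import Vale.Agent.P022D.Th.Sepx
import Vale.Agent.P022D.Th.Genq
import Vale.Agent.P022D.Th.Lv1
import Vale.Agent.P022D.Th.Xb
import Vale.Agent.P022D.Th.Dsc
import Vale.Agent.P022D.Th.Tup
import Vale.Agent.P022D.Th.Latc
import Vale.Agent.P022D.Th.Bd
import Vale.Agent.P022D.V.Emb
import Vale.Agent.P022.H567.Tw.Four

/-!
# P022K, block UC: the forms with rational 2-integral coefficients span (even weight, any level)
-/

set_option autoImplicit false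
set_option linter.all false

open UpperHalfPlane hiding I
open Matrix CongruenceSubgroup
open scoped MatrixGroups ModularForm

noncomputable section

namespace Vale.Agent.P022K.UC.Hm

open Vale.Agent.P022 Vale.Agent.P027M.M Vale.Agent.P022D.V Vale.Agent.P022D.Th
open Vale.Agent.P022.H567.Tw (cf cf_unique)

open Basq in
theorem basq_even {M k : ℕ} [NeZero M] (hk : Even k) :
    (∀ σ a, Ok M σ a → ∀ s ∈ XC M k, cj σ a s ∈ XC M k) ∧
    ∀ W : Submodule ℂ (FT M ℂ), W ≤ XC M k → (∀ σ a, Ok M σ a → ∀ s ∈ W, cj σ a s ∈ W) →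
      ∃ t : Finset (FT M ℂ), (∀ y ∈ t, y ∈ W ∧ y ∈ PQ M) ∧
        W ≤ Submodule.span ℂ (t : Set (FT M ℂ)) := by
  have B := xb M (NeZero.pos M)
  obtain ⟨d, δ, t, δX, δQ, δN, ht, hs⟩ := Sepx.even B lv1 (fun h h1 h2 => by
    obtain ⟨v, hv, k1, k2⟩ := Genq.moved h1 h2
    exact ⟨Genq.th v, Genq.th_mem hv, Genq.th_pq hv, Genq.th_nv hv k1 k2⟩) hk
  have tX : Submodule.span ℂ (t : Set (FT M ℂ)) ≤ XC M (k + d) :=
    Submodule.span_le.2 fun y hy => (ht y hy).1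
  refine ⟨fun σ a ok s h => B.div k d _ δ (tX ?_) δX δN, fun W hW st => ?_⟩
  · have := cj_span σ a (fun y hy => (ht y hy).2 σ a ok) (hs s h)
    rwa [cj_mul, δQ σ a ok] at this
  have inj : Function.Injective (LinearMap.mulRight ℂ δ) := fun x y e => funext fun g =>
    mul_right_cancel₀ (B.nv0 δ δN g) (congrFun e g)
  set S : Set (FT M ℂ) := {y | y ∈ W ∧ y ∈ PQ M} with hSd
  have h1 : W.map (LinearMap.mulRight ℂ δ) ≤ Submodule.span ℂ (t : Set (FT M ℂ)) := by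
    rintro _ ⟨s, h, rfl⟩
    exact hs s (hW h)
  have h2 : W ≤ Submodule.span ℂ S := by
    intro s h
    have key := dsc0 ℂ (FT M ℂ) {p : (ℂ ≃+* ℂ) × (ZMod M)ˣ // Ok M p.1 p.2}
      (fun i => (i.1.1 : ℂ →+* ℂ)) (fun i => cjA i.1.1 i.1.2) (fun i c x => cj_smul _ _ c x)
      (W.map (LinearMap.mulRight ℂ δ)) (by
        rintro i _ ⟨x, hx, rfl⟩
        refine ⟨cj i.1.1 i.1.2 x, st _ _ i.2 x hx, ?_⟩
        show cj i.1.1 i.1.2 x * δ = cj i.1.1 i.1.2 (x * δ)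
        rw [cj_mul, δQ _ _ i.2]) (s * δ) ⟨s, h, rfl⟩
      (Submodule.span_mono (by
        intro y hy i
        exact (ht y hy).2 _ _ i.2) (hs s (hW h)))
    have sub : {y | y ∈ W.map (LinearMap.mulRight ℂ δ) ∧
        ∀ i : {p : (ℂ ≃+* ℂ) × (ZMod M)ˣ // Ok M p.1 p.2}, cjA i.1.1 i.1.2 y = y} ⊆
        LinearMap.mulRight ℂ δ '' S := by
      rintro _ ⟨⟨x, hx, rfl⟩, fx⟩
      refine ⟨x, ⟨hx, fun σ a ok => inj ?_⟩, rfl⟩
      have e : cj σ a (x * δ) = x * δ := fx ⟨(σ, a), ok⟩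
      rw [cj_mul, δQ σ a ok] at e
      exact e
    have k2 := Submodule.span_mono sub key
    rw [← Submodule.map_span] at k2
    obtain ⟨x, hx, e⟩ := k2
    rw [← inj (show LinearMap.mulRight ℂ δ x = LinearMap.mulRight ℂ δ s from e)]
    exact hx
  have h3' : Submodule.span ℂ S = W := le_antisymm (Submodule.span_le.2 fun y hy => hy.1) h2
  have fg : W.FG := by
    refine Submodule.fg_of_fg_map_injective _ inj ?_
    haveI := FiniteDimensional.span_finset ℂ t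
    haveI := Submodule.finiteDimensional_of_le h1
    exact Module.Finite.iff_fg.1 inferInstance
  rw [← h3'] at fg
  obtain ⟨t', a, b⟩ := (Submodule.fg_span_iff_fg_span_finset_subset S).1 fg
  exact ⟨t', fun y hy => a hy, by rw [← b]; exact h2⟩

theorem cf_of_rd {N i : ℕ} [NeZero N] {s : FT N ℂ} {f : MF N (i + 1)} (h : Latc.Rd N N i s f)
    (n : ℕ) : cf f n = (s (dg 1 1)).coeff (N * n) := by
  have e : (f : ℍ → ℂ) ∣[((i + 1 : ℕ) : ℤ)] gd N 1 (Nat.coprime_one_left _) = f := by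
    rw [H353.slash_eq_of (H783.gd_mem _) (one_mem _) (by simp [H353.gd11]) f,
      SlashAction.slash_one]
  rw [Latc.Rd, e] at h
  refine cf_unique f (fun n => (s (dg 1 1)).coeff (N * n))
    (fun τ => (h τ).congr_fun fun m => ?_) n
  rw [H783.qq, Function.Periodic.qParam, ← Complex.exp_nat_mul]
  congr 2
  push_cast
  ring

open Latc in
/-- **rational structure** -/
theorem ratq (N k : ℕ) [NeZero N] (hk : Even k) (h0 : k ≠ 0) : ∃ t : Finset (MF N k),
    Submodule.span ℂ (t : Set (MF N k)) = ⊤ ∧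
      ∀ f ∈ t, ∃ c : ℕ → ℚ, ∀ n, cf f n = c n ∧ Odd (c n).den := by
  classical
  obtain ⟨i, rfl⟩ : ∃ i, k = i + 1 := ⟨k - 1, by omega⟩
  have M0 := NeZero.pos N
  obtain ⟨inst⟩ := emb ℚ_[2] (PadicInt.subring 2) fun x => Iff.rfl
  obtain ⟨b1, b2⟩ := basq_even (M := N) hk
  obtain ⟨-, -, -, -, d5⟩ := bd xb (PadicInt.subring 2) 1 0 odd_one
  obtain ⟨t, t1, t2⟩ := b2 (XC N (i + 1) ⊓ Iv ℂ ℂ (H0 N 1 N)) inf_le_left
    fun σ a ha s hs => ⟨b1 σ a ha s hs.1, fun h hh => by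
      funext g
      have e := congrFun (hs.2 h hh) (dg 1 a * g)
      rw [one_smul, rt_apply, mul_assoc] at e
      rw [one_smul, rt_apply, cj, cj, e]⟩
  have key : ∀ y : FT N ℂ, ∃ f : MF N (i + 1), y ∈ t → (∃ z : ℂ, Rd _ N i y (z • f)) ∧
      ∃ c : ℕ → ℚ, ∀ n, cf f n = c n ∧ Odd (c n).den := by
    intro y
    by_cases hy : y ∈ t
    swap
    · exact ⟨0, fun h => (hy h).elim⟩
    obtain ⟨y1, y2⟩ := t1 y hy
    obtain ⟨F, f1, f2⟩ := y1.1
    obtain ⟨m, hm⟩ := Bdd0.one_g (O := PadicInt.subring 2) M0 (Bdd0.tp_mf f1 (dg 1 1)) (f2 _)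
    obtain ⟨f, c, r1, r2⟩ := back N N i M0 dvd_rfl _ (Submodule.smul_mem _ ((2 : ℂ) ^ m) y1)
    refine ⟨f, fun _ => ⟨⟨((2 : ℂ) ^ m)⁻¹, ?_⟩, ?_⟩⟩
    · have := rd_smul ((2 : ℂ) ^ m)⁻¹ (rd_of M0 r2 r1)
      rwa [inv_smul_smul₀ (pow_ne_zero _ two_ne_zero)] at this
    have k : ∀ n, ∃ x : ℚ, cf f n = x ∧ Odd x.den := by
      intro n
      have e := fun b => dic_coeff M0 r2 1 b (Nat.coprime_one_left _) ⟨0, by simp⟩ n
      simp only [Pi.smul_apply, PowerSeries.coeff_smul, smul_eq_mul, Nat.cast_one, one_pow,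
        one_mul] at e
      obtain ⟨x, hx⟩ := aut.1 (c n 1) fun σ => by
        obtain ⟨a₁, h₁⟩ := aut.2 N σ M0
        have e2 := congrArg (PowerSeries.coeff (N * n)) (congrFun (y2 σ a₁ h₁) (dg 1 1))
        rw [cj, dg_mul, one_mul, mul_one, PowerSeries.coeff_map] at e2
        rw [e a₁, map_mul, map_pow, map_ofNat, ← e a₁, e 1, ← e2]
        rfl
      refine ⟨x, ?_, d5 x ?_⟩
      · rw [cf_of_rd (rd_of M0 r2 r1), hx, e 1, Pi.smul_apply, PowerSeries.coeff_smul,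
          smul_eq_mul]
      · rw [hx, e 1]
        exact hm _
    choose x x1 using k
    exact ⟨x, x1⟩
  choose F hF using key
  refine ⟨t.image F, eq_top_iff.2 fun f _ => ?_, fun f hf => ?_⟩
  · obtain ⟨c, hc⟩ := H353.exists_rep f
    obtain ⟨s, s1, s2⟩ := tup N 1 N i M0 (one_dvd _) dvd_rfl f c hc
    have k : ∀ s ∈ Submodule.span ℂ (t : Set (FT N ℂ)),
        ∃ f' ∈ Submodule.span ℂ ((t.image F : Finset _) : Set (MF N (i + 1))), Rd _ N i s f' := by
      intro s hs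
      induction hs using Submodule.span_induction with
      | mem y hy =>
        obtain ⟨z, hz⟩ := (hF y hy).1
        exact ⟨_, Submodule.smul_mem _ z (Submodule.subset_span
          (Finset.mem_coe.2 (Finset.mem_image_of_mem F hy))), hz⟩
      | zero => exact ⟨0, zero_mem _, rd_zero⟩
      | add a b _ _ ha hb =>
        obtain ⟨f1, m1, r1⟩ := ha
        obtain ⟨f2, m2, r2⟩ := hb
        exact ⟨_, add_mem m1 m2, rd_add r1 r2⟩
      | smul z a _ ha =>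
        obtain ⟨f1, m1, r1⟩ := ha
        exact ⟨_, Submodule.smul_mem _ z m1, rd_smul z r1⟩
    obtain ⟨f', m, r⟩ := k s (t2 s1)
    rwa [rd_inj (rd_of M0 s2 hc) r]
  · obtain ⟨y, hy, rfl⟩ := Finset.mem_image.1 hf
    exact (hF y hy).2

end Vale.Agent.P022K.UC.Hm
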