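import Vale.Agent.P022K.UC.Qm
import Vale.Agent.P022K.UC.Rat
import Vale.Agent.P022.H811.L3.Up

/-!
# P022K, block UC, row FUN: from congruences of Hecke systems to congruences of expansions
-/

set_option autoImplicit false
set_option linter.all false

open PowerSeries UpperHalfPlane CongruenceSubgroup
open scoped MatrixGroups ModularForm

noncomputable section

namespace Vale.Agent.P022K.UC.Hm

open Vale.Agent.P022 Vale.Agent.P022.H218.L3 Vale.Agent.P022.H783
open Vale.Agent.P022.H567.Tw (cf cf_unique tz cf_tz)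
open Vale.Agent.P022.H811.L3 (Up Up_dia Up_Tl coeff_Up zero_of_coeff)

section ech

variable {K : Type*} [Field K] (v : Valuation K (WithZero (Multiplicative ℤ)))

theorem ex_max {y : ℕ → K} (h0 : ∃ n, y n ≠ 0) (hb : ∃ g, ∀ n, v (y n) ≤ g)
    (hv : ∀ x, v x = 0 → x = 0) : ∃ m, y m ≠ 0 ∧ ∀ n, v (y n) ≤ v (y m) := by
  obtain ⟨g, hg⟩ := hb
  obtain ⟨n₀, hn₀⟩ := h0
  have hg0 : g ≠ 0 := fun e => hn₀ (hv _ (le_zero_iff.1 (e ▸ hg n₀)))
  obtain ⟨_, ⟨m, h1, rfl⟩, h2⟩ := Int.exists_greatest_of_bdd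
    (P := fun z => ∃ n, y n ≠ 0 ∧ WithZero.log (v (y n)) = z)
    ⟨WithZero.log g, by
      rintro _ ⟨n, h1, rfl⟩
      exact (WithZero.log_le_log (mt (hv _) h1) hg0).2 (hg n)⟩ ⟨_, n₀, hn₀, rfl⟩
  refine ⟨m, h1, fun n => ?_⟩
  by_cases h : y n = 0
  · simp [h]
  · exact (WithZero.log_le_log (mt (hv _) h) (mt (hv _) h1)).1 (h2 _ ⟨n, h, rfl⟩)

/-- **echelon form** of a finite dimensional space of bounded series -/
theorem echelon (d : ℕ) : ∀ (V : Submodule K K⟦X⟧) [FiniteDimensional K V],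
    Module.finrank K V = d → (∀ y ∈ V, ∃ g, ∀ n, v (coeff n y) ≤ g) →
    ∃ (b : Fin d → K⟦X⟧) (p : Fin d → ℕ), (∀ k, b k ∈ V ∧ ∀ n, v (coeff n (b k)) ≤ 1) ∧
      ∀ y ∈ V, y = ∑ k, coeff (p k) y • b k := by
  induction d with
  | zero =>
    intro V _ h _
    refine ⟨Fin.elim0, Fin.elim0, fun k => k.elim0, fun y hy => ?_⟩
    rw [Submodule.finrank_eq_zero.1 h] at hy
    simpa using hy
  | succ d ih =>
    intro V _ h hb
    obtain ⟨y₀, h1, h2⟩ := Submodule.exists_mem_ne_zero_of_ne_bot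
      (show V ≠ ⊥ by rintro rfl; simp at h)
    obtain ⟨m, h3, h4⟩ := ex_max v (y := fun n => coeff n y₀) (by
      by_contra h5
      push Not at h5
      exact h2 (PowerSeries.ext h5)) (hb _ h1) fun x => v.zero_iff.1
    obtain ⟨y₁, k1, k2, k3⟩ : ∃ y₁ ∈ V, coeff m y₁ = 1 ∧ ∀ n, v (coeff n y₁) ≤ 1 :=
      ⟨(coeff m y₀)⁻¹ • y₀, V.smul_mem _ h1, by simp [h3], fun n => by
        rw [map_smul, smul_eq_mul, map_mul, map_inv₀,
          inv_mul_le_one₀ (zero_lt_iff.2 (v.ne_zero_iff.2 h3))]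
        exact h4 n⟩
    let V' := V ⊓ LinearMap.ker (coeff m)
    have hm : ∀ y ∈ V, y - coeff m y • y₁ ∈ V' := fun y hy =>
      ⟨sub_mem hy (V.smul_mem _ k1), by simp [k2]⟩
    have hs : V' ⊔ Submodule.span K {y₁} = V := le_antisymm
      (sup_le inf_le_left ((Submodule.span_singleton_le_iff_mem _ _).2 k1)) fun y hy => by
        rw [← sub_add_cancel y (coeff m y • y₁)]
        exact Submodule.add_mem_sup (hm y hy)
          (Submodule.smul_mem _ _ (Submodule.mem_span_singleton_self _))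
    have hi : V' ⊓ Submodule.span K {y₁} = ⊥ := by
      refine eq_bot_iff.2 fun y hy => ?_
      obtain ⟨c, rfl⟩ := Submodule.mem_span_singleton.1 hy.2
      have : c = 0 := by simpa [k2] using hy.1.2
      simp [this]
    haveI : FiniteDimensional K V' := Submodule.finiteDimensional_of_le inf_le_left
    have hr := Submodule.finrank_sup_add_finrank_inf_eq V' (Submodule.span K {y₁})
    rw [hs, hi, finrank_bot, finrank_span_singleton (by rintro rfl; simp at k2), h] at hr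
    obtain ⟨b, p, r1, r2⟩ := ih V' (by omega) fun y hy => hb y hy.1
    refine ⟨Fin.cons (y₁ - ∑ k, coeff (p k) y₁ • b k) b, Fin.cons m p, fun k => ?_,
      fun y hy => ?_⟩
    · refine Fin.cases ⟨sub_mem k1 (sum_mem fun k _ => V.smul_mem _ (r1 k).1.1), fun n => ?_⟩
        (fun k => ⟨(r1 k).1.1, (r1 k).2⟩) k
      rw [Fin.cons_zero, map_sub, map_sum]
      refine v.map_sub_le (k3 n) (v.map_sum_le fun k _ => ?_)
      rw [map_smul, smul_eq_mul, map_mul]
      exact mul_le_one' (k3 _) ((r1 k).2 n)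
    · have := r2 _ (hm y hy)
      simp only [map_sub, map_smul, smul_eq_mul, sub_smul, mul_smul, Finset.sum_sub_distrib,
        ← Finset.smul_sum] at this
      simp only [Fin.sum_univ_succ, Fin.cons_zero, Fin.cons_succ, smul_sub]
      linear_combination this

end ech

theorem ex_int {ι : Type*} [Fintype ι] (r : ι → ℚ) (h : ∀ k, ¬ 2 ∣ (r k).den) :
    ∃ (D : ℕ) (a : ι → ℤ), Odd D ∧ ∀ k, (a k : ℚ) = D * r k := by
  have h1 : ∀ k, ∃ c, ∏ k, (r k).den = (r k).den * c := fun k =>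
    Finset.dvd_prod_of_mem _ (Finset.mem_univ k)
  choose c hc using h1
  refine ⟨∏ k, (r k).den, fun k => c k * (r k).num, ?_, fun k => ?_⟩
  · exact Finset.prod_induction _ Odd (fun _ _ => Odd.mul) odd_one fun k _ =>
      Nat.odd_iff.2 (by have := h k; omega)
  · rw [hc k]
    push_cast
    rw [← Rat.den_mul_eq_num]
    ring

variable {N : ℕ} [NeZero N]

/-- the coefficients as linear forms -/
def cfL (N k : ℕ) [NeZero N] (n : ℕ) : MF N k →ₗ[ℂ] ℂ where
  toFun f := cf f n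
  map_add' f g := cf_unique _ (fun n => cf f n + cf g n) (fun τ => by
    simpa [add_mul] using (hasSum_form f τ).add (hasSum_form g τ)) n
  map_smul' c f := cf_unique _ (fun n => c * cf f n) (fun τ => by
    simpa [mul_assoc] using (hasSum_form f τ).mul_left c) n

theorem cfL_apply {k : ℕ} (n : ℕ) (f : MF N k) : cfL N k n f = cf f n := rfl

theorem mem_SM {a : ℕ} (f : MF N (2 * a + 2)) :
    PowerSeries.mk (cf f) ∈ SM (Gamma1 N) (a + 1) :=
  ⟨f, by
    rw [show 2 * ((a + 1 : ℕ) : ℤ) = ((2 * a + 2 : ℕ) : ℤ) by push_cast; ring]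
    exact isMF_of_form (Gamma1 N) f, sp_mk.2 (hasSum_form f)⟩

/-- depletion -/
theorem ex_dep (M : ℕ) [NeZero M] {k : ℕ} (f : MF N k) : ∃ g : MF (N * M ^ 2) k,
    ∀ n, cf g n = if n.Coprime M then cf f n else 0 := by
  classical
  let c := ZMod.dft.symm fun u : ZMod M => if IsUnit (-u) then (1 : ℂ) else 0
  refine ⟨∑ u, c u • tz N M u k f, fun n => ?_⟩
  have h1 : ZMod.dft c (-(n : ZMod M)) = _ := congrFun (LinearEquiv.apply_symm_apply _ _) _
  rw [ZMod.dft_apply, neg_neg] at h1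
  simp only [ZMod.isUnit_iff_coprime, mul_neg, neg_neg, smul_eq_mul] at h1
  rw [← cfL_apply, map_sum]
  simp only [map_smul, cfL_apply, cf_tz, smul_eq_mul, ← mul_assoc, ← Finset.sum_mul]
  rw [Finset.sum_congr rfl fun u _ => mul_comm (c u) _, h1]
  split_ifs <;> simp

/-- the depleted and normalised coefficients -/
def nc (N m n : ℕ) [NeZero N] : MF N (2 * m + 2) →ₗ[ℂ] ℂ :=
  if n.Coprime (2 * N) then ((n : ℂ) ^ m)⁻¹ • cfL N _ n else 0

/-- **UCR**: the integral linear relations between the normalised coefficients of the forms of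
weight at most `2 B + 2` hold for `x` modulo `2 ^ j` -/
def UCR (N : ℕ) [NeZero N] {O : Type*} [CommRing O] (x : ℕ → O) (B j : ℕ) : Prop :=
  ∀ (ι : Type) [Fintype ι] (a : ι → ℤ) (p : ι → ℕ),
    (∀ m ≤ B, ∀ f : MF N (2 * m + 2), ∑ i, (a i : ℂ) * nc N m (p i) f = 0) →
    2 ^ j ∣ ∑ i, (a i : O) * x (p i)

/-- **FUN**, relation form -/
theorem fun_rel {O E : Type*} [CommRing O] [Field E] [CharZero E] [Algebra O E]
    (hodd : ∀ n : ℕ, Odd n → IsUnit (n : O)) {x : ℕ → O} {B j : ℕ} (h : UCR N x B j) :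
    ∃ G : O⟦X⟧, PowerSeries.map (algebraMap O E) G ∈ QE E (Gamma1 (N * (2 * N) ^ 2)) (1 + B) ∧
      ∀ n : ℕ, (2 : O) ^ j ∣ (n : O) ^ B * x n - coeff n G := by
  classical
  haveI : NeZero (2 * N) := ⟨mul_ne_zero two_ne_zero (NeZero.ne N)⟩
  obtain ⟨Γ, hΓ⟩ : ∃ Γ, Γ = Gamma1 (N * (2 * N) ^ 2) := ⟨_, rfl⟩
  haveI : Γ.FiniteIndex := hΓ ▸ inferInstance
  rw [← hΓ]
  let v := Rat.padicValuation 2
  let V : Submodule ℚ ℚ⟦X⟧ :=
    { carrier := {y | PowerSeries.map (algebraMap ℚ ℂ) y ∈ QC Γ (1 + B) ∧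
        ∃ g, ∀ n, v (coeff n y) ≤ g}
      zero_mem' := ⟨by simp, 0, by simp⟩
      add_mem' := fun ⟨h1, g, h2⟩ ⟨h3, g', h4⟩ => ⟨by rw [map_add]; exact add_mem h1 h3,
        max g g', fun n => by
          rw [map_add]
          exact v.map_add_le ((h2 n).trans (le_max_left _ _)) ((h4 n).trans (le_max_right _ _))⟩
      smul_mem' := fun c y ⟨h1, g, h2⟩ => ⟨by
          rw [smul_eq_C_mul, map_mul, map_C, ← smul_eq_C_mul]
          exact Submodule.smul_mem _ _ h1, v c * g, fun n => by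
          rw [map_smul, smul_eq_mul, map_mul]
          exact mul_le_mul_right (h2 n) _⟩ }
  haveI := (QC.dim (Γ := Γ) (1 + B)).1
  haveI := (Rt.dim (E := ℚ) (QC Γ (1 + B))).1
  haveI : FiniteDimensional ℚ V := Submodule.finiteDimensional_of_le
    (show V ≤ Rt ℚ (QC Γ (1 + B)) from fun y hy => by
      convert Rt.of (E := ℚ) hy.1 using 1
      ext n
      simp)
  obtain ⟨b, p, r1, r2⟩ := echelon v _ V rfl fun y hy => hy.2
  have key : ∀ m ≤ B, ∀ (f : MF N (2 * m + 2)) (n : ℕ), (n : ℂ) ^ B * nc N m n f =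
      ∑ k, ((p k : ℂ) ^ B * nc N m (p k) f) * (coeff n (b k) : ℚ) := fun m hm f n => by
    obtain ⟨t, t1, t2⟩ := ratq N (2 * m + 2) ⟨m + 1, by ring⟩ (by omega)
    obtain ⟨r, rfl⟩ := Nat.exists_eq_add_of_le hm
    have h1 : f ∈ Submodule.span ℂ (t : Set (MF N (2 * m + 2))) := t1 ▸ Submodule.mem_top
    induction h1 using Submodule.span_induction with
    | zero => simp
    | add f g _ _ hf hg => simp only [map_add, mul_add, add_mul, Finset.sum_add_distrib, hf, hg]
    | smul c f _ hf =>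
      simp only [map_smul, smul_eq_mul, mul_left_comm _ c, mul_assoc c, ← Finset.mul_sum, hf]
    | mem f hf =>
      obtain ⟨c, hc⟩ := t2 f hf
      obtain ⟨g, hg⟩ := ex_dep (2 * N) f
      let y : ℚ⟦X⟧ := PowerSeries.mk fun n => (n : ℚ) ^ r * if n.Coprime (2 * N) then c n else 0
      have e : ∀ n : ℕ, (n : ℂ) ^ (m + r) * nc N m n f = (coeff n y : ℚ) := fun n => by
        rw [coeff_mk, nc]
        split_ifs with hn
        · have : (n : ℂ) ≠ 0 := Nat.cast_ne_zero.2 (by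
            rintro rfl
            have := Nat.coprime_zero_left _ |>.1 hn
            omega)
          rw [LinearMap.smul_apply, cfL_apply, (hc n).1, smul_eq_mul]
          push_cast
          field_simp
          ring
        · simp
      have hy : y ∈ V := by
        refine ⟨?_, 1, fun n => ?_⟩
        · have h2 : ∀ r, th^[r] (PowerSeries.mk (cf g)) ∈ QC Γ (m + 1 + r) := fun r => by
            induction r with
            | zero => exact QC.of (hΓ ▸ mem_SM g)
            | succ r ih => rw [Function.iterate_succ_apply']; exact QC.th ih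
          rw [show 1 + (m + r) = m + 1 + r by ring]
          convert h2 r using 1
          ext n
          rw [coeff_map, coeff_mk, coeff_th_iter, coeff_mk, hg]
          split_ifs <;> simp [(hc n).1]
        · rw [coeff_mk, map_mul, map_pow]
          refine mul_le_one' (pow_le_one' (Rat.padicValuation_le_one_iff.2 (by simp)) _) ?_
          split_ifs
          · exact Rat.padicValuation_le_one_iff.2 (hc n).2.not_two_dvd_nat
          · simp
      simp only [e]
      nth_rewrite 1 [r2 y hy]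
      simp
  have k2 : ∀ n : ℕ, ∃ o : _ → O, (∀ k, algebraMap O E (o k) = (coeff n (b k) : ℚ)) ∧
      (2 : O) ^ j ∣ (n : O) ^ B * x n - ∑ k, o k * ((p k : O) ^ B * x (p k)) := fun n => by
    obtain ⟨D, a, h1, h2⟩ := ex_int (fun k => coeff n (b k)) fun k =>
      Rat.padicValuation_le_one_iff.1 ((r1 k).2 n)
    obtain ⟨u, hu⟩ := (hodd D h1).exists_left_inv
    have hD : (D : E) ≠ 0 := Nat.cast_ne_zero.2 h1.pos.ne'
    refine ⟨fun k => u * a k, fun k => mul_left_cancel₀ hD ?_, ?_⟩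
    · rw [← map_natCast (algebraMap O E), ← map_mul, ← mul_assoc, mul_comm _ u, hu, one_mul,
        map_intCast, map_natCast]
      exact_mod_cast congrArg (Rat.cast : ℚ → E) (h2 k)
    · have h3 := h (Option (Fin _)) (fun i => i.elim (D * n ^ B) fun k => -(a k * p k ^ B))
        (fun i => i.elim n p) fun m hm f => by
          simp only [Fintype.sum_option, Option.elim]
          push_cast
          rw [mul_assoc, key m hm f n, Finset.mul_sum, ← Finset.sum_add_distrib]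
          refine Finset.sum_eq_zero fun k _ => ?_
          have h4 : (a k : ℂ) = D * (coeff n (b k) : ℚ) := by
            exact_mod_cast congrArg (Rat.cast : ℚ → ℂ) (h2 k)
          rw [h4]
          ring
      simp only [Fintype.sum_option, Option.elim] at h3
      push_cast at h3
      convert h3.mul_left u using 1
      rw [mul_add, Finset.mul_sum, ← mul_assoc, ← mul_assoc, hu, one_mul, sub_eq_add_neg,
        ← Finset.sum_neg_distrib]
      exact congrArg _ (Finset.sum_congr rfl fun k _ => by ring)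
  choose o o1 o2 using k2
  refine ⟨PowerSeries.mk fun n => ∑ k, o n k * ((p k : O) ^ B * x (p k)), ?_, fun n => by
    rw [coeff_mk]; exact o2 n⟩
  refine (congrArg (· ∈ _) (PowerSeries.ext fun n => ?_)).mp (sum_mem (t := Finset.univ)
    fun k _ => Submodule.smul_mem _ (algebraMap O E ((p k : O) ^ B * x (p k)))
      (Rt.of (E := E) (r1 k).1.1))
  simp only [coeff_map, coeff_mk, map_sum, map_smul, smul_eq_mul, map_mul (algebraMap O E) (o _ _),
    o1, eq_ratCast, mul_comm]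

/-! ### the operator form -/

/-- forms with trivial character -/
def Tv {k : ℕ} (f : MF N k) : Prop := ∀ ℓ : PA N, dia k ℓ f = f

/-- words in the normalised Hecke operators -/
def wd (N m : ℕ) [NeZero N] : FreeAlgebra ℤ (PA N) →ₐ[ℤ] Module.End ℂ (MF N (2 * m + 2)) :=
  FreeAlgebra.lift ℤ fun ℓ => ((ℓ.1 : ℂ) ^ m)⁻¹ • Tl (2 * m + 2) ℓ

/-- **UCA**: a word which kills the forms of weight at most `2 B + 2` is zero modulo `2 ^ j` -/
def UCA (N : ℕ) [NeZero N] {O : Type*} [CommRing O] (x : ℕ → O) (B j : ℕ) : Prop :=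
  ∀ P : FreeAlgebra ℤ (PA N), (∀ m ≤ B, ∀ f, Tv f → wd N m P f = 0) →
    2 ^ j ∣ FreeAlgebra.lift ℤ (fun ℓ : PA N => x ℓ.1) P

theorem wd_comm {m : ℕ} {T : Module.End ℂ (MF N (2 * m + 2))}
    (h : ∀ ℓ f, T (Tl _ ℓ f) = Tl _ ℓ (T f)) (P : FreeAlgebra ℤ (PA N)) :
    ∀ f, T (wd N m P f) = wd N m P (T f) := by
  induction P using FreeAlgebra.induction with
  | grade0 r => intro f; simp [Algebra.algebraMap_eq_smul_one]
  | grade1 ℓ => intro f; simp [wd, h]
  | mul a b ha hb => intro f; simp only [map_mul, Module.End.mul_apply, ha, hb]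
  | add a b ha hb => intro f; simp only [map_add, LinearMap.add_apply, ha, hb]

theorem dia_Tl (k : ℕ) (ℓ ℓ' : PA N) (f : MF N k) : dia k ℓ (Tl k ℓ' f) = Tl k ℓ' (dia k ℓ f) :=
  (Tl_slG0 k ℓ' _ f).symm

theorem Tv.tl {k : ℕ} {f : MF N k} (h : Tv f) (ℓ : PA N) : Tv (Tl k ℓ f) := fun ℓ' => by
  rw [dia_Tl, h]

theorem Tv.wd {m : ℕ} {f : MF N (2 * m + 2)} (h : Tv f) (P : FreeAlgebra ℤ (PA N)) :
    Tv (wd N m P f) := fun ℓ => by rw [wd_comm (dia_Tl _ ℓ), h]

theorem Tv.cf_tl {k : ℕ} {f : MF N k} (h : Tv f) (ℓ : PA N) (n : ℕ) : cf (Tl k ℓ f) n =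
    cf f (ℓ.1 * n) + if ℓ.1 ∣ n then (ℓ.1 : ℂ) ^ ((k : ℤ) - 1) * cf f (n / ℓ.1) else 0 :=
  cf_unique _ _ (hasSum_Tl k ℓ (hasSum_form f) (by rw [h]; exact hasSum_form f)) n

theorem wd_kill (h2 : 2 ∣ N) {m : ℕ} {P : FreeAlgebra ℤ (PA N)}
    (h : ∀ f, Tv f → cf (wd N m P f) 1 = 0) (f : MF N (2 * m + 2)) (hf : Tv f) :
    wd N m P f = 0 := by
  refine zero_of_coeff (by omega) _ fun n hn => ?_
  induction n using Nat.strong_induction_on generalizing f with
  | _ n ih =>
    rcases hn.eq_or_lt with rfl | h1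
    · exact h f hf
    obtain ⟨p, hp, n, rfl⟩ := Nat.exists_prime_and_dvd h1.ne'
    have h3 : 0 < n := Nat.pos_of_mul_pos_left hn
    have h4 : n < p * n := lt_mul_left h3 hp.one_lt
    by_cases hN : p ∣ N
    · rw [← coeff_Up hp hN, wd_comm (Up_Tl hp hN _)]
      exact ih n h4 _ (fun ℓ => by rw [← Up_dia, hf]) h3
    · let ℓ : PA N := ⟨p, hp, fun e => hN (by
        rcases (Nat.Prime.dvd_mul hp).1 e with e | e
        · exact e.trans h2
        · exact e)⟩
      have h5 := (hf.wd P).cf_tl ℓ n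
      rw [wd_comm (Tl_Tl _ ℓ), show cf _ n = 0 from ih n h4 _ (hf.tl ℓ) h3] at h5
      split_ifs at h5 with h6
      · rw [show cf _ (n / p) = 0 from ih _ ((Nat.div_le_self _ _).trans_lt h4) _ hf
          (Nat.div_pos (Nat.le_of_dvd h3 h6) hp.pos), mul_zero, add_zero] at h5
        exact h5.symm
      · exact ((add_zero _).symm.trans h5.symm)

/-- a normalised formal eigenform of weight two -/
structure Ew (N : ℕ) {O : Type*} [CommRing O] (x : ℕ → O) : Prop where
  one : x 1 = 1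
  dep : ∀ n, ¬ n.Coprime (2 * N) → x n = 0
  hecke : ∀ (ℓ : PA N) (n : ℕ),
    x (ℓ.1 * n) + (if ℓ.1 ∣ n then (ℓ.1 : O) * x (n / ℓ.1) else 0) = x ℓ.1 * x n

theorem ex_word {O : Type*} [CommRing O] {x : ℕ → O} (hx : Ew N x) (n : ℕ) :
    ∃ τ : FreeAlgebra ℤ (PA N), (∀ m f, Tv f → cf (wd N m τ f) 1 = nc N m n f) ∧
      FreeAlgebra.lift ℤ (fun ℓ : PA N => x ℓ.1) τ = x n := by
  induction n using Nat.strong_induction_on with
  | _ n ih =>
    by_cases hn : n.Coprime (2 * N)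
    swap
    · exact ⟨0, fun m f _ => by simp [nc, hn, ← cfL_apply], by simp [hx.dep n hn]⟩
    by_cases h1 : n = 1
    · exact ⟨1, fun m f _ => by simp [nc, h1, cfL_apply], by simp [h1, hx.one]⟩
    obtain ⟨p, hp, n, rfl⟩ := Nat.exists_prime_and_dvd h1
    have h3 : 0 < n := Nat.pos_of_ne_zero (by
      rintro rfl
      have := Nat.coprime_zero_left _ |>.1 hn
      omega)
    have h4 : n < p * n := lt_mul_left h3 hp.one_lt
    obtain ⟨ℓ, rfl⟩ : ∃ ℓ : PA N, ℓ.1 = p :=
      ⟨⟨p, hp, (Nat.Prime.coprime_iff_not_dvd hp).1 hn.coprime_mul_right⟩, rfl⟩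
    have p0 : (ℓ.1 : ℂ) ≠ 0 := Nat.cast_ne_zero.2 hp.ne_zero
    have n0 : (n : ℂ) ≠ 0 := Nat.cast_ne_zero.2 h3.ne'
    obtain ⟨τ, a1, a2⟩ := ih n h4
    obtain ⟨τ', b1, b2⟩ := ih (n / ℓ.1) ((Nat.div_le_self _ _).trans_lt h4)
    refine ⟨τ * FreeAlgebra.ι ℤ ℓ - if ℓ.1 ∣ n then (ℓ.1 : ℤ) • τ' else 0, fun m f hf => ?_, ?_⟩
    · have e1 : wd N m (τ * FreeAlgebra.ι ℤ ℓ) f = ((ℓ.1 : ℂ) ^ m)⁻¹ • wd N m τ (Tl _ ℓ f) := by
        simp [wd]
      have e2 := a1 m _ (hf.tl ℓ)
      rw [nc, if_pos hn.coprime_mul_left, LinearMap.smul_apply, cfL_apply, hf.cf_tl,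
        ← cfL_apply] at e2
      rw [← cfL_apply, map_sub, LinearMap.sub_apply, map_sub, e1, map_smul, e2, nc, if_pos hn,
        LinearMap.smul_apply, cfL_apply]
      split_ifs with h6
      · obtain ⟨n, rfl⟩ := h6
        have e3 := b1 m f hf
        rw [Nat.mul_div_cancel_left _ hp.pos] at e3 ⊢
        rw [nc, if_pos hn.coprime_mul_left.coprime_mul_left, LinearMap.smul_apply,
          cfL_apply] at e3
        rw [map_zsmul, LinearMap.smul_apply, ← cfL_apply 1, map_zsmul, cfL_apply 1, e3,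
          show ((2 * m + 2 : ℕ) : ℤ) - 1 = (2 * m + 1 : ℕ) by push_cast; ring, zpow_natCast,
          cfL_apply]
        have : (n : ℂ) ≠ 0 := fun e => n0 (by simp [e])
        simp only [smul_eq_mul, zsmul_eq_mul]
        push_cast
        field_simp
        ring
      · rw [← cfL_apply 1, cfL_apply (_ * _)]
        simp [mul_pow, mul_comm, mul_left_comm, mul_assoc]
    · have := hx.hecke ℓ n
      rw [map_sub, map_mul, a2, FreeAlgebra.lift_ι_apply, mul_comm, ← this]
      split_ifs <;> simp [b2]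

/-- relations which are only tested on forms with trivial character -/
theorem rel_of_uca (h2 : 2 ∣ N) {O : Type*} [CommRing O] {x : ℕ → O} (hx : Ew N x) {B j : ℕ}
    (h : UCA N x B j) (ι : Type) [Fintype ι] (a : ι → ℤ) (p : ι → ℕ)
    (hr : ∀ m ≤ B, ∀ f : MF N (2 * m + 2), Tv f → ∑ i, (a i : ℂ) * nc N m (p i) f = 0) :
    2 ^ j ∣ ∑ i, (a i : O) * x (p i) := by
  choose τ t1 t2 using ex_word hx
  have := h (∑ i, a i • τ (p i)) fun m hm => wd_kill h2 fun f hf => by
    rw [← hr m hm f hf, ← cfL_apply, map_sum, LinearMap.sum_apply, map_sum]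
    refine Finset.sum_congr rfl fun i _ => ?_
    rw [map_zsmul, LinearMap.smul_apply, map_zsmul, cfL_apply, t1 _ _ _ hf, zsmul_eq_mul]
  simpa [t2] using this

theorem ucr_of_uca (h2 : 2 ∣ N) {O : Type*} [CommRing O] {x : ℕ → O} (hx : Ew N x) {B j : ℕ}
    (h : UCA N x B j) : UCR N x B j := fun ι _ a p hr =>
  rel_of_uca h2 hx h ι a p fun m hm f _ => hr m hm f

end Vale.Agent.P022K.UC.Hm
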