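import Vale.Agent.P022.H218.L3.Amb

/-!
# P022K, block UC, step (4): the two halves as statements
-/

set_option autoImplicit false

open UpperHalfPlane ModularForm CongruenceSubgroup
open scoped MatrixGroups ModularForm

noncomputable section

namespace Vale.Agent.P022K.UC

open Vale.Agent.P022.H218.L3

/-- `F` is the sum of the series `∑ c n q ^ n` -/
def Sm (c : ℕ → ℂ) (F : ℍ → ℂ) : Prop :=
  ∀ τ : ℍ, HasSum (fun n : ℕ => c n • Function.Periodic.qParam (1 : ℝ) (τ : ℂ) ^ n) (F τ)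

/-- a normalised formal eigenform of weight `k` for all primes outside `S`, depleted at the primes
in `S`, of polynomial growth -/
structure Eig (S : Finset ℕ) (k : ℤ) (c : ℕ → ℂ) : Prop where
  two : 2 ∈ S
  one : c 1 = 1
  dep : ∀ p ∈ S, p.Prime → ∀ n, p ∣ n → c n = 0
  hecke : ∀ l n : ℕ, l.Prime → l ∉ S →
    c (l * n) + (l : ℂ) ^ (k - 1) * (if l ∣ n then c (n / l) else 0) = c l * c n
  growth : ∃ A : ℕ, ∀ n, ‖c n‖ ≤ ((n : ℝ) + 2) ^ A

theorem Eig.zero {S : Finset ℕ} {k : ℤ} {c : ℕ → ℂ} (h : Eig S k c) : c 0 = 0 :=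
  h.dep 2 h.two Nat.prime_two 0 (dvd_zero 2)

/-- the expansion of `E₂` -/
def e2 : PowerSeries ℂ :=
  PowerSeries.mk fun n => if n = 0 then 1 else -24 * (ArithmeticFunction.sigma 1 n : ℂ)

/-- the expansion of `E₄` -/
def e4 : PowerSeries ℂ :=
  PowerSeries.mk fun n => if n = 0 then 1 else 240 * (ArithmeticFunction.sigma 3 n : ℂ)

/-- the expansion of `E₆` -/
def e6 : PowerSeries ℂ :=
  PowerSeries.mk fun n => if n = 0 then 1 else -504 * (ArithmeticFunction.sigma 5 n : ℂ)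

/-- **AMA**: an eigenform which is algebraic over the quasi-modular forms has a twist which is fixed
by a subgroup of finite index -/
def AMA : Prop := ∀ (S : Finset ℕ) (κ : ℕ) (c : ℕ → ℂ) (D : ℕ) (P : MvPolynomial (Fin 4) ℂ),
  Eig S (2 * κ) c → κ ≠ 0 → P ≠ 0 → P.IsWeightedHomogeneous ![2, 4, 6, 2 * κ] D →
  MvPolynomial.aeval ![e2, e4, e6, PowerSeries.mk c] P = 0 →
  ∃ (s : ℕ) (Γ : Subgroup SL(2, ℤ)) (F : ℍ → ℂ), Γ.FiniteIndex ∧
    Sm (fun n => c n / (n : ℂ) ^ s) F ∧ ∀ γ ∈ Γ, F ∣[(2 * ((κ : ℤ) - s))] γ = F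

/-- **AMB**: an eigenform which is fixed by a subgroup of finite index is modular of a level whose
primes are in `S` -/
def AMB : Prop := ∀ (S : Finset ℕ) (w : ℤ) (c : ℕ → ℂ) (Γ : Subgroup SL(2, ℤ)) (F : ℍ → ℂ),
  Eig S (2 * w) c → Γ.FiniteIndex → Sm c F → (∀ γ ∈ Γ, F ∣[2 * w] γ = F) →
  0 < w ∧ ∃ M : ℕ, M ≠ 0 ∧ (∀ l : ℕ, l.Prime → l ∣ M → l ∈ S) ∧ IsMF (Gamma0 M) (2 * w) F

/-- twisting by a power of `θ⁻¹` -/
theorem Eig.twist {S : Finset ℕ} {k : ℤ} {c : ℕ → ℂ} (h : Eig S k c) (s : ℕ) :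
    Eig S (k - 2 * s) fun n => c n / (n : ℂ) ^ s where
  two := h.two
  one := by simp [h.one]
  dep p hp hp' n hn := by simp [h.dep p hp hp' n hn]
  hecke l n hl h2 := by
    have hl0 : (l : ℂ) ≠ 0 := by exact_mod_cast hl.ne_zero
    rcases Nat.eq_zero_or_pos n with rfl | hn
    · simp [h.zero]
    have hn0 : (n : ℂ) ≠ 0 := by exact_mod_cast hn.ne'
    have e : (l : ℂ) ^ (k - 2 * s - 1) = (l : ℂ) ^ (k - 1) / (l : ℂ) ^ (2 * s) := by
      rw [← zpow_natCast, ← zpow_sub₀ hl0]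
      congr 1
      push_cast
      ring
    have h1 := h.hecke l n hl h2
    rw [e, div_mul_div_comm, ← h1]
    split_ifs with hd
    · obtain ⟨m, rfl⟩ := hd
      have hm0 : (m : ℂ) ≠ 0 := by
        rintro hm
        apply hn0
        push_cast
        rw [hm, mul_zero]
      rw [Nat.mul_div_cancel_left m hl.pos]
      push_cast
      field_simp
      ring
    · push_cast
      rw [mul_pow]
      ring
  growth := by
    obtain ⟨A, hA⟩ := h.growth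
    refine ⟨A, fun n => le_trans ?_ (hA n)⟩
    rcases Nat.eq_zero_or_pos n with rfl | hn
    · simp [h.zero]
    rw [norm_div, norm_pow, Complex.norm_natCast]
    exact div_le_self (norm_nonneg _) (one_le_pow₀ (by exact_mod_cast hn))

/-- **step (4)** -/
theorem am_of (hA : AMA) (hB : AMB) {S : Finset ℕ} {κ : ℕ} {c : ℕ → ℂ} {D : ℕ}
    {P : MvPolynomial (Fin 4) ℂ} (h : Eig S (2 * κ) c) (hκ : κ ≠ 0) (hP : P ≠ 0)
    (hD : P.IsWeightedHomogeneous ![2, 4, 6, 2 * κ] D)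
    (h0 : MvPolynomial.aeval ![e2, e4, e6, PowerSeries.mk c] P = 0) :
    ∃ (s M : ℕ) (F : ℍ → ℂ), s < κ ∧ M ≠ 0 ∧ (∀ l : ℕ, l.Prime → l ∣ M → l ∈ S) ∧
      Sm (fun n => c n / (n : ℂ) ^ s) F ∧ IsMF (Gamma0 M) (2 * ((κ : ℤ) - s)) F := by
  obtain ⟨s, Γ, F, h1, h2, h3⟩ := hA S κ c D P h hκ hP hD h0
  have h4 : Eig S (2 * ((κ : ℤ) - s)) fun n => c n / (n : ℂ) ^ s := by
    have := h.twist s
    rwa [show (2 * (κ : ℤ) - 2 * s) = 2 * ((κ : ℤ) - s) by ring] at this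
  obtain ⟨h5, M, h6, h7, h8⟩ := hB S _ _ Γ F h4 h1 h2 h3
  exact ⟨s, M, F, by omega, h6, h7, h2, h8⟩

end Vale.Agent.P022K.UC
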