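import Vale.Agent.P022K.UC.Alg2

/-!
# P022K, block UC, step (4B): an eigenform for a subgroup of finite index has a level in `S`
-/

set_option linter.all false

open UpperHalfPlane ModularForm ModularGroup CongruenceSubgroup
open Function.Periodic (qParam)
open scoped MatrixGroups ModularForm Real Topology Manifold

noncomputable section

namespace Vale.Agent.P022K.UC.Ab

open Vale.Agent.P022.H218.L3

/-- the stabiliser of a function -/
def stab (k : ℤ) (F : ℍ → ℂ) : Subgroup SL(2, ℤ) where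
  carrier := {γ | F ∣[k] γ = F}
  mul_mem' {a b} ha hb := by
    show F ∣[k] (a * b) = F
    rw [SlashAction.slash_mul, ha, hb]
  one_mem' := SlashAction.slash_one _ _
  inv_mem' {a} ha := by
    show F ∣[k] a⁻¹ = F
    conv_lhs => rw [← show F ∣[k] a = F from ha, ← SlashAction.slash_mul, mul_inv_cancel,
      SlashAction.slash_one]

theorem mem_stab {k : ℤ} {F : ℍ → ℂ} {γ : SL(2, ℤ)} :
    γ ∈ stab k F ↔ ∀ τ : ℍ, F (γ • τ) = ((γ 1 0 : ℂ) * τ + γ 1 1) ^ k * F τ :=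
  ⟨fun h τ => (slash_action_eq'_iff k F γ τ).1 (congrFun h τ),
    fun h => funext fun τ => (slash_action_eq'_iff k F γ τ).2 (h τ)⟩

/-- a matrix of determinant one -/
def sl (a b c d : ℤ) (h : a * d - b * c = 1) : SL(2, ℤ) :=
  ⟨!![a, b; c, d], by rwa [Matrix.det_fin_two_of]⟩

theorem sl_apply (a b c d : ℤ) (h : a * d - b * c = 1) : sl a b c d h 0 0 = a ∧
    sl a b c d h 0 1 = b ∧ sl a b c d h 1 0 = c ∧ sl a b c d h 1 1 = d := ⟨rfl, rfl, rfl, rfl⟩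

theorem det_eq (γ : SL(2, ℤ)) : γ 0 0 * γ 1 1 - γ 0 1 * γ 1 0 = 1 := by
  rw [← Matrix.det_fin_two, γ.det_coe]

variable {S₀ : Finset ℕ} {k : ℤ} {c : ℕ → ℂ} {F : ℍ → ℂ}

theorem T_mem (hF : Sm c F) : T ∈ stab k F := mem_stab.2 fun τ => by
  have h1 : qParam 1 ((T • τ : ℍ) : ℂ) = qParam 1 τ := by
    rw [modular_T_smul, qParam, qParam]
    simp [mul_add, Complex.exp_add, Complex.exp_two_pi_mul_I]
  have h2 := hF (T • τ)
  rw [h1] at h2
  simpa [T] using h2.unique (hF τ)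

theorem mem_of_c (hF : Sm c F) (hk : Even k) {γ : SL(2, ℤ)} (h : γ 1 0 = 0) : γ ∈ stab k F := by
  have h1 := det_eq γ
  rw [h, mul_zero, sub_zero] at h1
  refine mem_stab.2 fun τ => ?_
  have h2 := mem_stab.1 ((stab k F).zpow_mem (T_mem hF) (γ 0 1 * γ 1 1)) τ
  have h3 : γ • τ = T ^ (γ 0 1 * γ 1 1) • τ := UpperHalfPlane.ext (by
    have h4 := coe_smul_mul γ τ
    rw [modular_T_zpow_smul]
    rcases Int.eq_one_or_neg_one_of_mul_eq_one' h1 with ⟨h5, h6⟩ | ⟨h5, h6⟩ <;>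
      simp [h, h5, h6] at h4 ⊢
    · linear_combination h4
    · linear_combination -h4)
  rw [h3, h2, coe_T_zpow, h]
  rcases Int.eq_one_or_neg_one_of_mul_eq_one' h1 with ⟨-, h6⟩ | ⟨-, h6⟩ <;> simp [h6, hk.neg_one_zpow]

/-- the Hecke relation at the cusp `0` -/
theorem rel_S (hc : Eig S₀ k c) (hF : Sm c F) {l : ℕ} [hl : Fact l.Prime] (h2 : l ∉ S₀) {M : ℕ}
    (hM : (M : ZMod l) ≠ 0) (σ : ZMod l → SL(2, ℤ)) (ρ : ZMod l → ℤ)
    (hρ : ∀ r, (ρ r : ZMod l) = r) (h0 : ρ 0 = 0 ∧ σ 0 = S)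
    (hσ : ∀ r ≠ 0, σ r 1 0 = l ∧ σ r 1 1 = -(M * ρ r)) :
    ∑ r, (fun τ : ℍ => (F ∣[k] σ r) (ofComplex ((τ + ((M : ℝ) * ρ r : ℝ)) / l))) =
      (l : ℂ) • (c l • F ∣[k] S -
        (l : ℂ) ^ (k - 1) • fun τ : ℍ => (F ∣[k] S) (ofComplex (l * τ))) := by
  funext τ
  have hl0 := hl.out.ne_zero
  have hl1 : (l : ℂ) ≠ 0 := Nat.cast_ne_zero.2 hl0
  have hτ := τ.ne_zero
  have h3 := hecke_fun hc hF h2 (fun r => σ r 0 0)
    ((Equiv.mulLeft₀ (-(M : ZMod l)) (neg_ne_zero.2 hM)).trans (Equiv.inv _)) (fun r => by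
      by_cases h : r = 0
      · simp [h, h0.2, S]
      · have h4 := congrArg (Int.cast : ℤ → ZMod l) (det_eq (σ r))
        rw [(hσ r h).1, (hσ r h).2] at h4
        simp only [Equiv.trans_apply, Equiv.mulLeft₀_apply, Equiv.inv_apply]
        refine eq_inv_of_mul_eq_one_left ?_
        simpa [hρ] using h4) (S • τ)
  have h4 : ((S • τ : ℍ) : ℂ) = -1 / τ := by
    rw [eq_div_iff hτ]
    simpa [S] using coe_smul_mul S τ
  have h5 : ∀ r ≠ 0, F (ofComplex ((((S • τ : ℍ) : ℂ) + σ r 0 0) / l)) =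
      τ ^ k * (F ∣[k] σ r) (ofComplex ((τ + ((M : ℝ) * ρ r : ℝ)) / l)) := fun r h => by
    have h6 := congrArg (Int.cast : ℤ → ℂ) (det_eq (σ r))
    have h7 : (σ r 1 0 : ℂ) * ((τ + ((M : ℝ) * ρ r : ℝ)) / l) + σ r 1 1 = τ := by
      rw [(hσ r h).1, (hσ r h).2]
      push_cast
      field_simp
      ring
    rw [← smul_eq (σ r) (ofComplex ((τ + ((M : ℝ) * ρ r : ℝ)) / l))
      (by simpa using im_sb (S • τ) (σ r 0 0) hl0), slash_at F k, coe_of (im_sb τ _ hl0), h7]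
    rw [coe_of (im_sb τ _ hl0), h7, h4]
    rw [(hσ r h).1, (hσ r h).2] at h6
    push_cast at h6 ⊢
    field_simp
    linear_combination h6
  have h6 : F (ofComplex ((((S • τ : ℍ) : ℂ) + σ 0 0 0) / l)) =
      (l * τ) ^ k * (F ∣[k] S) (ofComplex (l * τ)) := by
    rw [← smul_eq S (ofComplex (l * τ)) (by simpa using im_sb (S • τ) (σ 0 0 0) hl0), slash_at F k,
      coe_of (im_up τ hl0)]
    · simp [S]
    · rw [coe_of (im_up τ hl0), h4, h0.2]
      simp [S]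
      field_simp
  have h7 : F (ofComplex (l * ((S • τ : ℍ) : ℂ))) =
      (τ / l) ^ k * (F ∣[k] σ 0) (ofComplex ((τ + ((M : ℝ) * ρ 0 : ℝ)) / l)) := by
    rw [← smul_eq S (ofComplex ((τ + ((M : ℝ) * ρ 0 : ℝ)) / l)) (im_up _ hl0), slash_at F k,
      coe_of (im_sb τ _ hl0), h0.2, h0.1]
    · simp [S]
    · rw [coe_of (im_sb τ _ hl0), h4, h0.1]
      simp [S]
      field_simp
  rw [← Finset.add_sum_erase _ _ (Finset.mem_univ 0), h6, h7, slash_at F k S τ,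
    Finset.sum_congr rfl fun r hr => h5 r (Finset.ne_of_mem_erase hr), ← Finset.mul_sum] at h3
  rw [Finset.sum_apply, ← Finset.add_sum_erase _ _ (Finset.mem_univ 0)]
  have h8 : (S 1 0 : ℂ) * τ + S 1 1 = τ := by simp [S]
  rw [h8, mul_zpow, div_zpow, zpow_sub_one₀ hl1] at h3
  simp only [Pi.smul_apply, Pi.sub_apply, smul_eq_mul, zpow_sub_one₀ hl1]
  have h9 := zpow_ne_zero k hl1
  refine mul_left_cancel₀ (zpow_ne_zero k hτ) ?_
  field_simp at h3 ⊢
  linear_combination h3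

theorem rm_prime (hc : Eig S₀ k c) (hF : Sm c F) (hk : Even k) {l : ℕ} [hl : Fact l.Prime] (h2 : l ∉ S₀)
    {N : ℕ} (h : Gamma0 (l * N) ≤ stab k F) : Gamma0 N ≤ stab k F := by
  have hl0 := hl.out.ne_zero
  have hl1 : (l : ℂ) ≠ 0 := Nat.cast_ne_zero.2 hl0
  have key : ∀ (a b c' d : ℤ) (h1 : a * d - l * b * (N * c') = 1),
      sl a (l * b) (N * c') d h1 ∈ stab k F := fun a b c' d h1 => mem_stab.2 fun z => by
    obtain ⟨τ, rfl⟩ : ∃ τ : ℍ, z = ofComplex (l * τ) := ⟨ofComplex ((z + (0 : ℝ)) / l),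
      UpperHalfPlane.ext (by rw [coe_of (im_up _ hl0), coe_of (im_sb _ _ hl0)]; field_simp; simp)⟩
    let γ := sl a b (l * N * c') d (by linear_combination h1)
    have h3 := mem_stab.1 (h (show γ ∈ Gamma0 (l * N) from Gamma0_mem.2 (by
      rw [(sl_apply ..).2.2.1, ← Nat.cast_mul, Int.cast_mul, Int.cast_natCast, ZMod.natCast_self,
        zero_mul]))) τ
    have h4 := coe_smul_mul γ τ
    have h5 : (d : ZMod l) ≠ 0 := fun h => by
      have := congrArg (Int.cast : ℤ → ZMod l) h1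
      simp [h] at this
    have h6 := hecke_fun hc hF h2 (fun r => r.val) (Equiv.refl _) (by simp) (γ • τ)
    have h7 := hecke_fun hc hF h2 (fun r => (b + r.val * d) * d)
      (((Equiv.mulRight₀ _ h5).trans (Equiv.addLeft (b : ZMod l))).trans (Equiv.mulRight₀ _ h5))
      (by simp) τ
    have h1' := congrArg (Int.cast : ℤ → ℂ) h1
    rw [(sl_apply ..).2.2.1, (sl_apply ..).2.2.2] at h3 h4
    rw [(sl_apply ..).1, (sl_apply ..).2.1] at h4
    have h8 : ∀ r : ZMod l, F (ofComplex ((((γ • τ : ℍ) : ℂ) + (r.val : ℤ)) / l)) =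
        (((l * N * c' : ℤ) : ℂ) * τ + d) ^ k *
          F (ofComplex ((τ + ((b + r.val * d) * d : ℤ)) / l)) := fun r => by
      let δ := sl (a + r.val * (l * N * c')) (-((b + r.val * d) * (N * c') * (b + r.val * d)))
        (l * (l * N * c')) (d - l * N * c' * ((b + r.val * d) * d)) (by
          linear_combination (1 - l * N * c' * (b + r.val * d)) * h1)
      have h9 := mem_stab.1 (h (show δ ∈ Gamma0 (l * N) from Gamma0_mem.2 (by
        rw [(sl_apply ..).2.2.1, ← Nat.cast_mul, Int.cast_mul, Int.cast_mul, Int.cast_natCast,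
          Int.cast_natCast, ZMod.natCast_self, zero_mul, mul_zero]))) (ofComplex ((τ + ((b + r.val * d) * d : ℤ)) / l))
      have h10 := im_sb τ ((b + r.val * d) * d : ℤ) hl0
      rw [Complex.ofReal_intCast] at h10
      rw [smul_eq δ _ (z := (((γ • τ : ℍ) : ℂ) + (r.val : ℤ)) / l)
        (by simpa only [Complex.ofReal_intCast] using im_sb (γ • τ) (r.val : ℤ) hl0),
        coe_of h10] at h9
      · rw [h9]
        congr 2
        simp only [δ, sl_apply]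
        push_cast
        field_simp
        ring
      · rw [coe_of h10]
        simp only [δ, sl_apply]
        push_cast at h4 h1' ⊢
        field_simp
        linear_combination h4 - (b + r.val * d) * h1'
    rw [Finset.sum_congr rfl fun r _ => h8 r, ← Finset.mul_sum, h7, h3] at h6
    rw [smul_eq _ _ (im_up (γ • τ) hl0), coe_of (im_up _ hl0)]
    · have h9 := zpow_ne_zero (k - 1) hl1
      have h10 : ((N * c' : ℤ) : ℂ) * (l * τ) + d = ((l * N * c' : ℤ) : ℂ) * τ + d := by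
        push_cast; ring
      refine mul_left_cancel₀ (mul_ne_zero hl1 h9) ?_
      simp only [sl_apply, h10]
      linear_combination h6
    · rw [coe_of (im_up _ hl0)]
      simp only [sl_apply]
      push_cast at h4 ⊢
      linear_combination l * h4
  have key2 : ∀ γ ∈ Gamma0 N, (γ 0 0 : ZMod l) ≠ 0 → γ ∈ stab k F := fun γ h1 h3 => by
    obtain ⟨c', hc'⟩ := (ZMod.intCast_zmod_eq_zero_iff_dvd _ _).1 (Gamma0_mem.1 h1)
    obtain ⟨j, hj⟩ := ZMod.intCast_surjective (-(γ 0 1 : ZMod l) / (γ 0 0 : ZMod l))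
    obtain ⟨b, hb⟩ := (ZMod.intCast_zmod_eq_zero_iff_dvd (γ 0 0 * j + γ 0 1) l).1 (by
      push_cast
      rw [hj]
      field_simp
      ring)
    have h4 := key (γ 0 0) b c' (γ 1 0 * j + γ 1 1) (by
      rw [← hb, ← hc']; linear_combination det_eq γ)
    refine ((stab k F).mul_mem_cancel_right ((stab k F).zpow_mem (T_mem hF) j)).1 ?_
    convert h4 using 1
    ext a b
    rw [Matrix.SpecialLinearGroup.coe_mul, coe_T_zpow]
    fin_cases a <;> fin_cases b <;> simp [sl, Matrix.mul_apply, Fin.sum_univ_two, ← hb, ← hc']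
  intro γ hγ
  by_cases h1 : (γ 0 0 : ZMod l) = 0
  · refine ((stab k F).mul_mem_cancel_left (T_mem hF)).1 (key2 _ ((Gamma0 N).mul_mem
      (Gamma0_mem.2 (by simp [T])) hγ) fun h3 => ?_)
    have h4 := congrArg (Int.cast : ℤ → ZMod l) (det_eq γ)
    rw [Matrix.SpecialLinearGroup.coe_mul, coe_T] at h3
    simp [Matrix.mul_apply, Fin.sum_univ_two, h1] at h3
    simp [h1, h3] at h4
  · exact key2 γ hγ h1

theorem rm_all (hc : Eig S₀ k c) (hF : Sm c F) (hk : Even k) (M : ℕ) (hM : M ≠ 0)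
    (h : Gamma0 M ≤ stab k F) :
    ∃ N, N ≠ 0 ∧ (∀ l : ℕ, l.Prime → l ∣ N → l ∈ S₀) ∧ Gamma0 N ≤ stab k F := by
  induction M using Nat.strong_induction_on with
  | _ M ih =>
    by_cases h1 : ∃ l, l.Prime ∧ l ∣ M ∧ l ∉ S₀
    · obtain ⟨l, hl, ⟨N, rfl⟩, h2⟩ := h1
      have : Fact l.Prime := ⟨hl⟩
      have h3 := Nat.pos_of_ne_zero (right_ne_zero_of_mul hM)
      exact ih N (by nlinarith [hl.two_le]) h3.ne' (rm_prime hc hF hk h2 h)
    · push Not at h1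
      exact ⟨M, hM, h1, h⟩

theorem ex_const (h : ℝ) (κ : ℂ) : Ex h (Pi.single 0 κ) fun _ => κ := fun τ => by
  simpa using hasSum_single (f := fun n : ℕ => (Pi.single 0 κ : ℕ → ℂ) n • qParam h (τ : ℂ) ^ n) 0
    fun n hn => by simp [hn]

/-- a modular form as an object of Mathlib -/
def toMF {Γ : Subgroup SL(2, ℤ)} [Γ.FiniteIndex] (h : IsMF Γ k F) : ModularForm Γ k where
  toFun := F
  slash_action_eq' := by
    rintro _ ⟨γ, hγ, rfl⟩
    exact h.slash γ hγ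
  holo' := h.hol
  bdd_at_cusps' {c} hc := by
    rw [OnePoint.isBoundedAt_iff_forall_SL2Z
      ((Subgroup.IsArithmetic.isCusp_iff_isCusp_SL2Z _).1 hc)]
    exact fun γ _ => h.bdd γ

theorem pos_of {Γ : Subgroup SL(2, ℤ)} [Γ.FiniteIndex] (h : IsMF Γ k F) (hF : Sm c F)
    (h1 : c 1 = 1) : 0 < k := by
  have h2 : ∀ κ, F ≠ fun _ => κ := fun κ e => by
    have h3 := congrFun (Ex.unique one_pos hF (e ▸ ex_const 1 κ)) 1
    simp [h1] at h3
  rcases lt_trichotomy k 0 with h3 | rfl | h3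
  · exact absurd (congrArg DFunLike.coe (ModularForm.isZero_of_neg_weight h3 (toMF h))) (h2 0)
  · obtain ⟨κ, e⟩ := ModularForm.eq_const_of_weight_zero (toMF h)
    exact absurd e (h2 κ)
  · exact h3

theorem eq_S (hc : Eig S₀ k c) (hF : Sm c F) {Γ : Subgroup SL(2, ℤ)} [Γ.FiniteIndex] [hΓ : Γ.Normal]
    (h : IsMF Γ k F) {M : ℕ} (hM : M ≠ 0) (hT : T ^ (M : ℤ) ∈ Γ) :
    ∃ l₀ : ℕ, ∀ l : ℕ, l.Prime → l₀ < l → ∀ (σ : SL(2, ℤ)) (ρ : ℤ), σ 1 0 = l →
      σ 1 1 = -(M * ρ) → F ∣[k] σ = F ∣[k] S := by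
  classical
  have hk := pos_of h hF hc.one
  have hM' : (0 : ℝ) < M := by positivity
  have h1 : ∀ σ : SL(2, ℤ), IsMF Γ k (F ∣[k] σ) := fun σ =>
    h.conj σ fun γ hγ => hΓ.conj_mem γ hγ σ
  let a : (ℍ → ℂ) → ℕ → ℂ := fun G n => (qExpansion M G).coeff n
  have hE : ∀ σ : SL(2, ℤ), Ex M (a (F ∣[k] σ)) (F ∣[k] σ) := fun σ =>
    hasSum_qExpansion hM' (per_of_T ((h1 σ).slash _ hT)) (h1 σ).hol (h.bdd σ)
  let Φ := Set.range fun σ : SL(2, ℤ) => F ∣[k] σ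
  have : Finite Φ := (Set.finite_range (tr h)).subset (by
    rintro _ ⟨σ, rfl⟩
    exact ⟨((σ⁻¹ : SL(2, ℤ)) : SL(2, ℤ) ⧸ Γ), by rw [tr_mk, inv_inv]⟩)
  have h2 : ∀ G G' : Φ, ∃ n ≠ 0, a G n = a G' n → G = G' := by
    rintro ⟨_, σ, rfl⟩ ⟨_, σ', rfl⟩
    by_contra h3
    push Not at h3
    refine (h3 1 one_ne_zero).2 (Subtype.ext (sub_eq_zero.1 ?_))
    have h4 := (hE σ).sub (hE σ')
    rw [show a (F ∣[k] σ) - a (F ∣[k] σ') = Pi.single 0 ((a (F ∣[k] σ) - a (F ∣[k] σ')) 0) from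
      funext fun n => by
        by_cases h5 : n = 0
        · simp [h5]
        · simp [h5, (h3 n h5).1]] at h4
    have h5 := h4.eq (ex_const _ _)
    have h6 := mem_stab.1 (((h1 σ).sub (h1 σ')).slash _ (hΓ.conj_mem _ hT S)) I
    have h7 : (S * T ^ (M : ℤ) * S⁻¹) 1 0 = -M ∧ (S * T ^ (M : ℤ) * S⁻¹) 1 1 = 1 := by
      rw [Matrix.SpecialLinearGroup.coe_mul, Matrix.SpecialLinearGroup.coe_mul, coe_T_zpow,
        Matrix.SpecialLinearGroup.coe_inv, coe_S]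
      simp [Matrix.mul_apply, Fin.sum_univ_two, Matrix.adjugate_fin_two]
    rw [h5, h7.1, h7.2] at h6
    rw [h5]
    funext τ
    by_contra h8
    have h9 := congrArg Complex.normSq ((mul_eq_right₀ h8).1 h6.symm)
    rw [map_zpow₀, map_one, zpow_eq_one_iff_right₀ (Complex.normSq_nonneg _) ?_] at h9
    · exact hk.ne' h9
    · simp [Complex.normSq_apply, hM]
  choose ν hν hν' using h2
  obtain ⟨l₀, H⟩ := cyc (Set.finite_range fun p : Φ × Φ × Φ => a p.1 (ν p.2.1 p.2.2))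
  obtain ⟨l₁, H₁⟩ := (Set.finite_range fun p : Φ × Φ => ν p.1 p.2).bddAbove
  refine ⟨l₀ + l₁ + M + S₀.sup id, fun l hl hl' σ₀ ρ₀ e1 e2 => ?_⟩
  have : Fact l.Prime := ⟨hl⟩
  have h3 : ∀ n : ℕ, n ≠ 0 → n < l → (n : ZMod l) ≠ 0 := fun n k1 k2 k3 =>
    k1 (Nat.eq_zero_of_dvd_of_lt ((ZMod.natCast_eq_zero_iff _ _).1 k3) k2)
  have h4 : (ρ₀ : ZMod l) ≠ 0 := fun k1 => by
    have k2 := congrArg (Int.cast : ℤ → ZMod l) (det_eq σ₀)
    simp [e1, e2, k1] at k2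
  have h5 : ∀ r : ZMod l, ∃ (ρ : ℤ) (σ : SL(2, ℤ)), (ρ : ZMod l) = r ∧ (r = 0 → ρ = 0 ∧ σ = S) ∧
      (r ≠ 0 → σ 1 0 = l ∧ σ 1 1 = -(M * ρ)) ∧ (r = ρ₀ → σ = σ₀) := fun r => by
    by_cases k1 : r = ρ₀
    · exact ⟨ρ₀, σ₀, k1.symm, fun k2 => absurd (k1.symm.trans k2) h4, fun _ => ⟨e1, e2⟩,
        fun _ => rfl⟩
    by_cases k2 : r = 0
    · exact ⟨0, S, by simp [k2], fun _ => ⟨rfl, rfl⟩, fun k3 => absurd k2 k3, fun k3 => absurd k3 k1⟩
    obtain ⟨x, y, k3⟩ := (Nat.prime_iff_prime_int.1 hl).irreducible.coprime_iff_not_dvd.2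
      (show ¬ (l : ℤ) ∣ M * r.val from fun k3 => by
        have k4 := (ZMod.intCast_zmod_eq_zero_iff_dvd _ _).2 k3
        simp [h3 M hM (by omega), k2] at k4)
    exact ⟨r.val, sl (-y) (-x) l (-(M * r.val)) (by linear_combination k3), by simp,
      fun k4 => absurd k4 k2, fun _ => ⟨rfl, rfl⟩, fun k4 => absurd k4 k1⟩
  choose ρ σ k1 k2 k3 k4 using h5
  have h6 := Ex.sum fun r => (hE (σ r)).sb hM'.ne' l (ρ r)
  rw [rel_S hc hF
    (fun k5 => absurd (show l ≤ S₀.sup id from Finset.le_sup (f := id) k5) (by omega))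
    (h3 M hM (by omega)) σ ρ k1 (k2 0 rfl) k3] at h6
  have h7 := h6.unique (mul_pos hM' (Nat.cast_pos.2 hl.pos)) (((((hE S).smul (c l)).sub
    (((hE S).up hl.ne_zero).smul ((l : ℂ) ^ (k - 1)))).smul l).spread hl.ne_zero)
  let G : ZMod l → Φ := fun r => ⟨_, σ r, rfl⟩
  have h8 : ν (G ρ₀) (G 0) < l := lt_of_le_of_lt (H₁ ⟨(_, _), rfl⟩) (by omega)
  have h9 := congrFun h7 (ν (G ρ₀) (G 0))
  rw [spr, if_neg fun k5 => hν _ _ (Nat.eq_zero_of_dvd_of_lt k5 h8), Finset.sum_apply] at h9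
  simp only [k1] at h9
  have h10 := congrArg Subtype.val (hν' _ _ (H l (by omega) (fun r => a (G r) (ν (G ρ₀) (G 0)))
    (fun r => ⟨(_, _, _), rfl⟩) _ (h3 _ (hν _ _) h8) h9 ρ₀))
  simpa only [G, k4 _ rfl, (k2 0 rfl).2] using h10

/-- **AMB** -/
theorem _root_.Vale.Agent.P022K.UC.amb : AMB := by
  intro S₀ w c Γ F hc hΓ hF hfix
  obtain ⟨A, hA⟩ := hc.growth
  obtain ⟨M, hM, -, hT⟩ := Subgroup.exists_pow_mem_of_index_ne_zero
    (Subgroup.FiniteIndex.index_ne_zero (H := Γ.normalCore)) T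
  rw [← zpow_natCast] at hT
  have h1 : IsMF Γ.normalCore (2 * w) F := ⟨hol_of hF hA, fun γ hγ => hfix γ (Γ.normalCore_le hγ),
    fun σ => bdd_of hF hA σ hM.ne' (by
      rw [← SlashAction.slash_mul, show σ * T ^ (M : ℤ) = σ * T ^ (M : ℤ) * σ⁻¹ * σ by group,
        SlashAction.slash_mul,
        hfix _ (Γ.normalCore_le (Γ.normalCore_normal.conj_mem _ hT σ))])⟩
  have hk : Even (2 * w) := even_two_mul w
  obtain ⟨l₀, H⟩ := eq_S hc hF h1 hM.ne' hT
  obtain ⟨N, hN, hN', hj⟩ := rm_all hc hF hk M hM.ne' fun γ hγ => by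
    by_cases h2 : γ 1 0 = 0
    · exact mem_of_c hF hk h2
    obtain ⟨c', hc'⟩ := (ZMod.intCast_zmod_eq_zero_iff_dvd _ _).1 (Gamma0_mem.1 hγ)
    obtain ⟨l, h3, h4, h5⟩ := Nat.forall_exists_prime_gt_and_zmodEq l₀
      (Int.natAbs_ne_zero.2 h2) (a := γ 1 1) (by
        rw [Int.natCast_natAbs, IsCoprime.abs_right_iff]
        exact ⟨γ 0 0, -γ 0 1, by linear_combination det_eq γ⟩)
    obtain ⟨i, hi⟩ := (Int.dvd_natAbs.2 dvd_rfl).trans h5.symm.dvd
    refine ((stab _ F).mul_mem_cancel_right ((stab _ F).zpow_mem (T_mem hF) i)).1 ?_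
    have h6 := H l h4 h3 (γ * T ^ i * S) c' (by
      rw [Matrix.SpecialLinearGroup.coe_mul, Matrix.SpecialLinearGroup.coe_mul, coe_T_zpow, coe_S]
      simp [Matrix.mul_apply, Fin.sum_univ_two]
      linear_combination -hi) (by
      rw [Matrix.SpecialLinearGroup.coe_mul, Matrix.SpecialLinearGroup.coe_mul, coe_T_zpow, coe_S]
      simp [Matrix.mul_apply, Fin.sum_univ_two, hc'])
    have h7 := congrArg (fun G => G ∣[2 * w] S⁻¹) h6
    simp only [← SlashAction.slash_mul, mul_inv_cancel_right, mul_inv_cancel,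
      SlashAction.slash_one] at h7
    exact h7
  exact ⟨by linarith [pos_of h1 hF hc.one], N, hN, hN', h1.hol, hj, h1.bdd⟩

end Vale.Agent.P022K.UC.Ab
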