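import Vale.Agent.P022K.UC.Am7

/-!
# P022K, block UC, step (4A): `AMA`
-/

set_option autoImplicit false

open UpperHalfPlane ModularForm HahnSeries
open scoped MatrixGroups ModularForm Real LaurentSeries PowerSeries

noncomputable section

namespace Vale.Agent.P022K.UC

open Vale.Agent.P022.H218.L3

theorem Eig.sm {S : Finset ℕ} {k : ℤ} {c : ℕ → ℂ} (h : Eig S k c) : ∃ F, Sm c F := by
  obtain ⟨A, hA⟩ := h.growth
  refine ⟨fun τ => ∑' n, c n • Rm.qq τ ^ n, fun τ => Summable.hasSum ?_⟩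
  have h0 : ‖Rm.qq τ‖ ≠ 0 := norm_ne_zero_iff.2 (Function.Periodic.qParam_ne_zero _)
  have h1 := (summable_nat_add_iff 2).2 (summable_pow_mul_geometric_of_norm_lt_one (R := ℝ) A
    (r := ‖Rm.qq τ‖) (by simpa using Rm.norm_qq τ))
  refine Summable.of_norm_bounded (h1.mul_right (‖Rm.qq τ‖ ^ 2)⁻¹) fun n => ?_
  rw [norm_smul, norm_pow, _root_.pow_add, mul_assoc, mul_inv_cancel_right₀ (pow_ne_zero _ h0)]
  push_cast
  exact mul_le_mul_of_nonneg_right (hA n) (by positivity)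

namespace Am

theorem tr1 {ι : Type} (s : Finset ι) (e : ι → ℚ × ℕ+) (a : ι → ℂ) (x : LL) :
    ∑ i ∈ s, C (a i) * sq (e i) (Ex x) = 0 ↔ ∑ i ∈ s, algebraMap ℂ LL (a i) * sL (e i) x = 0 := by
  rw [← map_eq_zero Ex, map_sum]
  simp only [map_mul, Ex_c, Ex_sL]

theorem tr2 {ι : Type} (s : Finset ι) (e : ι → ℚ × ℕ+) (a : ι → ℂ) (x : LL) (w : ℤ) :
    ∑ i ∈ s, algebraMap ℂ LL (a i) * sL (e i) (x * om ^ w) = 0 ↔
      ∑ i ∈ s, algebraMap ℂ LL (a i) * (sL (e i) om / om) ^ w * sL (e i) x = 0 := by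
  rw [← mul_eq_zero_iff_right (zpow_ne_zero w om_ne) (a := ∑ i ∈ s, _ * _ * _), Finset.sum_mul]
  refine Eq.congr_left (Finset.sum_congr rfl fun i _ => ?_)
  rw [map_mul, map_zpow₀, div_zpow]
  have := zpow_ne_zero w om_ne
  field_simp

/-- the indices of the Hecke relation -/
def hE (l : ℕ+) : Option (Option ℕ) → ℚ × ℕ+
  | none => (0, l * l)
  | some none => (0, l)
  | some (some b) => (b / (l : ℕ), 1)

/-- the coefficients of the Hecke relation -/
def hA (l : ℕ+) (α β : ℂ) : Option (Option ℕ) → ℂ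
  | none => β
  | some none => -α
  | some (some _) => (l : ℂ)⁻¹

theorem hk_iff' (l : ℕ+) {α β : ℂ} {z : ℂ⸨X⸩} : Hk l α β z ↔
    ∑ i ∈ (Finset.range l).insertNone.insertNone, C (hA l α β i) * sq (hE l i) z = 0 := by
  rw [hk_iff, Finset.sum_insertNone, Finset.sum_insertNone]
  rfl

theorem exists_l (S : Finset ℕ) {Z : Finset ℝ} (h0 : (0 : ℝ) ∉ Z) : ∃ l : ℕ, l.Prime ∧ l ∉ S ∧
    ∀ a ∈ Z, ∀ b ∈ Z, a * l ≠ b ∧ a * (l * l) ≠ b := by
  obtain ⟨M, hM⟩ := (((Z ×ˢ Z).finite_toSet.image fun x => |x.2| / |x.1|)).bddAbove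
  obtain ⟨l, h1, hl⟩ := Nat.exists_infinite_primes (S.sup id + ⌈M⌉₊ + 1)
  refine ⟨l, hl, fun h => ?_, fun a ha b hb => ?_⟩
  · have := Finset.le_sup (f := id) h
    simp only [id] at this
    omega
  have a0 : 0 < |a| := abs_pos.2 fun e => h0 (e ▸ ha)
  have h2 : |b| / |a| ≤ M := hM ⟨(a, b), by simp [ha, hb], rfl⟩
  have h3 : M < l := (Nat.le_ceil M).trans_lt (by exact_mod_cast (by omega : ⌈M⌉₊ < l))
  have h4 : (1 : ℝ) ≤ l := by exact_mod_cast hl.one_le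
  rw [div_le_iff₀ a0] at h2
  constructor <;> rintro rfl
  · rw [abs_mul, Nat.abs_cast] at h2
    nlinarith
  · rw [abs_mul, abs_mul, Nat.abs_cast] at h2
    nlinarith [mul_le_mul_of_nonneg_left h4 (mul_nonneg a0.le (zero_le_one.trans h4))]

theorem solve {ι L : Type} [Field L] {s : Finset ι} {b x : L} {a y : ι → L} (h0 : b ≠ 0)
    (h : b * x + ∑ i ∈ s, a i * y i = 0) : x = ∑ i ∈ s, -b⁻¹ * a i * y i := by
  simp only [mul_assoc]
  rw [← Finset.mul_sum, ← neg_eq_of_add_eq_zero_right h]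
  field_simp

variable {S : Finset ℕ} {κ : ℕ} {c : ℕ → ℂ}

theorem exists_top (h : Eig S (2 * κ) c) {g : Cv} (hg : g.1 = PowerSeries.mk c) {D : ℕ}
    {P : MvPolynomial (Fin 4) ℂ} (P0 : P ≠ 0) (hP : P.IsWeightedHomogeneous ![2, 4, 6, 2 * κ] D)
    (h0 : MvPolynomial.aeval ![e2, e4, e6, PowerSeries.mk c] P = 0) :
    ∃ (n : ℕ) (y : LL), y ∈ KK ∧ y ≠ 0 ∧ ∀ (ι : Type) (s : Finset ι) (e : ι → ℚ × ℕ+) (a : ι → ℂ),
      ∑ i ∈ s, C (a i) * sq (e i) (ofPowerSeries ℤ ℂ (PowerSeries.mk c)) = 0 →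
      ∑ i ∈ s, C (a i / ((e i).2 : ℕ) ^ n) * sq (e i) (Ex (y * om ^ ((κ : ℤ) - n))) = 0 := by
  have g0 : g ≠ 0 := fun e => by
    simpa [hg, h.one] using congrArg (fun g : Cv => PowerSeries.coeff 1 g.1) e
  have o0 := om_ne
  have e0 : al g / om ^ κ * om ^ (κ : ℤ) = al g := by
    rw [zpow_natCast, div_mul_cancel₀ _ (pow_ne_zero _ o0)]
  have tr : ∀ (ι : Type) (s : Finset ι) (e : ι → ℚ × ℕ+) (a : ι → ℂ),
      ∑ i ∈ s, C (a i) * sq (e i) (ofPowerSeries ℤ ℂ (PowerSeries.mk c)) = 0 →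
      ∑ i ∈ s, algebraMap ℂ LL (a i) * (sL (e i) om / om) ^ (κ : ℤ) *
        sL (e i) (al g / om ^ κ) = 0 := fun ι s e a h1 => by
    rwa [← tr2, e0, ← tr1, Ex_al, hg]
  have mem : ∀ (a : ℂ) (i : ℚ × ℕ+), algebraMap ℂ LL a * (sL i om / om) ^ (κ : ℤ) ∈ KK :=
    fun a i => mul_mem (KK.algebraMap_mem a) (zpow_mem (om_mem i) _)
  obtain ⟨R, R0, hR⟩ := rel (K := KK) (t := tt) (f := al g / om ^ κ) jj_tr o0 P0 hP (by
    have h1 : MvPolynomial.aeval ![c2, c4, c6, g] P = 0 := Subtype.ext (by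
      refine (MvPolynomial.comp_aeval_apply _ Cv.val P).trans (Eq.trans ?_ h0)
      congr 2
      funext i
      fin_cases i <;> simp [c2, c4, c6, hg])
    have h2 := MvPolynomial.comp_aeval_apply ![c2, c4, c6, g] (IsScalarTower.toAlgHom ℂ Cv LL) P
    rw [h1, map_zero] at h2
    rw [h2]
    congr 2
    have := al_ne c4_ne
    have := al_ne c6_ne
    funext i
    fin_cases i
    · exact mul_div_cancel₀ _ o0
    · change om ^ 2 * (al (c4 ^ 3) / al (c6 ^ 2)) = al c4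
      rw [om, map_pow, map_pow]
      field_simp
    · change om ^ 3 * (al (c4 ^ 3) / al (c6 ^ 2)) = al c6
      rw [om, map_pow, map_pow]
      field_simp
    · exact mul_div_cancel₀ _ (pow_ne_zero _ o0))
  obtain ⟨n, y, h1, h2, h3⟩ := top kk_alg tt_not (div_ne_zero (al_ne g0) (pow_ne_zero κ o0)) R0 hR
    op fun Z hZ => by
      obtain ⟨l, hl, hS, h4⟩ := exists_l S hZ
      lift l to ℕ+ using hl.pos
      have l0 : ((l : ℕ) : ℝ) ≠ 0 := by exact_mod_cast l.ne_zero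
      have h5 := tr _ _ _ _ ((hk_iff' l).1 (eig_hk h hl hS))
      rw [Finset.sum_insertNone] at h5
      set α := c l
      set β := ((l : ℕ) : ℂ) ^ (2 * (κ : ℤ) - 1) with hβ
      have b0 : algebraMap ℂ LL (hA l α β none) * (sL (hE l none) om / om) ^ (κ : ℤ) ≠ 0 :=
        mul_ne_zero ((_root_.map_ne_zero _).2 (zpow_ne_zero _ (by exact_mod_cast l.ne_zero)))
          (zpow_ne_zero _ (div_ne_zero ((_root_.map_ne_zero _).2 o0) o0))
      refine ⟨_, (Finset.range l).insertNone, hE l none, fun i => hE l (some i), fun i =>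
        -(algebraMap ℂ LL (hA l α β none) * (sL (hE l none) om / om) ^ (κ : ℤ))⁻¹ *
          (algebraMap ℂ LL (hA l α β (some i)) * (sL (hE l (some i)) om / om) ^ (κ : ℤ)),
        fun i _ => ⟨mul_mem (neg_mem (inv_mem (mem _ _))) (mem _ _), fun a ha b hb e => ?_⟩, ?_⟩
      · rw [lc_uu, lc_uu] at e
        rcases i with _ | i
        · refine (h4 a ha b hb).1 ?_
          simp only [hE, PNat.mul_coe, Nat.cast_mul] at e
          field_simp at e
          exact e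
        · refine (h4 a ha b hb).2 ?_
          simp only [hE, PNat.mul_coe, Nat.cast_mul, PNat.one_coe, Nat.cast_one] at e
          field_simp at e
          rw [← e]
          ring
      · exact solve b0 h5
  refine ⟨n, y, h1, h2, fun ι s e a h4 => ?_⟩
  have h5 := h3 ι s e _ (fun i _ => mem (a i) (e i)) (tr ι s e a h4)
  rw [tr1, tr2, ← h5]
  refine Finset.sum_congr rfl fun i _ => ?_
  have s0 : sL (e i) om ≠ 0 := (_root_.map_ne_zero _).2 o0
  have n0 : (((e i).2 : ℕ) : LL) ≠ 0 := by exact_mod_cast (e i).2.ne_zero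
  rw [zpow_sub₀ (div_ne_zero s0 o0), uu, map_div₀, map_pow, map_natCast, zpow_natCast _ n, div_pow,
    div_pow, mul_pow]
  field_simp

end Am

open Am in
/-- **AMA** -/
theorem ama : AMA := by
  intro S κ c D P h _ P0 hP h0
  obtain ⟨F₀, hF₀⟩ := h.sm
  obtain ⟨n, y, h1, h2, h3⟩ := exists_top h (g := ⟨_, F₀, sp_mk.2 hF₀⟩) rfl P0 hP h0
  have h4 := h.twist n
  obtain ⟨F, hF⟩ := h4.sm
  let g : Cv := ⟨_, F, sp_mk.2 hF⟩
  have o0 := om_ne
  have h5 := uni h4 (z := Ex (y * om ^ ((κ : ℤ) - n))) (fun p hp hp' => by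
    have := h3 _ _ (fun b : ℕ => ((b / p : ℚ), (1 : ℕ+))) (fun _ => 1)
      ((dp_iff hp'.ne_zero).1 (eig_dp h hp hp'))
    rw [dp_iff hp'.ne_zero]
    simpa using this) fun l hl hS => by
      lift l to ℕ+ using hl.pos
      have l0 : ((l : ℕ) : ℂ) ≠ 0 := by exact_mod_cast l.ne_zero
      rw [hk_iff', ← h3 _ _ _ _ ((hk_iff' l).1 (eig_hk h hl hS))]
      refine Finset.sum_congr rfl fun i _ => ?_
      congr 2
      rcases i with _ | _ | i
      · simp only [hA, hE, PNat.mul_coe, Nat.cast_mul]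
        rw [← pow_two, ← pow_mul, ← zpow_natCast, ← zpow_sub₀ l0]
        congr 1
        push_cast
        ring
      · simp only [hA, hE, neg_div]
      · simp [hA, hE]
  set a := (Ex (y * om ^ ((κ : ℤ) - n))).coeff 1
  have h6 : y * om ^ ((κ : ℤ) - n) = algebraMap ℂ LL a * al g :=
    Ex.injective (by rw [map_mul Ex (algebraMap ℂ LL a), Ex_c, Ex_al]; exact h5)
  have a0 : algebraMap ℂ LL a ≠ 0 := fun e =>
    mul_ne_zero h2 (zpow_ne_zero _ o0) (by rw [h6, e, zero_mul])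
  have h7 : al (g * (c6 ^ n * c4 ^ κ)) / al (c4 ^ n * c6 ^ κ) = (algebraMap ℂ LL a)⁻¹ * y := by
    have := al_ne c4_ne
    have := al_ne c6_ne
    rw [zpow_sub₀ o0, zpow_natCast, zpow_natCast, om, div_pow, div_pow] at h6
    simp only [map_mul, map_pow]
    field_simp at h6 ⊢
    linear_combination -h6
  have h8 := (kk_iff (k := n * 4 + κ * 6) (mul_ne_zero (pow_ne_zero _ c4_ne) (pow_ne_zero _ c6_ne))
    (by rw [fn_mul, fn_pow, fn_pow]; exact (wt4.pow n).mul (wt6.pow κ) rfl)).1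
    (h7 ▸ mul_mem (inv_mem (KK.algebraMap_mem a)) h1)
  rw [fn_mul] at h8
  obtain ⟨Γ, h9, h10⟩ := h8.cancel (k := 2 * ((κ : ℤ) - n)) (l := n * 6 + κ * 4)
    (by rw [fn_mul, fn_pow, fn_pow]; exact (wt6.pow n).mul (wt4.pow κ) rfl) (by ring) (fn_hol _)
    (fn_hol _) (fn_ne (mul_ne_zero (pow_ne_zero _ c6_ne) (pow_ne_zero _ c4_ne)))
  rw [fn_eq (g := g) (sp_mk.2 hF)] at h10
  exact ⟨n, Γ, F, h9, hF, h10⟩

end Vale.Agent.P022K.UC
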