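import Vale.Agent.P022K.UC.Sie

/-!
# P022K, block UC: the auxiliary function by the pigeonhole principle on all coefficients
-/

set_option linter.all false

open NumberField PowerSeries

noncomputable section

namespace Vale.Agent.P022K.UC

variable {K : Type*} [Field K] [NumberField K]

theorem C_dvd_iff {O : Type*} [CommRing O] {a : O} {f : O⟦X⟧} :
    C a ∣ f ↔ ∀ n, a ∣ coeff n f := by
  refine ⟨fun ⟨g, h⟩ n => ⟨coeff n g, by rw [h, coeff_C_mul]⟩, fun h => ?_⟩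
  choose g hg using h
  exact ⟨mk g, PowerSeries.ext fun n => by rw [coeff_C_mul, coeff_mk, hg]⟩

theorem exists_reps {O : Type*} [CommRing O] (a : O) [Finite (O ⧸ Ideal.span {a})] :
    ∃ f : ℕ, ∀ j : ℕ, ∃ R : Finset O, R.card ≤ 2 ^ (f * j) ∧ ∀ x, ∃ y ∈ R, a ^ j ∣ x - y := by
  classical
  have := Fintype.ofFinite (O ⧸ Ideal.span {a})
  refine ⟨Fintype.card (O ⧸ Ideal.span {a}), fun j => ?_⟩
  induction j with
  | zero => exact ⟨{0}, by simp, fun x => ⟨0, by simp, by simp⟩⟩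
  | succ j ih =>
    obtain ⟨R, h1, h2⟩ := ih
    refine ⟨Finset.image₂ (fun y (z : O ⧸ Ideal.span {a}) => y + a ^ j * Quotient.out z) R
      Finset.univ, (Finset.card_image₂_le _ _ _).trans ?_, fun x => ?_⟩
    · rw [mul_add, mul_one, pow_add]
      exact Nat.mul_le_mul h1 Nat.lt_two_pow_self.le
    · obtain ⟨y, hy, z, hz⟩ := h2 x
      refine ⟨_, Finset.mem_image₂_of_mem hy (Finset.mem_univ (Ideal.Quotient.mk _ z)), ?_⟩
      rw [← sub_sub, hz, ← mul_sub, pow_succ]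
      refine mul_dvd_mul_left _ (Ideal.mem_span_singleton.1 (Ideal.Quotient.eq.1 ?_))
      exact (Quotient.out_eq _).symm

section lattice

variable {O E : Type*} [CommRing O] [IsDomain O] [IsDiscreteValuationRing O] [Field E]
  [Algebra O E] [IsFractionRing O E]

theorem exists_content {H : O⟦X⟧} {a : O} {n : ℕ} (h1 : ∀ m < n, a ∣ coeff m H)
    (h2 : ¬ a ∣ coeff n H) : ∃ (c : O) (G : O⟦X⟧), c ≠ 0 ∧ H = C c * G ∧
      (∀ m < n, coeff m G ∈ IsLocalRing.maximalIdeal O) ∧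
      ∃ m, coeff m G ∉ IsLocalRing.maximalIdeal O := by
  let m := Function.argmin fun m => IsDiscreteValuationRing.addVal O (coeff m H)
  have h3 : ∀ k, coeff m H ∣ coeff k H := fun k =>
    IsDiscreteValuationRing.addVal_le_iff_dvd.1 (Function.argmin_le
      (fun m => IsDiscreteValuationRing.addVal O (coeff m H)) k)
  have h4 : coeff m H ≠ 0 := fun h => h2 ((dvd_zero a).trans (h ▸ h3 n))
  obtain ⟨G, hG⟩ := C_dvd_iff.2 h3
  have h5 : ∀ k, coeff k H = coeff m H * coeff k G := fun k => by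
    conv_lhs => rw [hG, coeff_C_mul]
  refine ⟨_, G, h4, hG, fun k hk => fun hu => h2 ?_, m, fun h => h ?_⟩
  · exact (hu.dvd_mul_right.1 (h5 k ▸ h1 k hk)).trans (h3 n)
  · rw [show coeff m G = 1 from (mul_left_cancel₀ h4 ((h5 m).symm.trans (mul_one _).symm))]
    exact isUnit_one

/-- the integral series in a space of finite dimension -/
theorem exists_gens (Q : Submodule E E⟦X⟧) [FiniteDimensional E Q] :
    ∃ (m : ℕ) (v : Fin m → O⟦X⟧), m ≤ Module.finrank E Q ∧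
      ∀ H : O⟦X⟧, map (algebraMap O E) H ∈ Q → ∃ c : Fin m → O, H = ∑ i, C (c i) * v i := by
  let κ₀ : ℕ → Submodule E Q := fun N =>
    { carrier := {x | ∀ n < N, coeff n x.1 = 0}
      add_mem' := fun ha hb n hn => by simp [ha n hn, hb n hn]
      zero_mem' := fun n hn => by simp
      smul_mem' := fun c x ha n hn => by simp [ha n hn] }
  obtain ⟨N, hN⟩ := IsArtinian.monotone_stabilizes (R := E) (M := Q)
    ⟨fun N => OrderDual.toDual (κ₀ N), fun a b h x hx n hn => hx n (hn.trans_le h)⟩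
  have h1 : ∀ x : Q, (∀ n < N, coeff n x.1 = 0) → x = 0 := fun x hx => Subtype.ext
    (PowerSeries.ext fun n => by
      have h2 : x ∈ κ₀ N := hx
      rw [show κ₀ N = κ₀ (N + n + 1) from hN (N + n + 1) (by omega)] at h2
      exact h2 n (by omega))
  let μ : O⟦X⟧ →ₗ[O] E⟦X⟧ := (mapAlgHom (Algebra.ofId O E)).toLinearMap
  let Λ : Submodule O O⟦X⟧ := (Q.restrictScalars O).comap μ
  have hμ : Function.Injective μ := map_injective _ (IsFractionRing.injective O E)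
  let π : Λ →ₗ[O] (Fin N → O) := LinearMap.pi fun n => (coeff n).comp Λ.subtype
  have hπ : Function.Injective π := by
    rw [injective_iff_map_eq_zero]
    intro x hx
    have h2 := h1 ⟨μ x, x.2⟩ fun n hn => by
      have h3 : coeff n x.1 = 0 := congrFun hx ⟨n, hn⟩
      show coeff n (map (algebraMap O E) x.1) = 0
      rw [coeff_map, h3, map_zero]
    exact Subtype.ext (hμ ((congrArg Subtype.val h2).trans (map_zero μ).symm))
  have : Module.Finite O Λ := Module.Finite.of_injective π hπ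
  have : Module.IsTorsionFree O Λ := hπ.moduleIsTorsionFree π (map_smul π)
  have : Module.Free O Λ := Module.free_of_finite_type_torsion_free'
  let B := Module.finBasis O Λ
  let ν : Λ →ₗ[O] Q := (μ.comp Λ.subtype).codRestrict (Q.restrictScalars O) fun x => x.2
  refine ⟨_, fun i => B i, ?_, fun H hH => ⟨B.repr ⟨H, hH⟩, ?_⟩⟩
  · have h2 : LinearIndependent O (ν ∘ B) := B.linearIndependent.map' ν
      (LinearMap.ker_eq_bot.2 fun x y h => Subtype.ext (hμ (congrArg Subtype.val h)))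
    simpa using ((LinearIndependent.iff_fractionRing O E).1 h2).fintype_card_le_finrank
  · have h2 := congrArg Subtype.val (B.sum_repr ⟨H, hH⟩)
    simp only [Submodule.coe_sum, Submodule.coe_smul, smul_eq_C_mul] at h2
    exact h2.symm

end lattice

theorem exists_mono {s : ℕ} (g : Fin (s + 1) → (𝓞 K)⟦X⟧) (w : Fin (s + 1) → ℕ)
    (hw : ∀ i, w i ≠ 0) {c : ℕ} (hg : ∀ i, Gr c (g i)) : ∃ L : ℕ, ∀ M : ℕ, 1 ≤ M →
    ∃ (D : ℕ) (e : (Fin s → Fin M) → Fin (s + 1) →₀ ℕ), Function.Injective e ∧ D ≤ L * M ∧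
      (∀ x, Finsupp.weight w (e x) = D) ∧ ∀ x, Gr (L * M) (∏ i, g i ^ e x i) := by
  obtain ⟨L, hL⟩ : ∃ L, L = ∏ i, w i := ⟨_, rfl⟩
  have hL0 : 0 < L := hL ▸ Finset.prod_pos fun i _ => Nat.pos_of_ne_zero (hw i)
  have hq : ∀ i, L / w i * w i = L := fun i =>
    Nat.div_mul_cancel (hL ▸ Finset.dvd_prod_of_mem _ (Finset.mem_univ i))
  refine ⟨(c + 1) * L * s + (s + 1), fun M hM => ?_⟩
  let r : (Fin s → Fin M) → Fin (s + 1) → ℕ := fun x =>
    Fin.cons (s * M - ∑ i, (x i : ℕ)) fun i => x i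
  have hr : ∀ x, ∑ i, r x i = s * M := fun x => by
    have h1 : ∑ i, (x i : ℕ) ≤ s * M := by
      simpa using Finset.sum_le_card_nsmul Finset.univ (fun i => (x i : ℕ)) _ fun i _ => (x i).2.le
    simp only [r, Fin.sum_univ_succ, Fin.cons_zero, Fin.cons_succ]
    omega
  let e : (Fin s → Fin M) → Fin (s + 1) →₀ ℕ := fun x =>
    Finsupp.equivFunOnFinite.symm fun i => r x i * (L / w i)
  refine ⟨L * (s * M), e, fun x y h => funext fun i => Fin.ext ?_, by
    nlinarith [Nat.zero_le (c * L * s * M), Nat.zero_le ((s + 1) * M)], fun x => ?_, fun x => ?_⟩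
  · have h1 : r x i.succ * (L / w i.succ) = r y i.succ * (L / w i.succ) :=
      DFunLike.congr_fun h i.succ
    refine Nat.eq_of_mul_eq_mul_right (Nat.pos_of_ne_zero fun h2 => ?_) h1
    have h3 := hq i.succ
    rw [h2] at h3
    omega
  · rw [Finsupp.weight_apply, Finsupp.sum_fintype _ _ (by simp), ← hr x, Finset.mul_sum]
    refine Finset.sum_congr rfl fun i _ => ?_
    show r x i * (L / w i) * w i = _
    rw [mul_assoc, hq, mul_comm]
  · refine (gr_prod Finset.univ fun i => (hg i).pow (e x i)).mono ?_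
    have h1 : ∑ i, (c + 1) * e x i ≤ ∑ i, (c + 1) * L * r x i := Finset.sum_le_sum fun i _ => by
      rw [mul_assoc, mul_comm L]
      exact Nat.mul_le_mul_left _ (Nat.mul_le_mul_left _ (Nat.div_le_self _ _))
    rw [← Finset.mul_sum Finset.univ (r x), hr] at h1
    rw [Finset.card_univ, Fintype.card_fin, add_mul _ _ M]
    exact Nat.add_le_add (h1.trans_eq (by ring)) (Nat.le_mul_of_pos_right _ hM)

theorem house_coeff_le {β : Type} [Fintype β] {u : β → (𝓞 K)⟦X⟧} {E h : ℕ} (hu : ∀ x, Gr E (u x))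
    {t : β → ℤ} (ht : ∀ x, |t x| ≤ 2 ^ h) (n : ℕ) {k : ℕ} (hk : Fintype.card β ≤ 2 ^ k) :
    house ((coeff n (∑ x, t x • u x) : 𝓞 K) : K) ≤
      2 ^ (h + (Nat.log 2 (n + 2) + 1) * (E + k)) := by
  obtain ⟨l, hl⟩ : ∃ l, l = Nat.log 2 (n + 2) + 1 := ⟨_, rfl⟩
  have h5 : (n : ℝ) + 2 ≤ 2 ^ l := by
    rw [hl]
    exact_mod_cast (Nat.lt_pow_succ_log_self one_lt_two (n + 2)).le
  rw [← hl, show ((coeff n (∑ x, t x • u x) : 𝓞 K) : K) =
    ∑ x, (t x : K) * (coeff n (u x) : 𝓞 K) by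
      simp only [map_sum, map_zsmul]
      simp only [zsmul_eq_mul]]
  refine (house_sum_le_sum_house _ _).trans ((Finset.sum_le_card_nsmul _ _
    ((2 : ℝ) ^ h * (2 ^ l) ^ E) fun x _ => ?_).trans ?_)
  · refine (house_mul_le _ _).trans (mul_le_mul ?_ ((hu x n).trans (by gcongr)) (house_nonneg _)
      (by positivity))
    rw [house_intCast]
    exact_mod_cast ht x
  · rw [nsmul_eq_mul, Finset.card_univ]
    have h1 : (Fintype.card β : ℝ) ≤ 2 ^ (l * k) := by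
      exact_mod_cast hk.trans (Nat.pow_le_pow_right two_pos (Nat.le_mul_of_pos_left _ (by omega)))
    refine (mul_le_mul_of_nonneg_right h1 (by positivity)).trans_eq ?_
    ring

theorem pigeon {O : Type*} [CommRing O] (ι : 𝓞 K →+* O) {a : O} {β : Type} [Fintype β]
    (F : β → (𝓞 K)⟦X⟧) {m h k : ℕ} (v : Fin m → O⟦X⟧) {u : O⟦X⟧} (hu : IsUnit u) {R : Finset O}
    (hR : R.card ≤ 2 ^ k) (hR' : ∀ x, ∃ y ∈ R, a ∣ x - y) (hc : k * m < h * Fintype.card β)
    (H : ∀ t : β → ℤ, ∃ γ : Fin m → O, C a ∣ u * map ι (∑ y, t y • F y) - ∑ i, C (γ i) * v i) :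
    ∃ t : β → ℤ, t ≠ 0 ∧ (∀ y, |t y| ≤ 2 ^ h) ∧ ∀ n, a ∣ ι (coeff n (∑ y, t y • F y)) := by
  classical
  choose ρ hρ hρ' using hR'
  choose γ hγ using fun t : β → Fin (2 ^ h) => H fun y => (t y : ℕ)
  obtain ⟨t, t', hne, heq⟩ := Fintype.exists_ne_map_eq_of_card_lt
    (fun (t : β → Fin (2 ^ h)) (i : Fin m) => (⟨ρ (γ t i), hρ _⟩ : R)) (by
    simp only [Fintype.card_fun, Fintype.card_fin, Fintype.card_coe]
    refine (Nat.pow_le_pow_left hR _).trans_lt ?_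
    rw [← pow_mul, ← pow_mul]
    exact Nat.pow_lt_pow_right one_lt_two hc)
  refine ⟨fun y => (t y : ℕ) - (t' y : ℕ), fun h => hne (funext fun y => Fin.ext ?_),
    fun y => ?_, ?_⟩
  · exact_mod_cast sub_eq_zero.1 (congrFun h y)
  · have k1 : ((t y : ℕ) : ℤ) < 2 ^ h := by exact_mod_cast (t y).2
    have k2 : ((t' y : ℕ) : ℤ) < 2 ^ h := by exact_mod_cast (t' y).2
    have k3 := Int.natCast_nonneg (t y)
    have k4 := Int.natCast_nonneg (t' y)
    exact abs_le.2 ⟨by linarith, by linarith⟩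
  · have k1 : C a ∣ ∑ i, C (γ t i) * v i - ∑ i, C (γ t' i) * v i := by
      rw [← Finset.sum_sub_distrib]
      refine Finset.dvd_sum fun i _ => ?_
      rw [← sub_mul, ← map_sub]
      refine (map_dvd _ ?_).mul_right _
      have k2 : ρ (γ t i) = ρ (γ t' i) := congrArg Subtype.val (congrFun heq i)
      simpa [k2] using (hρ' (γ t i)).sub (hρ' (γ t' i))
    have k2 := ((hγ t).sub (hγ t')).add k1
    rw [show ∀ x y z v : O⟦X⟧, x - z - (y - v) + (z - v) = x - y from fun _ _ _ _ => by ring,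
      ← mul_sub, hu.dvd_mul_left, ← map_sub, C_dvd_iff] at k2
    intro n
    have k3 := k2 n
    rw [coeff_map, ← Finset.sum_sub_distrib] at k3
    simpa only [sub_smul] using k3

theorem boot {O : Type*} [CommRing O] {a : O} {F u G : O⟦X⟧} (hu : IsUnit u) {n : ℕ}
    (h1 : ∀ m < n, coeff m F = 0) (h2 : ¬ a ∣ coeff n F) (h3 : ∀ m, a ∣ coeff m (u * F - G)) :
    (∀ m < n, a ∣ coeff m G) ∧ ¬ a ∣ coeff n G := by
  have h8 : ∀ m ≤ n, coeff m (u * F) = constantCoeff u * coeff m F := fun m hm => by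
    rw [coeff_mul, Finset.sum_eq_single (0, m)]
    · simp
    · intro y hy hy'
      have k1 := Finset.HasAntidiagonal.mem_antidiagonal.1 hy
      rw [h1 y.2 (by
        by_contra k2
        exact hy' (Prod.ext (by simp only; omega) (by simp only; omega))), mul_zero]
    · simp
  refine ⟨fun m hm => ?_, fun h => h2 ?_⟩
  · have k := h3 m
    rwa [map_sub, h8 m hm.le, h1 m hm, mul_zero, zero_sub, dvd_neg] at k
  · have k := (h3 n).add h
    rwa [map_sub, sub_add_cancel, h8 n le_rfl, (hu.map constantCoeff).dvd_mul_left] at k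

theorem ar1 {f d C L T x r a s b W m D : ℕ} (hab : r * a < s * b) (hx : x = r * a + 1)
    (hT : (f * (2 * d) * C) ^ b * (2 ^ b * (C + 1) * (2 * d + L + 1) ^ a) ^ r < T)
    (hD : D ≤ L * T ^ x) (hW : W ^ b ≤ C * (2 * d * T ^ (x + 1) + D + 1) ^ a)
    (hm : m ≤ C * (W + 1) ^ r) : f * (2 * d * T ^ (x + 1)) * m < T ^ (x + 1) * (T ^ x) ^ s := by
  have hT1 : 1 ≤ T := by omega
  have hM' : T ^ x ≤ T ^ (x + 1) := Nat.pow_le_pow_right hT1 (by omega)
  have hM : 1 ≤ T ^ (x + 1) := Nat.one_le_pow _ _ hT1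
  rw [show f * (2 * d * T ^ (x + 1)) * m = T ^ (x + 1) * (f * (2 * d) * m) by ring]
  refine Nat.mul_lt_mul_of_pos_left (lt_of_pow_lt_pow_left₀ b (Nat.zero_le _) ?_) hM
  have k1 : 2 * d * T ^ (x + 1) + D + 1 ≤ (2 * d + L + 1) * T ^ (x + 1) := by
    have := Nat.mul_le_mul_left L hM'
    rw [add_mul, add_mul]
    omega
  have k2 : (W + 1) ^ b ≤ 2 ^ b * (C + 1) * ((2 * d + L + 1) * T ^ (x + 1)) ^ a := by
    have k3 : 1 ≤ ((2 * d + L + 1) * T ^ (x + 1)) ^ a := Nat.one_le_pow _ _ (by positivity)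
    rcases Nat.eq_zero_or_pos W with rfl | h
    · rw [zero_add, one_pow]
      exact Nat.mul_pos (by positivity) k3
    · calc (W + 1) ^ b ≤ (2 * W) ^ b := Nat.pow_le_pow_left (by omega) _
        _ ≤ 2 ^ b * (C * ((2 * d + L + 1) * T ^ (x + 1)) ^ a) := by
          rw [mul_pow]
          exact Nat.mul_le_mul_left _ (hW.trans (by gcongr))
        _ ≤ _ := by rw [mul_assoc]; gcongr; omega
  calc (f * (2 * d) * m) ^ b ≤ (f * (2 * d) * (C * (W + 1) ^ r)) ^ b := by gcongr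
    _ = (f * (2 * d) * C) ^ b * ((W + 1) ^ b) ^ r := by ring
    _ ≤ (f * (2 * d) * C) ^ b *
        (2 ^ b * (C + 1) * ((2 * d + L + 1) * T ^ (x + 1)) ^ a) ^ r := by gcongr
    _ = (f * (2 * d) * C) ^ b * (2 ^ b * (C + 1) * (2 * d + L + 1) ^ a) ^ r *
        T ^ ((x + 1) * (r * a)) := by
      rw [mul_comm r a]
      simp only [mul_pow, pow_mul, mul_assoc]
    _ < T * T ^ ((x + 1) * (r * a)) := Nat.mul_lt_mul_of_pos_right hT (Nat.pow_pos hT1)
    _ ≤ _ := by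
      rw [← pow_succ', ← pow_mul, ← pow_mul]
      refine Nat.pow_le_pow_right hT1 ?_
      have := Nat.mul_le_mul_left x (show r * a + 1 ≤ s * b from hab)
      nlinarith

theorem ar2 {d C L T x a b A W D c l : ℕ} (hb : b ≠ 0) (hT1 : 1 ≤ T) (h6 : T ≤ c * l)
    (hD : D ≤ L * T ^ x) (hW : W ^ b ≤ C * ((T ^ (x + 1) + l * (c * T ^ x)) * d + 1 + D + 1) ^ a) :
    C * (W + 1) ^ A ≤
      C * ((C + 1) * ((2 * d + L + 2) * c ^ (x + 1)) ^ a) ^ A * l ^ ((x + 1) * a * A) := by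
  have hM' : T ^ x ≤ T ^ (x + 1) := Nat.pow_le_pow_right hT1 (by omega)
  have k4 : 1 ≤ c * l := hT1.trans h6
  have k5 : T ^ x ≤ (c * l) ^ x := Nat.pow_le_pow_left h6 _
  have k6 : (T ^ (x + 1) + l * (c * T ^ x)) * d + 1 + D + 1 ≤
      (2 * d + L + 2) * (c * l) ^ (x + 1) := by
    have k7 : T ^ (x + 1) ≤ (c * l) ^ (x + 1) := Nat.pow_le_pow_left h6 _
    have k8 : l * (c * T ^ x) ≤ (c * l) ^ (x + 1) := by
      rw [pow_succ', ← mul_assoc, mul_comm l]
      gcongr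
    have k9 := Nat.mul_le_mul_left L (hM'.trans k7)
    have k10 : 1 ≤ (c * l) ^ (x + 1) := Nat.one_le_pow _ _ k4
    nlinarith [Nat.mul_le_mul_right d (Nat.add_le_add k7 k8)]
  have k7 : W + 1 ≤ (C + 1) * ((2 * d + L + 2) * (c * l) ^ (x + 1)) ^ a := by
    rw [add_mul, one_mul]
    exact Nat.add_le_add ((Nat.le_self_pow hb W).trans (hW.trans (by gcongr)))
      (Nat.one_le_pow _ _ (Nat.mul_pos (by omega) (Nat.pow_pos k4)))
  calc C * (W + 1) ^ A ≤ C * ((C + 1) * ((2 * d + L + 2) * (c * l) ^ (x + 1)) ^ a) ^ A := by gcongr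
    _ = _ := by simp only [mul_pow, pow_mul, mul_assoc]

/-- **congruences with spaces of small dimension and any polynomial Sturm bound force an algebraic
relation** -/
theorem pig {s : ℕ} (g : Fin (s + 1) → (𝓞 K)⟦X⟧) (w : Fin (s + 1) → ℕ) (hw : ∀ i, w i ≠ 0)
    {c : ℕ} (hg : ∀ i, Gr c (g i)) {O E : Type*} [CommRing O] [IsDomain O]
    [IsDiscreteValuationRing O] [CharZero O] [Finite (IsLocalRing.ResidueField O)] [Field E]
    [Algebra O E] [IsFractionRing O E] {p : ℕ} (hp : p.Prime) (hu : ¬ IsUnit (p : O))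
    (ι : 𝓞 K →+* O) (Q : ℕ → Submodule E E⟦X⟧) {a b r A C : ℕ} (hab : r * a < s * b)
    (dim : ∀ W, FiniteDimensional E (Q W) ∧ Module.finrank E (Q W) ≤ C * (W + 1) ^ r)
    (ze : ∀ (W n : ℕ) (H : O⟦X⟧), map (algebraMap O E) H ∈ Q W →
      (∀ m < n, coeff m H ∈ IsLocalRing.maximalIdeal O) →
      (∃ m, coeff m H ∉ IsLocalRing.maximalIdeal O) → n ≤ C * (W + 1) ^ A)
    (hom : ∀ D j : ℕ, ∃ (W : ℕ) (u : O⟦X⟧), IsUnit u ∧ W ^ b ≤ C * (j + D + 1) ^ a ∧
      ∀ P : MvPolynomial (Fin (s + 1)) ℤ, P.IsWeightedHomogeneous w D →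
        ∃ H : O⟦X⟧, map (algebraMap O E) H ∈ Q W ∧
          ∀ n, (p : O) ^ j ∣ coeff n (u * map ι (MvPolynomial.aeval g P) - H)) :
    ∃ (D : ℕ) (P : MvPolynomial (Fin (s + 1)) ℤ), P ≠ 0 ∧ P.IsWeightedHomogeneous w D ∧
      MvPolynomial.aeval g P = 0 := by
  classical
  have hp0 : (p : O) ≠ 0 := Nat.cast_ne_zero.2 hp.ne_zero
  have : Finite (O ⧸ Ideal.span {(p : O)}) := by
    obtain ⟨ϖ, hϖ⟩ := IsDiscreteValuationRing.exists_irreducible O
    obtain ⟨n, hn⟩ := IsDiscreteValuationRing.ideal_eq_span_pow_irreducible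
      (s := Ideal.span {(p : O)}) (mt Ideal.span_singleton_eq_bot.1 hp0) hϖ
    rw [hn, ← Ideal.span_singleton_pow, ← hϖ.maximalIdeal_eq]
    have : Finite (O ⧸ IsLocalRing.maximalIdeal O) := ‹Finite (IsLocalRing.ResidueField O)›
    exact Ideal.finite_quotient_pow (IsNoetherian.noetherian _) n
  obtain ⟨f, hf⟩ := exists_reps (p : O)
  obtain ⟨L, hL⟩ := exists_mono g w hw hg
  obtain ⟨d, hd⟩ : ∃ d, d = Module.finrank ℚ K := ⟨_, rfl⟩
  have hd0 : 0 < d := hd ▸ Module.finrank_pos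
  have hb : b ≠ 0 := by rintro rfl; simp at hab
  obtain ⟨x, hx⟩ : ∃ x, x = r * a + 1 := ⟨_, rfl⟩
  obtain ⟨c₆, hc₆⟩ : ∃ c₆, c₆ = L + s + 1 := ⟨_, rfl⟩
  obtain ⟨T₀, hT₀⟩ := exists_log (C * ((C + 1) * ((2 * d + L + 2) * c₆ ^ (x + 1)) ^ a) ^ A)
    ((x + 1) * a * A)
  obtain ⟨T, hT, hT', hT1⟩ : ∃ T, c₆ * (T₀ + 3) < T ∧ (f * (2 * d) * C) ^ b *
      (2 ^ b * (C + 1) * (2 * d + L + 1) ^ a) ^ r < T ∧ 1 ≤ T :=
    ⟨_ + _ + 1, Nat.lt_succ_of_le (Nat.le_add_right _ _), Nat.lt_succ_of_le (Nat.le_add_left _ _),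
      Nat.le_add_left _ _⟩
  have hM : 1 ≤ T ^ x := Nat.one_le_pow _ _ hT1
  obtain ⟨D, e, he, hD, hw', hE⟩ := hL (T ^ x) hM
  let P : ((Fin s → Fin (T ^ x)) → ℤ) → MvPolynomial (Fin (s + 1)) ℤ := fun t =>
    ∑ y, MvPolynomial.monomial (e y) (t y)
  have hP : ∀ t, (P t).IsWeightedHomogeneous w D := fun t =>
    MvPolynomial.IsWeightedHomogeneous.sum _ _ _ fun y _ =>
      MvPolynomial.isWeightedHomogeneous_monomial _ _ _ (hw' y)
  have hF : ∀ t, MvPolynomial.aeval g (P t) = ∑ y, t y • ∏ i, g i ^ e y i := fun t => by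
    simp only [P, map_sum, MvPolynomial.aeval_monomial, Finsupp.prod_pow, eq_intCast, zsmul_eq_mul]
  obtain ⟨t, t0, t1, t2⟩ : ∃ t : (Fin s → Fin (T ^ x)) → ℤ, t ≠ 0 ∧ (∀ y, |t y| ≤ 2 ^ T ^ (x + 1)) ∧
      ∀ n, (p : O) ^ (2 * d * T ^ (x + 1)) ∣ ι (coeff n (∑ y, t y • ∏ i, g i ^ e y i)) := by
    obtain ⟨W, u, hu1, hW, H⟩ := hom D (2 * d * T ^ (x + 1))
    obtain ⟨_, hdim⟩ := dim W
    obtain ⟨m, v, hm, hv⟩ := exists_gens (O := O) (Q W)
    obtain ⟨R, hR, hR'⟩ := hf (2 * d * T ^ (x + 1))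
    refine pigeon ι _ v hu1 hR hR' ?_ fun t => ?_
    · simpa using ar1 hab hx hT' hD hW (hm.trans hdim)
    · obtain ⟨G, hG, hG'⟩ := H _ (hP t)
      obtain ⟨γ, rfl⟩ := hv G hG
      exact ⟨γ, hF t ▸ C_dvd_iff.2 hG'⟩
  rw [← hF] at t2
  refine ⟨D, P t, fun h => t0 (funext fun y => ?_), hP t, ?_⟩
  · have h1 := congrArg (MvPolynomial.coeff (e y)) h
    simpa [P, MvPolynomial.coeff_sum, MvPolynomial.coeff_monomial, he.eq_iff] using h1
  by_contra h0
  have hex : ∃ n, coeff n (MvPolynomial.aeval g (P t)) ≠ 0 := by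
    by_contra h
    push Not at h
    exact h0 (PowerSeries.ext h)
  obtain ⟨n, hn, hn1⟩ : ∃ n, coeff n (MvPolynomial.aeval g (P t)) ≠ 0 ∧
      ∀ m < n, coeff m (MvPolynomial.aeval g (P t)) = 0 :=
    ⟨Nat.find hex, Nat.find_spec hex, fun m hm => not_not.1 (Nat.find_min hex hm)⟩
  have h4 := house_coeff_le hE t1 n (k := T ^ x * s) (by
    simp only [Fintype.card_fun, Fintype.card_fin]
    rw [pow_mul]
    exact Nat.pow_le_pow_left Nat.lt_two_pow_self.le _)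
  rw [← hF] at h4
  obtain ⟨l, hl⟩ : ∃ l, l = Nat.log 2 (n + 2) + 1 := ⟨_, rfl⟩
  rw [← hl] at h4
  have h5 : ∀ j, (p : O) ^ j ∣ ι (coeff n (MvPolynomial.aeval g (P t))) →
      j ≤ (T ^ (x + 1) + l * (c₆ * T ^ x)) * d := fun j h => by
    have h7 := (liouville hp hu ι hn h).trans (pow_le_pow_left₀ (house_nonneg _) h4 _)
    rw [← pow_mul, ← hd, pow_le_pow_iff_right₀ one_lt_two] at h7
    refine h7.trans (Nat.mul_le_mul_right _ (Nat.add_le_add_left (Nat.mul_le_mul_left _ ?_) _))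
    rw [hc₆, add_mul, add_mul, mul_comm s]
    exact Nat.le_add_right _ _
  have h6 : T ≤ c₆ * l := by
    have k1 := h5 _ (t2 n)
    have k2 : T * T ^ x * d ≤ c₆ * l * T ^ x * d := by rw [pow_succ'] at k1; linarith
    exact Nat.le_of_mul_le_mul_right (Nat.le_of_mul_le_mul_right k2 hd0) hM
  have h7 : T₀ ≤ n := by
    have k1 : Nat.log 2 (n + 2) ≤ n + 2 := Nat.log_le_self _ _
    have k2 := Nat.lt_of_mul_lt_mul_left (hT.trans_le h6)
    omega
  obtain ⟨W, u, hu1, hW, H⟩ := hom D ((T ^ (x + 1) + l * (c₆ * T ^ x)) * d + 1)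
  obtain ⟨G, hG, hG'⟩ := H _ (hP t)
  obtain ⟨h8, h8'⟩ := boot hu1 (n := n) (fun m hm => by rw [coeff_map, hn1 m hm, map_zero])
    (fun h => absurd (h5 _ h) (Nat.not_succ_le_self _)) hG'
  obtain ⟨c', G', k0, k1, k2, k3⟩ := exists_content h8 h8'
  have h9 := ze W n G' (by
    rw [k1, map_mul, map_C, ← smul_eq_C_mul] at hG
    exact (Submodule.smul_mem_iff _ ((map_ne_zero_iff _ (IsFractionRing.injective O E)).2 k0)).1 hG)
    k2 k3
  have h10 := hT₀ n h7
  rw [← hl] at h10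
  exact absurd (h9.trans (ar2 hb hT1 h6 hD hW)) (not_le.2 h10)

end Vale.Agent.P022K.UC
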