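import Vale.Agent.P022K.UC.QsC

/-!
# P022K, block UC: a polynomial Sturm bound for quasi-modular forms modulo `2`, any level
-/

set_option autoImplicit false

open PowerSeries

noncomputable section

namespace Vale.Agent.P022K.UC.Qs

open Rm

theorem indep_of_deg {A ι : Type*} [CommRing A] [IsDomain A] [Fintype ι] (p : ι → Polynomial A)
    (h0 : ∀ i, p i ≠ 0) (hd : Function.Injective fun i => (p i).natDegree) (t : ι → A)
    (h : ∑ i, t i • p i = 0) : t = 0 := by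
  classical
  by_contra ht
  obtain ⟨i, hi, hmax⟩ := Finset.exists_max_image (Finset.univ.filter fun i => t i ≠ 0)
    (fun i => (p i).natDegree) (by
      obtain ⟨i, h⟩ := Function.ne_iff.1 ht
      exact ⟨i, by simpa using h⟩)
  have h1 := congrArg (fun q : Polynomial A => q.coeff (p i).natDegree) h
  simp only [Polynomial.finsetSum_coeff, Polynomial.coeff_smul, Polynomial.coeff_zero] at h1
  rw [Finset.sum_eq_single i] at h1
  · exact mul_ne_zero (Finset.mem_filter.1 hi).2 (Polynomial.leadingCoeff_ne_zero.2 (h0 i)) h1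
  · intro j _ hne
    by_cases h2 : t j = 0
    · simp [h2]
    rw [Polynomial.coeff_eq_zero_of_natDegree_lt
      (lt_of_le_of_ne (hmax j (by simpa using h2)) fun h3 => hne (hd h3)), smul_zero]
  · simp

theorem deg_lin {A : Type*} [CommRing A] [IsDomain A] {c : A} (hc : c ≠ 0) {n : ℕ} (hn : n ≠ 0) :
    (1 + Polynomial.C c * Polynomial.X ^ n : Polynomial A).natDegree = n ∧
      (1 + Polynomial.C c * Polynomial.X ^ n : Polynomial A) ≠ 0 := by
  have h : (1 + Polynomial.C c * Polynomial.X ^ n : Polynomial A).natDegree = n := by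
    rw [Polynomial.natDegree_add_eq_right_of_natDegree_lt] <;>
      rw [Polynomial.natDegree_C_mul_X_pow _ _ hc]
    simpa using Nat.pos_of_ne_zero hn
  exact ⟨h, fun h0 => hn (by rw [← h, h0, Polynomial.natDegree_zero])⟩

theorem mon3_indep {A : Type*} [CommRing A] [IsDomain A] [CharZero A] {L w : ℕ} (hw : 5 * L ≤ w)
    (t : Fin L × Fin L → A)
    (h : ∑ kl, t kl • ((1 - 48 * MvPolynomial.X 1 : MvPolynomial (Fin 2) A) ^
      (w - 2 * kl.1 - 3 * kl.2) * (1 + 192 * MvPolynomial.X 0) ^ (kl.1 : ℕ) *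
      (1 - 576 * MvPolynomial.X 0) ^ (kl.2 : ℕ)) = 0) : t = 0 := by
  obtain ⟨a1, a2⟩ := deg_lin (A := A) (c := -48) (by norm_num) (n := 2 * L + 1) (by omega)
  obtain ⟨b1, b2⟩ := deg_lin (A := A) (c := 192) (by norm_num) (n := 1) (by omega)
  obtain ⟨c1, c2⟩ := deg_lin (A := A) (c := -576) (by norm_num) (n := 1) (by omega)
  refine indep_of_deg (fun kl : Fin L × Fin L =>
    (1 + Polynomial.C (-48 : A) * Polynomial.X ^ (2 * L + 1)) ^ (w - 2 * kl.1 - 3 * kl.2) *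
      (1 + Polynomial.C (192 : A) * Polynomial.X ^ 1) ^ (kl.1 : ℕ) *
      (1 + Polynomial.C (-576 : A) * Polynomial.X ^ 1) ^ (kl.2 : ℕ))
    (fun kl => mul_ne_zero (mul_ne_zero (pow_ne_zero _ a2) (pow_ne_zero _ b2)) (pow_ne_zero _ c2))
    ?_ t ?_
  · intro kl kl' e
    simp only [Polynomial.natDegree_mul (mul_ne_zero (pow_ne_zero _ a2) (pow_ne_zero _ b2))
      (pow_ne_zero _ c2), Polynomial.natDegree_mul (pow_ne_zero _ a2) (pow_ne_zero _ b2),
      Polynomial.natDegree_pow, a1, b1, c1, mul_one, add_assoc] at e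
    have k1 := kl.1.2
    have k2 := kl.2.2
    have k3 := kl'.1.2
    have k4 := kl'.2.2
    have k5 := congrArg (· % (2 * L + 1)) e
    simp only [Nat.mul_add_mod_of_lt (show (kl.1 : ℕ) + kl.2 < 2 * L + 1 by omega),
      Nat.mul_add_mod_of_lt (show (kl'.1 : ℕ) + kl'.2 < 2 * L + 1 by omega)] at k5
    rw [k5] at e
    have k6 := Nat.eq_of_mul_eq_mul_right (by omega) (Nat.add_right_cancel e)
    exact Prod.ext (Fin.ext (by omega)) (Fin.ext (by omega))
  · have := congrArg (MvPolynomial.aeval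
      ![(Polynomial.X : Polynomial A), Polynomial.X ^ (2 * L + 1)]) h
    rw [map_sum, map_zero] at this
    rw [← this]
    refine Finset.sum_congr rfl fun kl _ => ?_
    simp [sub_eq_add_neg, map_ofNat]

theorem root_dvd {S : Type*} [CommRing S] [IsDomain S] {H : S} (hH : H ≠ 0) {d : ℕ}
    (c : Fin d → S) (h : ∑ i, c i * H ^ (i : ℕ) = 0) (hc : ∃ i, c i ≠ 0) :
    ∃ i, c i ≠ 0 ∧ H ∣ c i := by
  induction d with
  | zero => obtain ⟨i, _⟩ := hc; exact i.elim0
  | succ d ih =>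
    rw [Fin.sum_univ_succ] at h
    have e : ∑ i : Fin d, c i.succ * H ^ (i.succ : ℕ) = H * ∑ i : Fin d, c i.succ * H ^ (i : ℕ) := by
      rw [Finset.mul_sum]
      exact Finset.sum_congr rfl fun i _ => by rw [Fin.val_succ]; ring
    rw [e, Fin.val_zero, pow_zero, mul_one] at h
    by_cases h0 : c 0 = 0
    · rw [h0, zero_add] at h
      obtain ⟨i, hi⟩ := ih (fun i => c i.succ) ((mul_eq_zero.1 h).resolve_left hH) (by
        obtain ⟨i, hi⟩ := hc
        rcases i.eq_zero_or_eq_succ with rfl | ⟨j, rfl⟩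
        · exact absurd h0 hi
        · exact ⟨j, hi⟩)
      exact ⟨_, hi⟩
    · exact ⟨0, h0, -_, by rw [mul_neg]; exact eq_neg_of_add_eq_zero_left h⟩

theorem bx_mon3 {A S : Type*} [CommRing A] [CommRing S] [Algebra A S] (x z : S) {j k l w : ℕ}
    (h : j + k + l ≤ w) :
    (1 - 48 * z) ^ j * (1 + 192 * x) ^ k * (1 - 576 * x) ^ l ∈ Bx A x z w := by
  have h1 : 1 - 48 * z ∈ Bx A x z 1 :=
    sub_mem (Bx.one 1) (by simpa using Bx.const_mul (Bx.right (A := A) (x := x) (y := z)) 48)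
  have h2 : 1 + 192 * x ∈ Bx A x z 1 :=
    add_mem (Bx.one 1) (by simpa using Bx.const_mul (Bx.left (A := A) (x := x) (y := z)) 192)
  have h3 : 1 - 576 * x ∈ Bx A x z 1 :=
    sub_mem (Bx.one 1) (by simpa using Bx.const_mul (Bx.left (A := A) (x := x) (y := z)) 576)
  exact Bx.mono (by omega) (Bx.mul (Bx.mul (Bx.pow h1 j) (Bx.pow h2 k)) (Bx.pow h3 l))

variable {O : Type*} [CommRing O] [IsDomain O] [IsDiscreteValuationRing O] [CharZero O]

/-- a non trivial combination of monomials of weight `w` is not zero, and its divisors satisfy the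
bound -/
theorem mon_bound (h2 : ¬ IsUnit (2 : O)) {L w : ℕ} (hw : 5 * L ≤ w) (t : Fin L × Fin L → O)
    (ht : t ≠ 0) {u : O⟦X⟧} (hu : rd u ≠ 0) {n : ℕ} (hn : X ^ n ∣ rd u)
    (h : u ∣ ∑ kl, t kl • (E2 O ^ (w - 2 * kl.1 - 3 * kl.2) * E4 O ^ (kl.1 : ℕ) *
      E6 O ^ (kl.2 : ℕ))) : n ≤ 2 ^ 22 * (w + 1) ^ 5 := by
  obtain ⟨a', x, g, c, c', z, D, -, x0, x1, e2, e4, e6⟩ := exists_dat
  let ψ : ℤ⟦X⟧ →+* O⟦X⟧ := PowerSeries.map (Int.castRingHom O)
  have e2' := congrArg ψ e2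
  have e4' := congrArg ψ e4
  have e6' := congrArg ψ e6
  simp only [map_mul, map_pow, map_sub, map_add, map_one, map_ofNat, ψ, map_Es] at e2' e4' e6'
  obtain ⟨T, hT⟩ := h
  refine D.sturm' ψ two_ne_zero h2 ?_ ?_ (P := ∑ kl, t kl • ((1 - 48 * MvPolynomial.X 1) ^
      (w - 2 * kl.1 - 3 * kl.2) * (1 + 192 * MvPolynomial.X 0) ^ (kl.1 : ℕ) *
      (1 - 576 * MvPolynomial.X 0) ^ (kl.2 : ℕ))) ?_ (fun h => ht (mon3_indep hw t h))
      (T := T * ψ a' ^ w) ?_ hu hn
  · rw [← coeff_zero_eq_constantCoeff_apply, coeff_map, coeff_zero_eq_constantCoeff_apply, x0,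
      map_zero]
  · rw [coeff_map, x1, map_one]
  · refine sum_mem fun kl _ => Submodule.smul_mem _ _ (bx_mon3 _ _ ?_)
    have k1 := kl.1.2
    have k2 := kl.2.2
    omega
  · rw [← mul_assoc, ← hT, map_sum, Finset.sum_mul]
    refine Finset.sum_congr rfl fun kl _ => ?_
    have k1 := kl.1.2
    have k2 := kl.2.2
    obtain ⟨j, hj⟩ : ∃ j, w = j + 2 * kl.1 + 3 * kl.2 := ⟨w - 2 * kl.1 - 3 * kl.2, by omega⟩
    have k3 : w - 2 * kl.1 - 3 * kl.2 = j := by omega
    simp only [map_smul, map_mul, map_pow, map_sub, map_add, map_one, map_ofNat,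
      MvPolynomial.aeval_X, Matrix.cons_val_zero, Matrix.cons_val_one, k3, ψ, ← e2', ← e4', ← e6',
      smul_mul_assoc]
    congr 1
    rw [hj]
    ring

/-- **the polynomial Sturm bound**, in the shape used by `UC.pig` -/
theorem ze {E : Type*} [Field E] [Algebra O E] [IsFractionRing O E] (h2 : ¬ IsUnit (2 : O))
    (Q : ℕ → Submodule E E⟦X⟧) (one : 1 ∈ Q 0)
    (mul : ∀ a b x y, x ∈ Q a → y ∈ Q b → x * y ∈ Q (a + b))
    (m2 : E2 E ∈ Q 1) (m4 : E4 E ∈ Q 2) (m6 : E6 E ∈ Q 3) {C : ℕ}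
    (dim : ∀ W, FiniteDimensional E (Q W) ∧ Module.finrank E (Q W) ≤ C * (W + 1) ^ 2)
    (W n : ℕ) (H : O⟦X⟧) (hH : PowerSeries.map (algebraMap O E) H ∈ Q W)
    (hn : ∀ m < n, coeff m H ∈ IsLocalRing.maximalIdeal O)
    (hu : ∃ m, coeff m H ∉ IsLocalRing.maximalIdeal O) :
    n ≤ (2 ^ 22 * (6 * (36 * C + 1)) ^ 5) * (W + 1) ^ 5 := by
  classical
  obtain ⟨d, hd⟩ : ∃ d, d = 36 * C + 1 := ⟨_, rfl⟩
  obtain ⟨L, hL⟩ : ∃ L, L = d * (W + 1) := ⟨_, rfl⟩
  obtain ⟨w, hw⟩ : ∃ w, w = d * W + 5 * L := ⟨_, rfl⟩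
  have hw1 : w + 1 ≤ 6 * d * (W + 1) := by nlinarith
  have pw : ∀ a x, x ∈ Q a → ∀ k, x ^ k ∈ Q (k * a) := fun a x hx k => by
    induction k with
    | zero => simpa using one
    | succ k ih => rw [pow_succ, Nat.succ_mul]; exact mul _ _ _ _ ih hx
  have hle : ∀ i : Fin d, 5 * L ≤ w - i * W := fun i => by
    have : (i : ℕ) * W ≤ d * W := Nat.mul_le_mul_right _ i.2.le
    omega
  let ψ : O⟦X⟧ →+* E⟦X⟧ := PowerSeries.map (algebraMap O E)
  let v : Fin d × (Fin L × Fin L) → O⟦X⟧ := fun i =>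
    E2 O ^ (w - i.1 * W - 2 * i.2.1 - 3 * i.2.2) * E4 O ^ (i.2.1 : ℕ) * E6 O ^ (i.2.2 : ℕ) *
      H ^ (i.1 : ℕ)
  have hv : ∀ i, ψ (v i) ∈ Q w := fun i => by
    have k0 := mul _ _ _ _ (mul _ _ _ _ (mul _ _ _ _
      (pw _ _ m2 (w - i.1 * W - 2 * i.2.1 - 3 * i.2.2)) (pw _ _ m4 i.2.1)) (pw _ _ m6 i.2.2))
      (pw _ _ hH i.1)
    have k1 := i.2.1.2
    have k2 := i.2.2.2
    have k3 := hle i.1
    have k4 : (i.1 : ℕ) * W ≤ d * W := Nat.mul_le_mul_right _ i.1.2.le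
    rw [show (w - i.1 * W - 2 * i.2.1 - 3 * i.2.2) * 1 + i.2.1 * 2 + i.2.2 * 3 + i.1 * W = w by
      omega] at k0
    simpa only [v, ψ, map_mul, map_pow, map_Es] using k0
  have hdep : ¬ LinearIndependent O fun i => ψ (v i) := fun h => by
    have := (dim w).1
    rw [LinearIndependent.iff_fractionRing O E] at h
    have k1 : LinearIndependent E fun i => (⟨ψ (v i), hv i⟩ : Q w) :=
      LinearIndependent.of_comp (Q w).subtype h
    have k2 := k1.fintype_card_le_finrank.trans (dim w).2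
    simp only [Fintype.card_prod, Fintype.card_fin] at k2
    have k3 : C * (w + 1) ^ 2 ≤ C * (6 * L) ^ 2 :=
      Nat.mul_le_mul_left _ (Nat.pow_le_pow_left (by rw [hL, ← mul_assoc]; exact hw1) 2)
    have k4 : 0 < L := by rw [hL, hd]; positivity
    nlinarith
  obtain ⟨s, hs, i0, hi0⟩ := Fintype.not_linearIndependent_iff.1 hdep
  have hs' : ∑ i, s i • v i = 0 := by
    refine PowerSeries.map_injective (algebraMap O E) (IsFractionRing.injective O E) ?_
    rw [map_zero, map_sum, ← hs]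
    refine Finset.sum_congr rfl fun i _ => ?_
    rw [smul_eq_C_mul, map_mul, map_C, ← smul_eq_C_mul, algebraMap_smul]
  have hH0 : rd H ≠ 0 := fun h => by
    obtain ⟨m, hm⟩ := hu
    have := congrArg (coeff m) h
    rw [rd, coeff_map, map_zero, IsLocalRing.residue_eq_zero_iff] at this
    exact hm this
  have hn' : X ^ n ∣ rd H := X_pow_dvd_iff.2 fun m hm => by
    rw [rd, coeff_map, IsLocalRing.residue_eq_zero_iff]
    exact hn m hm
  obtain ⟨i, hi, hi'⟩ := root_dvd (H := H) (fun h => hH0 (by rw [h, map_zero]))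
    (fun i : Fin d => ∑ kl : Fin L × Fin L, s (i, kl) •
      (E2 O ^ (w - i * W - 2 * kl.1 - 3 * kl.2) * E4 O ^ (kl.1 : ℕ) * E6 O ^ (kl.2 : ℕ))) (by
      rw [← hs', Fintype.sum_prod_type]
      refine Finset.sum_congr rfl fun i _ => ?_
      rw [Finset.sum_mul]
      exact Finset.sum_congr rfl fun kl _ => smul_mul_assoc _ _ _) ⟨i0.1, fun h => by
      have k1 := mon_bound h2 (hle i0.1) (fun kl => s (i0.1, kl))
        (fun h => hi0 (congrFun h i0.2))
        (u := X ^ (2 ^ 22 * (w - i0.1 * W + 1) ^ 5 + 1))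
        (by rw [map_pow, rd, map_X]; exact pow_ne_zero _ X_ne_zero)
        (n := 2 ^ 22 * (w - i0.1 * W + 1) ^ 5 + 1) (by rw [map_pow, rd, map_X]) (h ▸ dvd_zero _)
      omega⟩
  have k1 := mon_bound h2 (hle i) (fun kl => s (i, kl))
    (fun h => hi (by simp [show ∀ kl, s (i, kl) = 0 from congrFun h])) hH0 hn' hi'
  refine k1.trans ?_
  rw [← hd, mul_assoc, ← mul_pow]
  exact Nat.mul_le_mul_left _ (Nat.pow_le_pow_left (by omega) 5)

end Vale.Agent.P022K.UC.Qs
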