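import Vale.Agent.P022K.UC.Qm
import Vale.Agent.P022K.UC.Pig
import Vale.Agent.P022K.UC.QsD

/-!
# P022K, block UC: formal eigenforms, the local ring, and the algebraic relation
-/

set_option autoImplicit false
set_option linter.all false

open NumberField PowerSeries
open scoped MatrixGroups

noncomputable section

namespace Vale.Agent.P022K.UC.Hm

/-- the local factors -/
def ch {R : Type*} [CommRing R] (t d : R) : ℕ → R
  | 0 => 1
  | 1 => t
  | k + 2 => t * ch t d (k + 1) - d * ch t d k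

/-- **formal eigenforms** -/
theorem ex_eig {R : Type*} [CommRing R] {M : ℕ} (hM : M ≠ 1) (t d : ℕ → R) : ∃ c : ℕ → R,
    c 1 = 1 ∧ (∀ n, ¬ n.Coprime M → c n = 0) ∧ ∀ l, l.Prime → ¬ l ∣ M → c l = t l ∧
      ∀ n, c (l * n) + (if l ∣ n then d l * c (n / l) else 0) = c l * c n := by
  let c : ℕ → R := fun n =>
    if n.Coprime M then n.factorization.prod fun p k => ch (t p) (d p) k else 0
  have h0 : c 0 = 0 := if_neg (by simpa using hM)
  have h1 : c 1 = 1 := by simp [c]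
  have key : ∀ l, l.Prime → ¬ l ∣ M → ∀ n, ¬ l ∣ n → ∀ k,
      c (l ^ k * n) = ch (t l) (d l) k * c n := fun l hl hM n hn k => by
    have h2 : (l ^ k).Coprime n := ((Nat.Prime.coprime_iff_not_dvd hl).2 hn).pow_left k
    have h3 : (l ^ k).Coprime M := ((Nat.Prime.coprime_iff_not_dvd hl).2 hM).pow_left k
    simp only [c, Nat.coprime_mul_iff_left, eq_true h3, true_and]
    split_ifs
    · rw [Nat.factorization_mul_of_coprime h2,
        Finsupp.prod_add_index_of_disjoint h2.disjoint_primeFactors, hl.factorization_pow,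
        Finsupp.prod_single_index rfl]
    · simp
  refine ⟨c, h1, fun n hn => if_neg hn, fun l hl hM => ?_⟩
  have h2 : c l = t l := by simpa [h1, ch] using key l hl hM 1 hl.not_dvd_one 1
  refine ⟨h2, fun n => ?_⟩
  rcases eq_or_ne n 0 with rfl | hn
  · simp [h0]
  obtain ⟨k, n, h3, rfl⟩ := Nat.exists_eq_pow_mul_and_not_dvd hn l hl.ne_one
  rw [← mul_assoc, ← pow_succ', key l hl hM n h3, key l hl hM n h3, h2]
  rcases k with _ | k
  · simp [h3, ch]
  · rw [pow_succ', mul_assoc, if_pos (dvd_mul_right _ _), Nat.mul_div_cancel_left _ hl.pos,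
      key l hl hM n h3, ch]
    ring

theorem eig_le {M A : ℕ} {c d : ℕ → ℂ} (h1 : c 1 = 1) (h2 : ∀ n, ¬ n.Coprime M → c n = 0)
    (h0 : c 0 = 0) (h3 : ∀ l, l.Prime → ¬ l ∣ M → ‖c l‖ ≤ (l : ℝ) ^ A ∧
      ‖d l‖ ≤ (l : ℝ) ^ (2 * A + 1) ∧
      ∀ n, c (l * n) + (if l ∣ n then d l * c (n / l) else 0) = c l * c n) (n : ℕ) :
    ‖c n‖ ≤ (n : ℝ) ^ (A + 1) := by
  induction n using Nat.strong_induction_on with
  | _ n ih =>
    by_cases hn : n.Coprime M
    swap
    · rw [h2 n hn, norm_zero]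
      positivity
    rcases eq_or_ne n 0 with rfl | k0
    · simp [h0]
    rcases eq_or_ne n 1 with rfl | k1
    · simp [h1]
    obtain ⟨p, hp, n, rfl⟩ := Nat.exists_prime_and_dvd k1
    obtain ⟨k2, k3, k4⟩ := h3 p hp ((Nat.Prime.coprime_iff_not_dvd hp).1 hn.coprime_mul_right)
    have k5 : n < p * n := lt_mul_left (Nat.pos_of_ne_zero (right_ne_zero_of_mul k0)) hp.one_lt
    have k6 : (2 : ℝ) ≤ p := by exact_mod_cast hp.two_le
    have k7 : ‖c p * c n‖ ≤ (p : ℝ) ^ A * (n : ℝ) ^ (A + 1) := by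
      rw [norm_mul]
      gcongr
      exact ih n k5
    have k8 : ‖if p ∣ n then d p * c (n / p) else 0‖ ≤ (p : ℝ) ^ A * (n : ℝ) ^ (A + 1) := by
      split_ifs with h
      · obtain ⟨n, rfl⟩ := h
        rw [Nat.mul_div_cancel_left _ hp.pos, norm_mul, Nat.cast_mul, mul_pow, ← mul_assoc,
          ← pow_add, show A + (A + 1) = 2 * A + 1 by ring]
        gcongr
        exact ih n ((Nat.le_mul_of_pos_left _ hp.pos).trans_lt k5)
      · rw [norm_zero]
        positivity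
    rw [eq_sub_of_add_eq (k4 n), Nat.cast_mul, mul_pow, pow_succ (p : ℝ)]
    nlinarith [norm_sub_le_of_le k7 k8, (by positivity : 0 ≤ (p : ℝ) ^ A * (n : ℝ) ^ (A + 1))]

variable {K : Type*} [Field K] [NumberField K]

theorem gr_Es (c : ℤ) (r : ℕ) : ∃ A, Gr A (Rm.Es (𝓞 K) c r) := by
  refine gr_of_le (A := |(c : ℝ)| + 1) (c := r + 1) fun n => ?_
  have h1 : (1 : ℝ) ≤ ((n : ℝ) + 2) ^ (r + 1) :=
    one_le_pow₀ (by linarith [(Nat.cast_nonneg n : (0 : ℝ) ≤ n)])
  rw [Rm.coeff_Es]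
  split_ifs
  · have := house_intCast (K := K) 1
    simp only [Int.cast_one, abs_one] at this
    rw [RingOfIntegers.coe_eq_algebraMap, map_one, this]
    nlinarith [abs_nonneg (c : ℝ)]
  · have := house_intCast (K := K) (c * ArithmeticFunction.sigma r n)
    simp only [Int.cast_mul, Int.cast_natCast, abs_mul, Nat.abs_cast, Int.cast_abs] at this
    rw [RingOfIntegers.coe_eq_algebraMap, map_mul, map_intCast, map_natCast, this]
    have h2 : (ArithmeticFunction.sigma r n : ℝ) ≤ ((n : ℝ) + 2) ^ (r + 1) :=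
      le_trans (by exact_mod_cast ArithmeticFunction.sigma_le_pow_succ r n)
        (pow_le_pow_left₀ (Nat.cast_nonneg n) (by linarith) _)
    nlinarith [abs_nonneg (c : ℝ)]

theorem norm_le_one_of_int {L : Type*} [NormedField L] [IsUltrametricDist L] {x : L}
    (h : IsIntegral ℤ x) : ‖x‖ ≤ 1 :=
  (Valuation.integer.integers (NormedField.valuation (K := L))).mem_of_integral h.tower_top

/-- **the local ring** of a `2`-adic place -/
theorem ex_dvr {K : Type} [Field K] [NumberField K] {L : Type*} [NormedField L]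
    [IsUltrametricDist L] [CharZero L] (ν : K →+* L) (h2 : ‖(2 : L)‖ < 1) :
    ∃ (O : Type) (_ : CommRing O) (_ : IsDomain O) (_ : IsDiscreteValuationRing O)
      (_ : CharZero O) (_ : Finite (IsLocalRing.ResidueField O)) (ι : 𝓞 K →+* O) (μ : O →+* L),
      ¬ IsUnit (2 : O) ∧ (∀ y, μ (ι y) = ν y) ∧ ∀ z j, ‖μ z‖ ≤ ‖(2 : L)‖ ^ j → 2 ^ j ∣ z := by
  let ν' : 𝓞 K →+* L := ν.comp (algebraMap _ _)
  have h1 : ∀ y, ‖ν' y‖ ≤ 1 := fun y =>
    norm_le_one_of_int ((RingOfIntegers.isIntegral y).map ν'.toIntAlgHom)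
  let P : Ideal (𝓞 K) :=
    { carrier := {y | ‖ν' y‖ < 1}
      zero_mem' := by simp
      add_mem' := fun {a b} ha hb => by
        rw [Set.mem_setOf_eq, map_add]
        exact (IsUltrametricDist.norm_add_le_max _ _).trans_lt (max_lt ha hb)
      smul_mem' := fun a b hb => by
        rw [Set.mem_setOf_eq, smul_eq_mul, map_mul, norm_mul]
        exact mul_lt_one_of_nonneg_of_lt_one_right (h1 a) (norm_nonneg _) hb }
  have hP : ∀ y, y ∈ P ↔ ‖ν' y‖ < 1 := fun _ => Iff.rfl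
  haveI : P.IsPrime := ⟨P.ne_top_iff_one.2 (by simp [hP]), fun {a b} h => by
    rw [hP, map_mul, norm_mul] at h
    by_contra h3
    simp only [hP, not_or, not_lt] at h3
    exact h.not_ge (one_le_mul_of_one_le_of_one_le h3.1 h3.2)⟩
  have p2 : (2 : 𝓞 K) ∈ P := by rwa [hP, map_ofNat]
  have p0 : P ≠ ⊥ := fun e => two_ne_zero (Ideal.mem_bot.1 (e ▸ p2))
  haveI := IsLocalization.AtPrime.isDiscreteValuationRing_of_dedekind_domain (𝓞 K) p0
    (Localization.AtPrime P)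
  haveI : Finite (𝓞 K ⧸ P) := P.finiteQuotientOfFreeOfNeBot p0
  have hs : ∀ s : P.primeCompl, 1 ≤ ‖ν' s‖ := fun s => not_lt.1 s.2
  have hu : ∀ s : P.primeCompl, IsUnit (ν' s) := fun s =>
    (norm_pos_iff.1 (one_pos.trans_le (hs s))).isUnit
  let μ : Localization.AtPrime P →+* L := IsLocalization.lift hu
  have hμ : ∀ y, μ (algebraMap _ _ y) = ν' y := IsLocalization.lift_eq hu
  refine ⟨Localization.AtPrime P, inferInstance, inferInstance, inferInstance,
    μ.charZero, inferInstanceAs (Finite P.ResidueField), algebraMap _ _, μ, ?_, hμ,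
    fun z j h => ?_⟩
  · have := (IsLocalization.AtPrime.to_map_mem_maximal_iff (Localization.AtPrime P) P 2).2 p2
    rwa [map_ofNat] at this
  · rcases ValuationRing.dvd_total (2 ^ j) z with h3 | ⟨w, h3⟩
    · exact h3
    by_cases h4 : IsUnit w
    · exact h3 ▸ h4.mul_right_dvd.2 dvd_rfl
    obtain ⟨⟨a, s⟩, rfl⟩ := IsLocalization.mk'_surjective P.primeCompl w
    have h5 : ‖ν' a‖ < 1 :=
      (IsLocalization.AtPrime.mk'_mem_maximal_iff (Localization.AtPrime P) P a s).1 h4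
    have h6 := congrArg (fun x => ‖μ (x * algebraMap _ _ s.1)‖) h3
    simp only [mul_assoc, IsLocalization.mk'_spec, map_mul, map_pow, map_ofNat, norm_mul, norm_pow,
      hμ] at h6
    have h7 : 0 < ‖(2 : L)‖ ^ j := pow_pos (norm_pos_iff.2 two_ne_zero) j
    nlinarith [hs s, norm_nonneg (μ z), norm_nonneg (ν' a)]

/-- **the algebraic relation** -/
theorem ex_rel {O : Type} [CommRing O] [IsDomain O] [IsDiscreteValuationRing O] [CharZero O]
    [Finite (IsLocalRing.ResidueField O)] (h2 : ¬ IsUnit (2 : O)) (ι : 𝓞 K →+* O)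
    (Γ : Subgroup SL(2, ℤ)) [Γ.FiniteIndex] {f : (𝓞 K)⟦X⟧} {κ A a b C : ℕ} (hκ : κ ≠ 0)
    (hA : Gr A f) (hb : b ≠ 0) (h1 : b ≤ a) (h3 : 2 * a < 3 * b)
    (h4 : ∀ n, Even n → coeff n f = 0)
    (h : ∀ j, ∃ (B : ℕ) (G : O⟦X⟧), B ^ b ≤ C * (j + 1) ^ a ∧
      PowerSeries.map (algebraMap O (FractionRing O)) G ∈ QE (FractionRing O) Γ (κ + 1 * B) ∧
      ∀ n : ℕ, (2 : O) ^ j ∣ (n : O) ^ B * ι (coeff n f) - coeff n G) :
    ∃ (D : ℕ) (P : MvPolynomial (Fin 4) ℤ), P ≠ 0 ∧ P.IsWeightedHomogeneous ![1, 2, 3, κ] D ∧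
      MvPolynomial.aeval ![Rm.E2 (𝓞 K), Rm.E4 (𝓞 K), Rm.E6 (𝓞 K), f] P = 0 := by
  have hw : ∀ i, ![1, 2, 3, κ] i ≠ 0 := fun i => by fin_cases i <;> simp [hκ]
  obtain ⟨A2, g2⟩ := gr_Es (K := K) (-24) 1
  obtain ⟨A4, g4⟩ := gr_Es (K := K) 240 3
  obtain ⟨A6, g6⟩ := gr_Es (K := K) (-504) 5
  obtain ⟨C', hC⟩ := hom ι (QE (FractionRing O) Γ) (d := 1) (Rm.E2 O) QE.one
    (fun _ _ _ _ => QE.mul) (fun _ _ => QE.th) (by rw [Rm.map_Es]; exact QE.e2)
    (fun n => by
      rw [Rm.E2, Rm.Es_eq, add_sub_cancel_left, ← map_intCast (PowerSeries.C (R := O)),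
        coeff_C_mul]
      exact dvd_mul_of_dvd_left ⟨-12, by norm_num⟩ _)
    (isUnit_iff_constantCoeff.2 (by rw [Rm.cc_Es]; exact isUnit_one))
    ![Rm.E2 (𝓞 K), Rm.E4 (𝓞 K), Rm.E6 (𝓞 K), f] ![1, 2, 3, κ] hw hb h1 (C := C) fun i => by
      fin_cases i
      · exact Or.inl (by simpa [Rm.map_Es] using QE.e2)
      · exact Or.inl (by simpa [Rm.map_Es] using QE.e4)
      · exact Or.inl (by simpa [Rm.map_Es] using QE.e6)
      · exact Or.inr ⟨h4, h⟩
  obtain ⟨C₀, k1, k2, k3⟩ : ∃ C₀, Γ.index + 1 ≤ C₀ ∧ C' ≤ C₀ ∧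
      2 ^ 22 * (6 * (36 * (Γ.index + 1) + 1)) ^ 5 ≤ C₀ :=
    ⟨_, le_max_left _ _, (le_max_left _ _).trans (le_max_right _ _),
      (le_max_right _ _).trans (le_max_right _ _)⟩
  refine pig (s := 3) _ _ hw (c := A + A2 + A4 + A6) (fun i => ?_) Nat.prime_two
    (by rwa [Nat.cast_ofNat]) ι (QE (FractionRing O) Γ) (r := 2) (A := 5) (C := C₀) h3
    (fun W => ⟨(QE.dim W).1, (QE.dim W).2.trans (Nat.mul_le_mul_right _ k1)⟩)
    (fun W n H r1 r2 r3 => (Qs.ze h2 (QE (FractionRing O) Γ) QE.one (fun _ _ _ _ => QE.mul) QE.e2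
      QE.e4 QE.e6 QE.dim W n H r1 r2 r3).trans (Nat.mul_le_mul_right _ k3)) fun D j => ?_
  · fin_cases i
    · exact g2.mono (by omega)
    · exact g4.mono (by omega)
    · exact g6.mono (by omega)
    · exact hA.mono (by omega)
  · obtain ⟨W, u, r1, r2, r3⟩ := hC D j
    rw [Nat.cast_ofNat]
    exact ⟨W, u, r1, r2.trans (Nat.mul_le_mul_right _ k2), r3⟩

end Vale.Agent.P022K.UC.Hm
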