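import Vale.Agent.P022K.UC.Fun
import Vale.Agent.P022K.UC.UcA
import Vale.Agent.P022K.UC.Am8
import Vale.Agent.P022K.UC.Alg3

/-!
# P022K, block UC: a well approximated system of Hecke eigenvalues is classical
-/

set_option autoImplicit false
set_option linter.all false

open NumberField PowerSeries UpperHalfPlane CongruenceSubgroup
open scoped MatrixGroups ModularForm

noncomputable section

namespace Vale.Agent.P022K.UC.Hm

open Vale.Agent.P022 Vale.Agent.P022.H218.L3 Vale.Agent.P022.H783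
open Vale.Agent.P022.H567.Tw (cf cf_unique)
open Vale.Agent.P022.H811.L3 (zero_of_coeff)

/-- **UCN**: the system `lam` is modulo `2 ^ j` a system of the Hecke ring of the weights at most
`2 B + 2`, with `B = O (j ^ (al / be))`, `al / be < 3 / 2` -/
def UCN (N : ℕ) [NeZero N] {L : Type*} [NormedField L] (lam : ℕ → L) : Prop :=
  ∃ al be C : ℕ, be ≠ 0 ∧ be ≤ al ∧ 2 * al < 3 * be ∧ ∀ j, ∃ B, B ^ be ≤ C * (j + 1) ^ al ∧
    ∀ P : FreeAlgebra ℤ (PA N), (∀ m ≤ B, ∀ f, Tv f → wd N m P f = 0) →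
      ‖FreeAlgebra.lift ℤ (fun l : PA N => lam l.1) P‖ ≤ ‖(2 : L)‖ ^ j

theorem map_lift {A B ι : Type*} [CommRing A] [CommRing B] (μ : A →+* B) (x : ι → A)
    (P : FreeAlgebra ℤ ι) :
    μ (FreeAlgebra.lift ℤ x P) = FreeAlgebra.lift ℤ (fun i => μ (x i)) P := by
  induction P using FreeAlgebra.induction with
  | grade0 r => simp
  | grade1 i => simp
  | mul a b ha hb => simp [ha, hb]
  | add a b ha hb => simp [ha, hb]

/-- normalisation to weight two -/
theorem ex_ew {N C : ℕ} {O : Type*} [CommRing O] [IsDomain O] [CharZero O]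
    (hodd : ∀ n : ℕ, Odd n → IsUnit (n : O)) {c : ℕ → O} (h1 : c 1 = 1)
    (h2 : ∀ n, ¬ n.Coprime (2 * N) → c n = 0) (h3 : ∀ (l : PA N) n, c (l.1 * n) +
      (if l.1 ∣ n then (l.1 : O) ^ (2 * C + 1) * c (n / l.1) else 0) = c l.1 * c n) :
    ∃ x : ℕ → O, Ew N x ∧ ∀ n : ℕ, (n : O) ^ C * x n = c n := by
  have h4 : ∀ n : ℕ, ∃ y : O, (n : O) ^ C * y = c n ∧ (¬ n.Coprime (2 * N) → y = 0) := fun n => by
    by_cases h : n.Coprime (2 * N)
    · obtain ⟨u, hu⟩ := ((hodd n (Nat.coprime_two_right.1 h.coprime_mul_right_right)).pow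
        C).exists_right_inv
      exact ⟨u * c n, by rw [← mul_assoc, hu, one_mul], fun e => (e h).elim⟩
    · exact ⟨0, by simp [h2 n h], fun _ => rfl⟩
  choose x x1 x2 using h4
  refine ⟨x, ⟨by simpa [h1] using x1 1, x2, fun l n => ?_⟩, x1⟩
  rcases eq_or_ne n 0 with rfl | hn
  · simp [x2 0 (by simp)]
  refine mul_left_cancel₀ (pow_ne_zero C (Nat.cast_ne_zero (R := O).2
    (mul_ne_zero l.2.1.ne_zero hn))) ?_
  have := h3 l n
  rw [← x1, ← x1 l.1, ← x1 n, ← x1 (n / l.1)] at this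
  split_ifs at this ⊢ with h
  · obtain ⟨n, rfl⟩ := h
    rw [Nat.mul_div_cancel_left _ l.2.1.pos] at this ⊢
    push_cast at this ⊢
    linear_combination this
  · push_cast at this ⊢
    linear_combination this

/-- from the relation to a modular form -/
theorem ex_form {S : Finset ℕ} {C D : ℕ} {c : ℕ → ℂ} (h : Eig S (2 * (C + 1 : ℕ)) c)
    {P : MvPolynomial (Fin 4) ℤ} (h0 : P ≠ 0) (h1 : P.IsWeightedHomogeneous ![1, 2, 3, C + 1] D)
    (h2 : MvPolynomial.aeval ![Rm.E2 ℂ, Rm.E4 ℂ, Rm.E6 ℂ, PowerSeries.mk c] P = 0) :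
    ∃ (m s M : ℕ) (_ : NeZero M) (f : MF M (2 * m + 2)), m + s = C ∧ f ≠ 0 ∧
      (∀ l : ℕ, l.Prime → l ∣ M → l ∈ S) ∧ Tv f ∧
      ∀ l : PA M, l.1 ∉ S → Tl _ l f = (c l.1 / (l.1 : ℂ) ^ s) • f := by
  obtain ⟨s, M, F, k1, k2, k3, k4, k5⟩ := am_of ama amb (D := 2 * D)
    (P := MvPolynomial.map (algebraMap ℤ ℂ) P) h (Nat.succ_ne_zero C)
    (mt (map_eq_zero_iff _ (MvPolynomial.map_injective _ (algebraMap ℤ ℂ).injective_int)).1 h0)
    (fun d hd => by
      rw [← h1 (d := d) fun e => hd (by rw [MvPolynomial.coeff_map, e, map_zero])]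
      simp [Finsupp.weight_apply, Finsupp.sum_fintype, Fin.sum_univ_four]
      ring)
    (by rw [MvPolynomial.aeval_map_algebraMap, Rm.e2_eq, Rm.e4_eq, Rm.e6_eq, h2])
  obtain ⟨m, rfl⟩ : ∃ m, C = m + s := ⟨C - s, by omega⟩
  haveI : NeZero M := ⟨k2⟩
  have h3 := h.twist s
  rw [show 2 * (((m + s + 1 : ℕ) : ℤ) - s) = (2 * m + 2 : ℕ) by push_cast; ring] at k5
  rw [show 2 * ((m + s + 1 : ℕ) : ℤ) - 2 * s = (2 * m + 2 : ℕ) by push_cast; ring] at h3
  let f : MF M (2 * m + 2) := Ab.toMF (k5.mono (Gamma1_in_Gamma0 M))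
  have hf : ∀ n, cf f n = c n / (n : ℂ) ^ s := cf_unique f _ k4
  have hT : Tv f := fun l => DFunLike.coe_injective ((slG0_coe _ _ f).trans
    (k5.slash _ (gd_mem l.coprime)))
  refine ⟨m, s, M, inferInstance, f, rfl, fun e => ?_, k3, hT, fun l hl => ?_⟩
  · have := hf 1
    rw [e, ← cfL_apply, map_zero, h.one] at this
    simp at this
  · refine sub_eq_zero.1 (zero_of_coeff (by omega) _ fun n _ => ?_)
    have := h3.hecke l.1 n l.2.1 hl
    show cfL M _ n _ = 0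
    rw [map_sub, map_smul, cfL_apply, cfL_apply, hT.cf_tl, hf, hf, hf, smul_eq_mul, ← this,
      mul_ite, mul_zero, sub_self]

/-- **UC** over a number field -/
theorem core (N : ℕ) [NeZero N] (h2 : 2 ∣ N) {K : Type} [Field K] [NumberField K] {L : Type*}
    [NormedField L] [IsUltrametricDist L] [CharZero L] (ν : K →+* L) (hL : ‖(2 : L)‖ < 1) (C : ℕ)
    (t : ℕ → 𝓞 K) (ht : ∀ l, l.Prime → ¬ l ∣ N → ∀ φ : K →+* ℂ, ‖φ (t l)‖ ≤ (l : ℝ) ^ (2 * C))
    {lam : ℕ → L} (hl : ∀ l, l.Prime → ¬ l ∣ N → (l : L) ^ C * lam l = ν (t l)) (h : UCN N lam)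
    (φ : K →+* ℂ) : ∃ (m s M : ℕ) (_ : NeZero M) (f : MF M (2 * m + 2)), m + s = C ∧ f ≠ 0 ∧
      (∀ l : ℕ, l.Prime → l ∣ M → l ∣ N) ∧ Tv f ∧
      ∀ l : PA M, ¬ l.1 ∣ N → Tl _ l f = (φ (t l.1) / (l.1 : ℂ) ^ s) • f := by
  have N0 := NeZero.ne N
  have hN : ∀ {l : ℕ}, l.Prime → (l ∣ 2 * N ↔ l ∣ N) := fun hl =>
    ⟨fun e => (hl.dvd_mul.1 e).elim (·.trans h2) id, fun e => e.mul_left 2⟩
  obtain ⟨c, c1, c2, c3⟩ := ex_eig (M := 2 * N) (by omega) t fun l => (l : 𝓞 K) ^ (2 * C + 1)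
  have hle : ∀ (ψ : K →+* ℂ) n, ‖ψ (c n)‖ ≤ ((n : ℝ) + 2) ^ (2 * C + 1) := fun ψ n => by
    refine (eig_le (M := 2 * N) (c := fun n => ψ (c n)) (d := fun l => (l : ℂ) ^ (2 * C + 1))
      (by simp [c1]) (fun n hn => by simp [c2 n hn]) (by simp [c2 0 (by simp)])
      (fun l h1 h3 => ⟨?_, ?_, fun n => ?_⟩) n).trans
      (pow_le_pow_left₀ (Nat.cast_nonneg n) (by linarith) _)
    · rw [(c3 l h1 h3).1]
      exact ht l h1 (mt (hN h1).2 h3) ψ
    · rw [norm_pow, Complex.norm_natCast]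
      exact pow_le_pow_right₀ (by exact_mod_cast h1.one_le) (by omega)
    · simpa [apply_ite] using congrArg (ψ.comp (algebraMap (𝓞 K) K)) ((c3 l h1 h3).2 n)
  obtain ⟨O, _, _, _, _, _, ι, μ, o1, o2, o3⟩ := ex_dvr ν hL
  have hodd : ∀ n : ℕ, Odd n → IsUnit (n : O) := by
    rintro _ ⟨k, rfl⟩
    have := (IsLocalRing.isUnit_or_isUnit_one_sub_self (2 * -(k : O))).resolve_left
      fun e => o1 (isUnit_of_mul_isUnit_left e)
    convert this using 1
    push_cast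
    ring
  obtain ⟨x, x1, x2⟩ := ex_ew (N := N) (C := C) hodd (c := fun n => ι (c n)) (by simp [c1])
    (fun n hn => by simp [c2 n hn]) fun l n => by
      simpa [apply_ite] using congrArg ι ((c3 l.1 l.2.1 l.2.2).2 n)
  have hx : (fun l : PA N => lam l.1) = fun l => μ (x l.1) := funext fun l =>
    mul_left_cancel₀ (pow_ne_zero C (Nat.cast_ne_zero (R := L).2 l.2.1.ne_zero)) (by
      rw [hl _ l.2.1 (mt (hN l.2.1).2 l.2.2), ← o2, ← (c3 _ l.2.1 l.2.2).1, ← x2, map_mul, map_pow,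
        map_natCast])
  obtain ⟨al, be, C₀, a1, a2, a3, a4⟩ := h
  haveI : NeZero (2 * N) := ⟨mul_ne_zero two_ne_zero N0⟩
  obtain ⟨D, P, p0, p1, p2⟩ := ex_rel o1 ι (Gamma1 (N * (2 * N) ^ 2)) (f := PowerSeries.mk c)
    (Nat.succ_ne_zero C) (A := 2 * C + 1)
    (fun n => (canonicalEmbedding.norm_le_iff _ _).2 fun ψ => by rw [coeff_mk]; exact hle ψ n)
    a1 a2 a3 (C := C₀) (fun n hn => by
      rw [coeff_mk]
      exact c2 n fun e => (Nat.not_odd_iff_even.2 hn)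
        (Nat.coprime_two_right.1 e.coprime_mul_right_right)) fun j => by
      obtain ⟨B, b1, b2⟩ := a4 j
      obtain ⟨G, g1, g2⟩ := fun_rel (E := FractionRing O) hodd (ucr_of_uca h2 x1 (B := B) (j := j)
        fun P hP => o3 _ _ (by rw [map_lift, ← hx]; exact b2 P hP))
      have g3 : ∀ r, PowerSeries.map (algebraMap O (FractionRing O)) (th^[r] G) ∈
          QE (FractionRing O) (Gamma1 (N * (2 * N) ^ 2)) (1 + B + r) := fun r => by
        induction r with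
        | zero => exact g1
        | succ r ih =>
          rw [Function.iterate_succ_apply', map_th]
          exact QE.th ih
      refine ⟨B, th^[C] G, b1, by convert g3 C using 2; omega, fun n => ?_⟩
      rw [coeff_mk, coeff_th_iter, ← x2, mul_left_comm, ← mul_sub]
      exact (g2 n).mul_left _
  let φ' := φ.comp (algebraMap (𝓞 K) K)
  have hS : ∀ {l : ℕ}, l.Prime → (l ∈ N.primeFactors ↔ l ∣ N) := fun hl => by simp [hl, N0]
  obtain ⟨m, s, M, _, f, r1, r2, r3, r4, r5⟩ := ex_form (S := N.primeFactors) (C := C) (D := D)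
    (c := fun n => φ' (c n)) ⟨(hS Nat.prime_two).2 h2, by simp [c1], fun p h3 h4 n h5 => by
        rw [c2 n fun e => h4.one_lt.ne' (Nat.eq_one_of_dvd_coprimes e h5
          (((hS h4).1 h3).mul_left 2)), map_zero], fun l n h3 h4 => by
        rw [show 2 * ((C + 1 : ℕ) : ℤ) - 1 = (2 * C + 1 : ℕ) by push_cast; ring, zpow_natCast]
        simpa [apply_ite] using congrArg φ'
          ((c3 l h3 (mt (fun e => (hS h3).2 ((hN h3).1 e)) h4)).2 n), _, hle φ⟩ p0 p1 (by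
      have := congrArg (PowerSeries.map φ') p2
      rw [map_aeval_int, map_zero] at this
      refine (congrArg (MvPolynomial.aeval · P) (funext fun i => ?_)).trans this
      fin_cases i
      · exact (Rm.map_Es _ _ _).symm
      · exact (Rm.map_Es _ _ _).symm
      · exact (Rm.map_Es _ _ _).symm
      · ext n
        simp)
  refine ⟨m, s, M, inferInstance, f, r1, r2, fun l h3 h4 => (hS h3).1 (r3 l h3 h4), r4,
    fun l h3 => ?_⟩
  rw [r5 l (mt (hS l.2.1).1 h3), (c3 _ l.2.1 (mt (hN l.2.1).1 h3)).1]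
  rfl

end Vale.Agent.P022K.UC.Hm
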