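import Vale.Agent.P022K.UC.Vol

/-!
# P022K, block UC: the Hecke ring is block diagonal on a second lattice (row HAT)
-/

set_option linter.all false

open scoped Pointwise

noncomputable section

namespace Vale.Agent.P022K.UC.Hat2

section lin

variable {O L : Type*} [CommRing O] [AddCommGroup L] [Module O L]

/-- the sum of the `c ^ s • F (j + s)` -/
def G (F : ℕ → Submodule O L) (c : O) (j : ℕ) : Submodule O L := ⨆ s, c ^ s • F (j + s)

variable {F : ℕ → Submodule O L} {c π : O}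

theorem mem_G {j : ℕ} (s : ℕ) {x : L} (h : x ∈ F (j + s)) : c ^ s • x ∈ G F c j :=
  Submodule.mem_iSup_of_mem s (Submodule.smul_mem_pointwise_smul _ _ _ h)

theorem G_le {j : ℕ} {A : Submodule O L} (h : ∀ s, ∀ x ∈ F (j + s), c ^ s • x ∈ A) :
    G F c j ≤ A := iSup_le fun s y hy => by
  obtain ⟨x, hx, rfl⟩ := (Submodule.mem_smul_pointwise_iff_exists _ _ _).1 hy
  exact h s x hx

theorem F_G {j : ℕ} {x : L} (h : x ∈ F j) : x ∈ G F c j := by simpa using mem_G (c := c) 0 h

theorem G_smul {j : ℕ} (s : ℕ) {x : L} (h : x ∈ G F c (j + s)) : c ^ s • x ∈ G F c j :=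
  G_le (A := (G F c j).comap (LinearMap.lsmul O L (c ^ s))) (fun t y hy => by
    show c ^ s • c ^ t • y ∈ G F c j
    rw [smul_smul, ← pow_add]
    exact mem_G _ (by rwa [← add_assoc])) h

theorem G_dec {j : ℕ} {x : L} (h : x ∈ G F c j) : ∃ f ∈ F j, ∃ g ∈ G F c (j + 1), x = f + c • g := by
  have := G_le (A := F j ⊔ c • G F c (j + 1)) (fun s y hy => by
    rcases s with _ | s
    · exact Submodule.mem_sup_left (by simpa using hy)
    · rw [pow_succ', mul_smul]
      exact Submodule.mem_sup_right (Submodule.smul_mem_pointwise_smul _ _ _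
        (mem_G s (by rwa [add_assoc, add_comm 1 s])))) h
  obtain ⟨f, hf, _, hg, rfl⟩ := Submodule.mem_sup.1 this
  obtain ⟨g, hg', rfl⟩ := (Submodule.mem_smul_pointwise_iff_exists _ _ _).1 hg
  exact ⟨f, hf, g, hg', rfl⟩

/-- the operators which are almost triangular -/
def Gd (F : ℕ → Submodule O L) (c : O) : Subalgebra O (Module.End O L) where
  carrier := {a | ∀ j, ∀ x ∈ F j, a x ∈ G F c j}
  mul_mem' {a b} ha hb j x hx :=
    G_le (A := (G F c j).comap a) (fun s y hy => by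
      show a (c ^ s • y) ∈ G F c j
      rw [map_smul]
      exact G_smul s (ha _ y hy)) (hb j x hx)
  add_mem' ha hb j x hx := add_mem (ha j x hx) (hb j x hx)
  algebraMap_mem' r j x hx := Submodule.smul_mem _ r (F_G hx)

theorem Gd.lim {n : ℕ} (hm : Monotone F) (ht : F n = ⊤) {a : Module.End O L}
    (h : ∃ a' ∈ Gd F c, ∀ x, ∃ y, a x - a' x = c ^ n • y) : a ∈ Gd F c := fun j x hx => by
  obtain ⟨a', h1, h2⟩ := h
  obtain ⟨y, hy⟩ := h2 x
  rw [sub_eq_iff_eq_add.1 hy]
  exact add_mem (mem_G n (hm (Nat.le_add_left n j) (ht ▸ trivial))) (h1 j x hx)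

theorem G_mid {j : ℕ} {x : L} (h : x ∈ G F (π ^ 2) j) : π ^ j • x ∈ G F π 0 :=
  G_le (A := (G F π 0).comap (LinearMap.lsmul O L (π ^ j))) (fun t y hy => by
    show π ^ j • (π ^ 2) ^ t • y ∈ G F π 0
    rw [smul_smul, show π ^ j * (π ^ 2) ^ t = π ^ t * π ^ (j + t) by ring, mul_smul]
    exact Submodule.smul_mem _ _ (mem_G _ (by rwa [zero_add]))) h

/-- the previous step of the filtration -/
def pv (F : ℕ → Submodule O L) : ℕ → Submodule O L
  | 0 => ⊥
  | j + 1 => F j

theorem pv_le (hm : Monotone F) (j : ℕ) : pv F j ≤ F j := by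
  rcases j with _ | j
  exacts [bot_le, hm j.le_succ]

theorem step (hm : Monotone F) (sat : ∀ j x, π • x ∈ F j → x ∈ F j) {a : Module.End O L}
    (h1 : a ∈ Gd F (π ^ 2)) (h2 : ∀ j, ∀ x ∈ F j, ∃ f ∈ pv F j, ∃ w, a x = f + π • w) {x : L}
    (hx : x ∈ G F π 0) : a x ∈ π • G F π 0 := by
  refine G_le (A := (π • G F π 0).comap a) (fun j x hx => ?_) hx
  rw [zero_add] at hx
  obtain ⟨f, hf, g, hg, e⟩ := G_dec (h1 j x hx)
  obtain ⟨f', hf', w, e'⟩ := h2 j x hx
  have hw : w - π • g ∈ F j := sat _ _ (by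
    rw [show π • (w - π • g) = f - f' by
      rw [smul_sub, smul_smul, ← sq, sub_eq_sub_iff_add_eq_add, ← e, e', add_comm]]
    exact sub_mem hf (pv_le hm j hf'))
  show a (π ^ j • x) ∈ π • G F π 0
  rw [map_smul, e', smul_add, smul_comm _ π]
  refine add_mem ?_ (Submodule.smul_mem_pointwise_smul _ _ _ ?_)
  · rcases j with _ | j
    · rw [(Submodule.mem_bot O).1 hf', smul_zero]; exact zero_mem _
    · rw [pow_succ', mul_smul]
      exact Submodule.smul_mem_pointwise_smul _ _ _ (mem_G j (by rwa [zero_add]))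
  · rw [← sub_add_cancel w (π • g), smul_add, smul_smul, ← pow_succ]
    exact add_mem (mem_G j (by rwa [zero_add])) (G_mid hg)

variable {B : Type*} [CommRing B] [Algebra O B] [Module B L] [IsScalarTower O B L]

theorem nil0 {m : Ideal B} (hm : m.FG) (Q : Submodule B L) (hn : m ≤ Q.annihilator.radical)
    {e : ℕ} (he : Order.height (Q.restrictScalars O) ≤ e) : m ^ e • Q = ⊥ := by
  obtain ⟨r, hr⟩ := Ideal.exists_pow_le_of_le_radical_of_fg hn hm
  have k : ∀ i : ℕ, m ^ i • Q = ⊥ ∨ Order.height ((m ^ i • Q).restrictScalars O) + i ≤ e := fun i => by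
    induction i with
    | zero => exact Or.inr (by simpa using he)
    | succ i ih =>
      have l : m ^ (i + 1) • Q ≤ m ^ i • Q :=
        Submodule.smul_mono_left (Ideal.pow_le_pow_right i.le_succ)
      rcases ih with ih | ih
      · exact Or.inl (le_bot_iff.1 (ih ▸ l))
      rcases l.lt_or_eq with l' | l'
      · have f : Order.height ((m ^ i • Q).restrictScalars O) < ⊤ :=
          (le_self_add.trans ih).trans_lt (ENat.coe_lt_top e)
        have l2 : (m ^ (i + 1) • Q).restrictScalars O < (m ^ i • Q).restrictScalars O := l'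
        have := Order.height_strictMono l2 ((Order.height_mono l2.le).trans_lt f)
        refine Or.inr (le_trans ?_ ih)
        rw [Nat.cast_succ, add_comm (i : ℕ∞), ← add_assoc]
        exact add_le_add_left (Order.add_one_le_of_lt this) _
      · have s : ∀ t, m ^ (i + t) • Q = m ^ i • Q := fun t => by
          induction t with
          | zero => rfl
          | succ t ih => rw [← add_assoc, pow_succ', mul_smul, ih, ← mul_smul, ← pow_succ', l']
        refine Or.inl (le_bot_iff.1 (l.trans ?_))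
        rw [← s r, ← Submodule.le_annihilator_iff.1 hr]
        exact Submodule.smul_mono_left (Ideal.pow_le_pow_right (Nat.le_add_left r i))
  refine (k e).elim id fun h => ?_
  have : Order.height ((m ^ e • Q).restrictScalars O) = 0 := by
    rw [add_comm] at h
    exact le_zero_iff.1 ((ENat.add_le_add_iff_left (ENat.coe_ne_top e)).1
      (h.trans_eq (add_zero _).symm))
  exact Submodule.restrictScalars_injective O _ _ (isMin_iff_eq_bot.1 (Order.height_eq_zero.1 this))

variable [IsDomain O] [IsDiscreteValuationRing O]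

theorem hgt (hπ : Irreducible π) {e : ℕ} (s : Fin e → L) (hs : ∀ i, π • s i = 0)
    {A : Submodule O L} (h : A ≤ Submodule.span O (Set.range s)) : Order.height A ≤ e := by
  let φ : (Fin e → O ⧸ Ideal.span {π ^ 1}) →ₗ[O] L := ∑ i, (Submodule.liftQ _
    (LinearMap.toSpanSingleton O L (s i)) (Ideal.span_le.2 (by simp [hs]))).comp (LinearMap.proj i)
  have l : A ≤ LinearMap.range φ := h.trans (Submodule.span_le.2 (by
    rintro _ ⟨i, rfl⟩
    refine ⟨Pi.single i (Submodule.Quotient.mk 1), ?_⟩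
    rw [LinearMap.sum_apply, Finset.sum_eq_single i (fun j _ hj => by simp [hj]) (by simp)]
    rw [LinearMap.comp_apply, LinearMap.proj_apply, Pi.single_eq_same, Submodule.liftQ_apply]
    simp))
  refine (Order.height_mono l).trans ?_
  rw [← Module.length_submodule]
  refine (Module.length_le_of_surjective _ φ.surjective_rangeRestrict).trans ?_
  simp [Module.length_pi_of_fintype, Vol.len_pow hπ 1, -pow_one]

/-- **two lattices** -/
theorem nil (hπ : Irreducible π) (hm : Monotone F) (sat : ∀ j x, π • x ∈ F j → x ∈ F j)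
    (tf : ∀ x : L, π • x = 0 → x = 0) {n e : ℕ} (ht : F n = ⊤)
    (hs : ∀ j, ∃ s : Fin e → L, F j ≤ pv F j ⊔ Submodule.span O (Set.range s))
    (hB : ∀ (b : B) j, ∀ x ∈ F j, b • x ∈ G F (π ^ 2) j) {S : Set B} (fg : S.Finite)
    (hn : ∀ b ∈ S, ∃ r : ℕ, ∀ x : L, ∃ y, b ^ r • x = π • y) (h : ℕ) :
    ∀ t ∈ Ideal.span S ^ (e * (h + n)), ∀ x : L, ∃ y, t • x = π ^ h • y := by
  set m := Ideal.span S
  let A : ∀ D : Submodule O L, (∀ (b : B), ∀ x ∈ D, ∃ f ∈ D, ∃ w, b • x = f + π • w) →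
      Submodule B L := fun D hD =>
    { carrier := {x | ∃ f ∈ D, ∃ w, x = f + π • w}
      add_mem' := by
        rintro _ _ ⟨f, hf, w, rfl⟩ ⟨f', hf', w', rfl⟩
        exact ⟨f + f', add_mem hf hf', w + w', by rw [smul_add]; abel⟩
      zero_mem' := ⟨0, zero_mem _, 0, by simp⟩
      smul_mem' := by
        rintro b _ ⟨f, hf, w, rfl⟩
        obtain ⟨f', hf', w', e⟩ := hD b f hf
        exact ⟨f', hf', w' + b • w, by rw [smul_add, e, smul_add, smul_comm b π, add_assoc]⟩ }
  have d1 : ∀ j (b : B), ∀ x ∈ F j, ∃ f ∈ F j, ∃ w, b • x = f + π • w := fun j b x hx => by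
    obtain ⟨f, hf, g, -, e⟩ := G_dec (hB b j x hx)
    exact ⟨f, hf, π • g, by rw [e, sq, mul_smul]⟩
  have d2 : ∀ j (b : B), ∀ x ∈ pv F j, ∃ f ∈ pv F j, ∃ w, b • x = f + π • w := fun j => by
    rcases j with _ | j
    · intro b x hx
      exact ⟨0, zero_mem _, 0, by rw [(Submodule.mem_bot O).1 hx]; simp⟩
    · exact d1 j
  have k1 : ∀ t ∈ m ^ e, ∀ j, ∀ x ∈ F j, ∃ f ∈ pv F j, ∃ w, t • x = f + π • w := by
    intro t ht j x hx
    obtain ⟨s, hs⟩ := hs j
    have z : ∀ y : L, π • (A _ (d2 j)).mkQ y = 0 := fun y =>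
      (Submodule.Quotient.mk_eq_zero _).2 ⟨0, zero_mem _, y, (zero_add _).symm⟩
    have := nil0 (O := O) (m := m) (Submodule.fg_span fg) ((A _ (d1 j)).map (A _ (d2 j)).mkQ)
      (Ideal.span_le.2 fun b hb => (hn b hb).imp fun r hr => Submodule.mem_annihilator.2 (by
        rintro _ ⟨y, -, rfl⟩
        obtain ⟨w, hw⟩ := hr y
        rw [← map_smul, hw]
        exact z w)) (e := e) (hgt hπ (fun i => (A _ (d2 j)).mkQ (s i)) (fun i => z _) (by
      rintro _ ⟨_, ⟨f, hf, w, rfl⟩, rfl⟩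
      obtain ⟨f', hf', g, hg, rfl⟩ := Submodule.mem_sup.1 (hs hf)
      have e1 : (A _ (d2 j)).mkQ (f' + g + π • w) = (A _ (d2 j)).mkQ g :=
        (Submodule.Quotient.eq _).2 ⟨f', hf', w, by abel⟩
      rw [e1]
      have := Submodule.mem_map_of_mem (f := (A _ (d2 j)).mkQ.restrictScalars O) hg
      rwa [Submodule.map_span, ← Set.range_comp] at this))
    have k : t • (A _ (d2 j)).mkQ x ∈ (⊥ : Submodule B _) :=
      this ▸ Submodule.smul_mem_smul ht ⟨x, ⟨x, hx, 0, by simp⟩, rfl⟩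
    exact (Submodule.Quotient.mk_eq_zero _).1 k
  have k2 : ∀ t ∈ m ^ e, ∀ x ∈ G F π 0, t • x ∈ π • G F π 0 := fun t ht x hx =>
    step hm sat (a := Algebra.lsmul O O L t) (hB t) (k1 t ht) hx
  have k3 : ∀ i, ∀ t ∈ m ^ (e * i), ∀ x ∈ G F π 0, t • x ∈ π ^ i • G F π 0 := fun i => by
    induction i with
    | zero =>
      intro t _ x hx
      rw [pow_zero, one_smul]
      refine G_le (A := (G F π 0).comap (Algebra.lsmul O O L t)) (fun j y hy => ?_) hx
      show t • π ^ j • y ∈ G F π 0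
      rw [smul_comm]
      exact G_mid (hB t j y (by rwa [zero_add] at hy))
    | succ i ih =>
      intro t ht x hx
      rw [mul_add, mul_one, pow_add] at ht
      refine Submodule.mul_induction_on ht (fun a ha b hb => ?_) fun a b ha hb => ?_
      · obtain ⟨y, hy, e⟩ := (Submodule.mem_smul_pointwise_iff_exists _ _ _).1 (k2 b hb x hx)
        rw [mul_smul, ← e, smul_comm, pow_succ', mul_smul]
        exact Submodule.smul_mem_pointwise_smul _ _ _ (ih a ha y hy)
      · rw [add_smul]; exact add_mem ha hb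
  intro t h' x
  obtain ⟨y, -, e⟩ := (Submodule.mem_smul_pointwise_iff_exists _ _ _).1
    (k3 _ t h' (π ^ n • x) (mem_G n (by rw [zero_add, ht]; trivial)))
  refine ⟨y, (sub_eq_zero.1 ?_).symm⟩
  have c : ∀ (i : ℕ) (z : L), π ^ i • z = 0 → z = 0 := fun i => by
    induction i with
    | zero => simp
    | succ i ih => intro z hz; rw [pow_succ, mul_smul] at hz; exact tf z (ih _ hz)
  refine c n _ ?_
  rw [smul_sub, smul_smul, ← pow_add, add_comm n, e, smul_comm t, sub_self]

end lin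

section formal

open PowerSeries

variable {O : Type*} [CommRing O]

/-- the operator `U` -/
def Uo (l : ℕ) : O⟦X⟧ →ₗ[O] O⟦X⟧ where
  toFun f := PowerSeries.mk fun n => coeff (l * n) f
  map_add' f g := by ext n; simp
  map_smul' c f := by ext n; simp

theorem coeff_Uo (l n : ℕ) (f : O⟦X⟧) : coeff n (Uo l f) = coeff (l * n) f :=
  coeff_mk n fun n => coeff (l * n) f

theorem Uo_mul {l : ℕ} (hl : l ≠ 0) (g h : O⟦X⟧) : Uo l (expand l hl h * g) = h * Uo l g := by
  ext n
  rw [coeff_Uo, coeff_mul, coeff_mul]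
  symm
  refine Finset.sum_of_injOn (fun x => (l * x.1, l * x.2)) (fun x _ y _ e => ?_) (fun x hx => ?_)
    (fun x hx hn => ?_) fun x _ => ?_
  · exact Prod.ext (Nat.eq_of_mul_eq_mul_left hl.bot_lt (congrArg Prod.fst e))
      (Nat.eq_of_mul_eq_mul_left hl.bot_lt (congrArg Prod.snd e))
  · rw [Finset.mem_coe, Finset.HasAntidiagonal.mem_antidiagonal] at hx ⊢
    rw [← hx, mul_add]
  · rw [coeff_expand_of_not_dvd, zero_mul]
    rintro ⟨a, ha⟩
    rw [Finset.HasAntidiagonal.mem_antidiagonal] at hx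
    obtain ⟨b, hb⟩ : l ∣ x.2 := (Nat.dvd_add_right ⟨a, ha⟩).1 ⟨n, hx⟩
    refine hn ⟨(a, b), ?_, Prod.ext ha.symm hb.symm⟩
    rw [Finset.mem_coe, Finset.HasAntidiagonal.mem_antidiagonal]
    exact Nat.eq_of_mul_eq_mul_left hl.bot_lt (by rw [mul_add, ← ha, ← hb, hx])
  · rw [coeff_expand_mul, coeff_Uo]

/-- the formal Hecke operator -/
def Tl (l : ℕ) (lam : O) (f : O⟦X⟧) : O⟦X⟧ :=
  PowerSeries.mk fun n => coeff (l * n) f + lam * if l ∣ n then coeff (n / l) f else 0

theorem Tl_eq {l : ℕ} (hl : l ≠ 0) (lam : O) (f : O⟦X⟧) :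
    Tl l lam f = Uo l f + lam • expand l hl f := by
  ext n
  rw [Tl, coeff_mk, map_add, coeff_Uo, map_smul, coeff_expand, smul_eq_mul]

/-- a graded family of lattices of series with a unit `u` which is close to one -/
structure Fm (π : O) (u v : O⟦X⟧) (N : ℕ → Submodule O O⟦X⟧) (e : ℕ) : Prop where
  sat : ∀ n x, π • x ∈ N n → x ∈ N n
  uv : u * v = 1
  mul : ∀ n, ∀ x ∈ N n, u * x ∈ N (n + 1)
  one : ∃ w, u = 1 + π ^ 2 • w
  fin : ∀ n, Module.Finite O (N n)
  rk0 : Module.finrank O (N 0) ≤ e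
  rk : ∀ n, Module.finrank O (N (n + 1)) ≤ Module.finrank O (N n) + e

/-- the Hecke operators -/
def Hk (π : O) (N : ℕ → Submodule O O⟦X⟧) (n : ℕ) : Set (Module.End O (N n)) :=
  {a | ∃ (l : ℕ) (lam mu : O), l ≠ 0 ∧ π ^ 2 ∣ mu - 1 ∧
    (∀ j, ∀ x ∈ N j, Tl l (lam * mu ^ j) x ∈ N j) ∧ ∀ x, (a x).1 = Tl l (lam * mu ^ n) x.1}

variable {π : O} {u v : O⟦X⟧} {N : ℕ → Submodule O O⟦X⟧} {e : ℕ}

/-- the filtration -/
def Fl (u v : O⟦X⟧) (N : ℕ → Submodule O O⟦X⟧) (n j : ℕ) : Submodule O (N n) :=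
  (N j).comap ((LinearMap.mulLeft O (u ^ j * v ^ n)).comp (N n).subtype)

theorem mem_Fl {n j : ℕ} {x : N n} : x ∈ Fl u v N n j ↔ u ^ j * v ^ n * x.1 ∈ N j := Iff.rfl

theorem Fm.pow (h : Fm π u v N e) (a : ℕ) {j : ℕ} {x : O⟦X⟧} (hx : x ∈ N j) :
    u ^ a * x ∈ N (j + a) := by
  induction a with
  | zero => simpa using hx
  | succ a ih => rw [pow_succ', mul_assoc]; exact h.mul _ _ ih

theorem Fm.satp (h : Fm π u v N e) (a : ℕ) {j : ℕ} {x : O⟦X⟧} (hx : π ^ a • x ∈ N j) :
    x ∈ N j := by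
  induction a with
  | zero => simpa using hx
  | succ a ih => rw [pow_succ', mul_smul] at hx; exact ih (h.sat _ _ hx)

theorem Fm.uvp (h : Fm π u v N e) (n : ℕ) : u ^ n * v ^ n = 1 := by rw [← mul_pow, h.uv, one_pow]

theorem Fm.mono (h : Fm π u v N e) (n : ℕ) : Monotone (Fl u v N n) :=
  monotone_nat_of_le_succ fun j x hx => by
    rw [mem_Fl, pow_succ', mul_assoc, mul_assoc, ← mul_assoc (u ^ j)]
    exact h.mul _ _ hx

theorem Fm.top (h : Fm π u v N e) (n : ℕ) : Fl u v N n n = ⊤ := eq_top_iff.2 fun x _ => by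
  rw [mem_Fl, h.uvp, one_mul]; exact x.2

theorem Fm.gd (h : Fm π u v N e) (n : ℕ) : Hk π N n ⊆ Gd (Fl u v N n) (π ^ 2) := by
  rintro a ⟨l, lam, mu, hl, ⟨c, hc⟩, hT, ha⟩ j x hx
  rcases le_or_gt n j with k | k
  · exact F_G (h.mono n k (h.top n ▸ trivial))
  obtain ⟨b, rfl⟩ := Nat.exists_eq_add_of_le k.le
  obtain ⟨w, hw⟩ := h.one
  let V := expand (R := O) l hl
  let H : ℕ → ℕ → O⟦X⟧ → O⟦X⟧ := fun s j y =>
    Uo l ((u - V u) ^ s * y) + (lam * mu ^ j) • ((mu • V u - u) ^ s * V y)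
  have H1 : ∀ s j y, y ∈ N j → H s j y ∈ N (j + s) := fun s => by
    induction s with
    | zero => intro j y hy; simpa [H, V, ← Tl_eq] using hT j y hy
    | succ s ih =>
      intro j y hy
      have e : H (s + 1) j y = H s (j + 1) (u * y) - u * H s j y := by
        simp only [H]
        rw [mul_add, ← Uo_mul hl, add_sub_add_comm, ← map_sub]
        simp only [map_mul, V, smul_eq_C_mul]
        congr 1
        · congr 1; ring
        · simp only [map_mul, map_pow]; ring
      rw [e]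
      exact sub_mem (by have := ih (j + 1) _ (h.mul j y hy); rwa [add_right_comm] at this)
        (h.mul _ _ (ih j y hy))
  have H2 : ∀ s j y, ∃ z, H s j y = (π ^ 2) ^ s • z := fun s j y => by
    have e1 : u - V u = π ^ 2 • (w - V w) := by
      rw [hw, map_add, map_one, map_smul, smul_sub]; ring
    have e2 : mu • V u - u = π ^ 2 • (c • V u + (V w - w)) := by
      rw [sub_eq_iff_eq_add.1 hc, add_smul, one_smul, mul_smul, add_sub_assoc, smul_add,
        ← neg_sub u, e1, ← smul_neg, neg_sub]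
    refine ⟨Uo l ((w - V w) ^ s * y) + (lam * mu ^ j) • ((c • V u + (V w - w)) ^ s * V y), ?_⟩
    simp only [H]
    rw [e1, e2, _root_.smul_pow, _root_.smul_pow, smul_mul_assoc, smul_mul_assoc, map_smul, smul_add,
      smul_comm]
  set y := u ^ j * v ^ (j + b) * x.1 with hy
  have ex : x.1 = u ^ b * y := by
    rw [hy, ← mul_assoc, ← mul_assoc, ← pow_add, add_comm b, h.uvp, one_mul]
  have e : (a x).1 = ∑ s ∈ Finset.range (b + 1), (b.choose s : O) • (u ^ (b - s) * H s j y) := by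
    rw [ha, Tl_eq hl, ex]
    simp only [H, mul_add, smul_add, Finset.sum_add_distrib]
    congr 1
    · conv_lhs => rw [← sub_add_cancel u (V u), add_pow, Finset.sum_mul, map_sum]
      refine Finset.sum_congr rfl fun s _ => ?_
      rw [← Uo_mul hl, ← map_smul, map_pow, smul_eq_C_mul, map_natCast]
      congr 1; ring
    · have : (mu • V u) ^ b = (mu • V u - u + u) ^ b := by rw [sub_add_cancel]
      rw [add_pow, _root_.smul_pow] at this
      rw [map_mul, map_pow, pow_add, ← mul_assoc, mul_smul, ← smul_mul_assoc, this, Finset.sum_mul,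
        Finset.smul_sum]
      refine Finset.sum_congr rfl fun s _ => ?_
      simp only [smul_eq_C_mul, map_natCast, V]
      ring
  have : (a x).1 ∈ (G (Fl u v N (j + b)) (π ^ 2) j).map (N (j + b)).subtype := by
    rw [e]
    refine Submodule.sum_mem _ fun s hs => Submodule.smul_mem _ _ ?_
    obtain ⟨z, hz⟩ := H2 s j y
    have z1 : z ∈ N (j + s) := h.satp (2 * s) (by rw [pow_mul, ← hz]; exact H1 s j y hx)
    obtain ⟨r, rfl⟩ := Nat.exists_eq_add_of_le (Nat.lt_succ_iff.1 (Finset.mem_range.1 hs))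
    rw [Nat.add_sub_cancel_left, hz, mul_smul_comm]
    refine ⟨(π ^ 2) ^ s • ⟨u ^ r * z, by rw [← add_assoc]; exact h.pow r z1⟩, mem_G s ?_, rfl⟩
    rw [mem_Fl]
    show u ^ (j + s) * v ^ (j + (s + r)) * (u ^ r * z) ∈ _
    rwa [show u ^ (j + s) * v ^ (j + (s + r)) * (u ^ r * z) =
      u ^ (j + (s + r)) * v ^ (j + (s + r)) * z by ring, h.uvp, one_mul]
  obtain ⟨y', h1, h2⟩ := this
  rwa [← show y' = a x from Subtype.ext h2]

variable [IsDomain O] [IsDiscreteValuationRing O]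

theorem ex_gen (hπ : Irreducible π) {L : Type*} [AddCommGroup L] [Module O L] [Module.Finite O L]
    {A A' : Submodule O L} (le : A ≤ A') (sat : ∀ x, π • x ∈ A → x ∈ A)
    (rk : Module.finrank O A' ≤ Module.finrank O A + e) :
    ∃ s : Fin e → L, A' ≤ A ⊔ Submodule.span O (Set.range s) := by
  haveI : Module.IsTorsionFree O (L ⧸ A) := by
    refine Module.isTorsionFree_iff_smul_eq_zero.2 fun r x hx => ?_
    by_cases r0 : r = 0
    · exact Or.inl r0
    obtain ⟨n, t, rfl⟩ := IsDiscreteValuationRing.eq_unit_mul_pow_irreducible r0 hπ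
    obtain ⟨x, rfl⟩ := A.mkQ_surjective x
    refine Or.inr ((Submodule.Quotient.mk_eq_zero _).2 ?_)
    have k : ∀ (n : ℕ) (x : L), π ^ n • x ∈ A → x ∈ A := fun n => by
      induction n with
      | zero => simp
      | succ n ih => intro x hx; rw [pow_succ, mul_smul] at hx; exact sat _ (ih _ hx)
    have : (t * π ^ n) • x ∈ A := (Submodule.Quotient.mk_eq_zero _).1 hx
    rw [mul_smul] at this
    exact k n x ((A.smul_mem_iff' t).1 this)
  let Q := A'.map A.mkQ
  let b := Module.finBasis O Q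
  have r : Module.finrank O Q ≤ e := by
    have h1 := (LinearMap.ker (A.mkQ.domRestrict A')).finrank_quotient_add_finrank
    rw [(A.mkQ.domRestrict A').quotKerEquivRange.finrank_eq, LinearMap.range_domRestrict,
      LinearMap.ker_domRestrict, Submodule.ker_mkQ,
      (Submodule.comapSubtypeEquivOfLe le).finrank_eq] at h1
    show Module.finrank O (A'.map A.mkQ) ≤ e
    omega
  choose t ht using fun i => A.mkQ_surjective (b i).1
  refine ⟨fun i => if h : i.1 < Module.finrank O Q then t ⟨i, h⟩ else 0, fun x hx => ?_⟩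
  have := congrArg Q.subtype (b.sum_repr ⟨_, Submodule.mem_map_of_mem hx⟩)
  simp only [map_sum, map_smul, Submodule.subtype_apply, ← ht] at this
  rw [← sub_add_cancel x (∑ i, b.repr ⟨_, Submodule.mem_map_of_mem hx⟩ i • t i)]
  refine add_mem (Submodule.mem_sup_left ((Submodule.Quotient.eq _).1 ?_))
    (Submodule.mem_sup_right (Submodule.sum_mem _ fun i _ => Submodule.smul_mem _ _
      (Submodule.subset_span ⟨⟨i, i.2.trans_le r⟩, dif_pos i.2⟩)))
  rw [← Submodule.mkQ_apply, ← Submodule.mkQ_apply, map_sum]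
  simp only [map_smul]
  exact this.symm

theorem Fm.rank (h : Fm π u v N e) {n j : ℕ} (k : j ≤ n) :
    Module.finrank O (Fl u v N n j) = Module.finrank O (N j) := by
  obtain ⟨b, rfl⟩ := Nat.exists_eq_add_of_le k
  refine (LinearEquiv.ofBijective (((LinearMap.mulLeft O (u ^ j * v ^ (j + b))).comp
    (N (j + b)).subtype).submoduleComap (N j)) ⟨fun x y e => ?_, fun y => ?_⟩).finrank_eq
  · have e1 : u ^ j * v ^ (j + b) * x.1.1 = u ^ j * v ^ (j + b) * y.1.1 := congrArg Subtype.val e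
    have e2 : u ^ b * (u ^ j * v ^ (j + b)) = 1 := by
      rw [← mul_assoc, ← pow_add, add_comm b, h.uvp]
    refine Subtype.ext (Subtype.ext ?_)
    rw [← one_mul x.1.1, ← e2, mul_assoc, e1, ← mul_assoc, e2, one_mul]
  · have e2 : u ^ j * v ^ (j + b) * (u ^ b * y.1) = y.1 := by
      rw [mul_right_comm, ← mul_assoc, ← pow_add, mul_right_comm, h.uvp, one_mul]
    exact ⟨⟨⟨u ^ b * y.1, h.pow b y.2⟩, mem_Fl.2 (e2.symm ▸ y.2)⟩, Subtype.ext e2⟩

theorem Fm.sat' (h : Fm π u v N e) (n j : ℕ) (x : N n) (hx : π • x ∈ Fl u v N n j) :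
    x ∈ Fl u v N n j := h.sat _ _ (by rw [← map_smul]; exact hx)

theorem tf (hπ : Irreducible π) {A : Submodule O O⟦X⟧} (x : A) (hx : π • x = 0) : x = 0 := by
  have := congrArg Subtype.val hx
  ext n
  simpa [hπ.ne_zero] using congrArg (coeff n) this

theorem Fm.jump (h : Fm π u v N e) (hπ : Irreducible π) (n j : ℕ) : ∃ s : Fin e → N n,
    Fl u v N n j ≤ pv (Fl u v N n) j ⊔ Submodule.span O (Set.range s) := by
  haveI := h.fin n
  rcases j with _ | j
  · refine ex_gen hπ bot_le (tf hπ) ?_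
    rw [h.rank n.zero_le]
    exact h.rk0.trans (Nat.le_add_left _ _)
  rcases le_or_gt n j with k | k
  · exact ⟨0, le_sup_of_le_left (le_top.trans ((h.top n).ge.trans (h.mono n k)))⟩
  refine ex_gen hπ (h.mono n j.le_succ) (h.sat' n j) ?_
  show _ ≤ Module.finrank O (Fl u v N n j) + e
  rw [h.rank k, h.rank k.le]
  exact h.rk j

/-- **HAT** -/
theorem hat (h : Fm π u v N e) (hπ : Irreducible π) (n : ℕ) {B : Type*} [CommRing B] [Algebra O B]
    (ρ : B →ₐ[O] Module.End O (N n)) {S : Set B} (fg : S.Finite)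
    (h1 : ∀ b, ∃ a ∈ Algebra.adjoin O (Hk π N n), ∀ x, ∃ y, ρ b x - a x = (π ^ 2) ^ n • y)
    (h2 : ∀ b ∈ S, ∃ r : ℕ, ∀ x, ∃ y, ρ (b ^ r) x = π • y) (k : ℕ) :
    ∀ t ∈ Ideal.span S ^ (e * (k + n)), ∀ x, ∃ y, ρ t x = π ^ k • y := by
  letI : Module B (N n) := Module.compHom (N n) (ρ : B →+* Module.End O (N n))
  haveI : IsScalarTower O B (N n) := ⟨fun o b x => by
    show ρ (o • b) x = o • ρ b x
    rw [map_smul]; rfl⟩
  exact nil hπ (h.mono n) (h.sat' n) (tf hπ) (h.top n) (h.jump hπ n)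
    (fun b => Gd.lim (h.mono n) (h.top n) ((h1 b).imp fun a ha =>
      ⟨Algebra.adjoin_le (h.gd n) ha.1, ha.2⟩)) fg h2 k

/-- **HAT** for polynomial rings -/
theorem hat_mm (h : Fm π u v N e) (hπ : Irreducible π) (n : ℕ) {σ : Type*} [Finite σ]
    (ρ : MvPolynomial σ O →ₐ[O] Module.End O (N n))
    (h1 : ∀ i, ∃ a ∈ Algebra.adjoin O (Hk π N n), ∀ x, ∃ y,
      ρ (MvPolynomial.X i) x - a x = (π ^ 2) ^ n • y)
    (h2 : ∀ i, ∃ r : ℕ, ∀ x, ∃ y, (ρ (MvPolynomial.X i) ^ r) x = π • y) (k : ℕ) :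
    ∀ t ∈ Vol.mm σ π ^ (e * (k + n)), ∀ x, ∃ y, ρ t x = π ^ k • y := by
  letI : Module (MvPolynomial σ O) (N n) :=
    Module.compHom (N n) (ρ : MvPolynomial σ O →+* Module.End O (N n))
  haveI : IsScalarTower O (MvPolynomial σ O) (N n) := ⟨fun o b x => by
    show ρ (o • b) x = o • ρ b x
    rw [map_smul]; rfl⟩
  have g : ∀ b, ρ b ∈ Gd (Fl u v N n) (π ^ 2) := fun b => by
    induction b using MvPolynomial.induction_on with
    | C a => exact (ρ.commutes a).symm ▸ Subalgebra.algebraMap_mem _ a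
    | add a b ha hb => rw [map_add]; exact add_mem ha hb
    | mul_X a i ha =>
      rw [map_mul]
      exact mul_mem ha (Gd.lim (h.mono n) (h.top n) ((h1 i).imp fun a ha =>
        ⟨Algebra.adjoin_le (h.gd n) ha.1, ha.2⟩))
  refine nil hπ (h.mono n) (h.sat' n) (tf hπ) (h.top n) (h.jump hπ n) g
    ((Set.finite_range _).insert _) ?_ k
  rintro _ (rfl | ⟨i, rfl⟩)
  · refine ⟨1, fun x => ⟨x, ?_⟩⟩
    show ρ (MvPolynomial.C π ^ 1) x = π • x
    rw [pow_one, show ρ (MvPolynomial.C π) = _ from ρ.commutes π]; rfl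
  · refine (h2 i).imp fun r hr x => (hr x).imp fun y hy => ?_
    show ρ (MvPolynomial.X i ^ r) x = π • y
    rw [map_pow, hy]

end formal

end Vale.Agent.P022K.UC.Hat2
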