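import Vale.Agent.P022K.UC.UcB
import Vale.Agent.P022K.UC.Hat2
import Vale.Agent.P022D.G.Defs

/-!
# P022K, block UC, row BRI: words which kill the forms kill the matrices of a stable family
-/

set_option autoImplicit false
set_option linter.all false

open PowerSeries UpperHalfPlane CongruenceSubgroup
open scoped MatrixGroups ModularForm

noncomputable section

namespace Vale.Agent.P022K.UC.Hm

open Vale.Agent.P022 Vale.Agent.P022.H218.L3 Vale.Agent.P022.H783
open Vale.Agent.P022.H567.Tw (cf cf_unique)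

/-- the formal Hecke operator of weight `2 m + 2` -/
def Tf (R : Type*) [CommRing R] (m l : ℕ) : Module.End R R⟦X⟧ where
  toFun x := Hat2.Tl l ((l : R) ^ (2 * m + 1)) x
  map_add' x y := by
    ext n
    simp only [Hat2.Tl, coeff_mk, map_add]
    split_ifs <;> ring
  map_smul' c x := by
    ext n
    simp only [Hat2.Tl, coeff_mk, map_smul, smul_eq_mul, RingHom.id_apply]
    split_ifs <;> ring

theorem Tf_apply {R : Type*} [CommRing R] (m l : ℕ) (x : R⟦X⟧) :
    Tf R m l x = Hat2.Tl l ((l : R) ^ (2 * m + 1)) x := rfl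

theorem coeff_Tf {R : Type*} [CommRing R] (m l n : ℕ) (x : R⟦X⟧) : coeff n (Tf R m l x) =
    coeff (l * n) x + if l ∣ n then (l : R) ^ (2 * m + 1) * coeff (n / l) x else 0 := by
  rw [Tf_apply, Hat2.Tl, coeff_mk, mul_ite, mul_zero]

theorem map_Tf {R S : Type*} [CommRing R] [CommRing S] (φ : R →+* S) (m l : ℕ) (x : R⟦X⟧) :
    PowerSeries.map φ (Tf R m l x) = Tf S m l (PowerSeries.map φ x) := by
  ext n
  simp [coeff_Tf, apply_ite φ]

/-- words in the normalised formal operators -/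
def wf (F : Type*) [Field F] (N m : ℕ) : FreeAlgebra ℤ (PA N) →ₐ[ℤ] Module.End F F⟦X⟧ :=
  FreeAlgebra.lift ℤ fun ℓ => ((ℓ.1 : F) ^ m)⁻¹ • Tf F m ℓ.1

theorem map_wf {F F' : Type*} [Field F] [Field F'] (φ : F →+* F') {N m : ℕ}
    (P : FreeAlgebra ℤ (PA N)) :
    ∀ x, PowerSeries.map φ (wf F N m P x) = wf F' N m P (PowerSeries.map φ x) := by
  induction P using FreeAlgebra.induction with
  | grade0 r => intro x; simp [Algebra.algebraMap_eq_smul_one]
  | grade1 ℓ => intro x; simp [wf, smul_eq_C_mul, map_Tf]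
  | mul a b ha hb => intro x; simp only [map_mul, Module.End.mul_apply, ha, hb]
  | add a b ha hb => intro x; simp only [map_add, LinearMap.add_apply, ha, hb]

variable {N : ℕ} [NeZero N]

/-- the expansion as a linear map -/
def qx (N k : ℕ) [NeZero N] : MF N k →ₗ[ℂ] ℂ⟦X⟧ where
  toFun f := PowerSeries.mk (cf f)
  map_add' f g := PowerSeries.ext fun n => by
    simpa only [cfL_apply, coeff_mk, map_add (coeff n)] using (cfL N k n).map_add f g
  map_smul' c f := PowerSeries.ext fun n => by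
    simpa only [cfL_apply, coeff_mk, map_smul (coeff n), RingHom.id_apply] using
      (cfL N k n).map_smul c f

theorem coeff_qx {k : ℕ} (n : ℕ) (f : MF N k) : coeff n (qx N k f) = cf f n := coeff_mk n (cf f)

theorem qx_inj {k : ℕ} : Function.Injective (qx N k) :=
  (injective_iff_map_eq_zero _).2 fun f h => DFunLike.coe_injective
    ((Sp.eq_zero_iff (sp_mk.2 (hasSum_form f))).1 h)

theorem qx_Tl {m : ℕ} (ℓ : PA N) {f : MF N (2 * m + 2)} (hf : Tv f) :
    qx N _ (Tl _ ℓ f) = Tf ℂ m ℓ.1 (qx N _ f) := by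
  ext n
  rw [coeff_qx, hf.cf_tl, coeff_Tf, coeff_qx, coeff_qx,
    show ((2 * m + 2 : ℕ) : ℤ) - 1 = (2 * m + 1 : ℕ) by push_cast; ring, zpow_natCast]

theorem qx_wd {m : ℕ} (P : FreeAlgebra ℤ (PA N)) :
    ∀ f, Tv f → qx N _ (wd N m P f) = wf ℂ N m P (qx N _ f) := by
  induction P using FreeAlgebra.induction with
  | grade0 r => intro f _; simp [Algebra.algebraMap_eq_smul_one]
  | grade1 ℓ => intro f hf; simp [wf, wd, qx_Tl ℓ hf]
  | mul a b ha hb =>
    intro f hf
    simp only [map_mul, Module.End.mul_apply, ha _ (hf.wd b), hb f hf]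
  | add a b ha hb => intro f hf; simp only [map_add, LinearMap.add_apply, ha f hf, hb f hf]

theorem gamma0_le {N₀ N : ℕ} (h : N₀ ∣ N) : Gamma0 N ≤ Gamma0 N₀ := fun γ hγ => by
  rw [Gamma0_mem, ZMod.intCast_zmod_eq_zero_iff_dvd] at hγ ⊢
  exact (Int.natCast_dvd_natCast.2 h).trans hγ

/-- expansions of forms for `Γ₀` are expansions of forms with trivial character -/
theorem ex_tv {N₀ m : ℕ} (h : N₀ ∣ N) {x : ℂ⟦X⟧} (hx : x ∈ SM (Gamma0 N₀) (m + 1)) :
    ∃ f : MF N (2 * m + 2), Tv f ∧ qx N _ f = x := by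
  obtain ⟨F, h1, h2⟩ := hx
  rw [show 2 * ((m + 1 : ℕ) : ℤ) = (2 * m + 2 : ℕ) by push_cast; ring] at h1
  replace h1 := h1.mono (gamma0_le h)
  exact ⟨Ab.toMF (h1.mono (Gamma1_in_Gamma0 N)), fun l => DFunLike.coe_injective
    ((slG0_coe _ _ _).trans (h1.slash _ (gd_mem l.coprime))),
    PowerSeries.ext fun n => (coeff_qx _ _).trans (cf_unique
      (Ab.toMF (h1.mono (Gamma1_in_Gamma0 N))) (fun n => coeff n x) h2 n)⟩

/-- independence of rational series does not depend on the field -/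
theorem li_tr (E F : Type*) [Field E] [CharZero E] [Field F] [CharZero F] {κ : Type*}
    {g : κ → ℚ⟦X⟧} (h : LinearIndependent E fun i => PowerSeries.map (algebraMap ℚ E) (g i)) :
    LinearIndependent F fun i => PowerSeries.map (algebraMap ℚ F) (g i) := by
  refine linearIndependent_iff'.2 fun s c hc i hi => ?_
  refine (Module.forall_dual_apply_eq_zero_iff ℚ _).1 fun l => ?_
  refine (algebraMap ℚ E).injective ((linearIndependent_iff'.1 h s
    (fun k => algebraMap ℚ E (l (c k))) (PowerSeries.ext fun n => ?_) i hi).trans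
    (map_zero _).symm)
  have h5 := congrArg (fun v => l (coeff n v)) hc
  simp only [map_sum, map_smul, coeff_map, smul_eq_mul, map_zero] at h5
  simp only [map_sum, map_smul, coeff_map, smul_eq_mul, map_zero, ← map_mul]
  rw [← map_sum, ← map_zero (algebraMap ℚ E), ← h5]
  refine congrArg _ (Finset.sum_congr rfl fun k _ => ?_)
  rw [mul_comm (c k), ← Algebra.smul_def, map_smul, smul_eq_mul, mul_comm]

/-- triangular families are independent -/
theorem li_tri {R κ : Type*} [CommRing R] [IsDomain R] {g : κ → R⟦X⟧} (ν : κ → ℕ)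
    (h0 : Function.Injective ν) (h1 : ∀ i, coeff (ν i) (g i) ≠ 0)
    (h2 : ∀ i, ∀ n < ν i, coeff n (g i) = 0) : LinearIndependent R g := by
  refine linearIndependent_iff'.2 fun s c hc => ?_
  suffices h : ∀ n, ∀ i ∈ s, ν i = n → c i = 0 from fun i hi => h _ i hi rfl
  intro n
  induction n using Nat.strong_induction_on with
  | _ n ih =>
    rintro i hi rfl
    have h3 := congrArg (coeff (ν i)) hc
    rw [map_sum, Finset.sum_eq_single_of_mem i hi fun j hj e => ?_] at h3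
    · simpa [h1 i] using h3
    · rcases lt_or_gt_of_ne (mt (@h0 j i) e) with h4 | h4
      · simp [ih _ h4 j hj rfl]
      · simp [h2 j _ h4]

theorem map_map_int {A B : Type*} [CommRing A] [CommRing B] (φ : A →+* B) (x : ℤ⟦X⟧) :
    PowerSeries.map φ (PowerSeries.map (Int.castRingHom A) x) =
      PowerSeries.map (Int.castRingHom B) x := by
  ext n
  simp

/-- `n l` is the matrix of `l ^ (-m) T_l` on the independent family `g` of level `N₀` -/
structure Fy (N₀ m : ℕ) {κ A : Type*} [Fintype κ] [CommRing A] (g : κ → ℤ⟦X⟧)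
    (n : ℕ → Matrix κ κ A) : Prop where
  mem : ∀ i, PowerSeries.map (Int.castRingHom ℂ) (g i) ∈ SM (Gamma0 N₀) (m + 1)
  ind : LinearIndependent ℂ fun i => PowerSeries.map (Int.castRingHom ℂ) (g i)
  act : ∀ l : ℕ, l.Prime → ¬ l ∣ 2 * N₀ → ∀ j k, (l : A) ^ m * ∑ i, n l i j *
    (coeff k (g i) : ℤ) = (coeff k (Hat2.Tl l ((l : ℤ) ^ (2 * m + 1)) (g j)) : ℤ)

section fam

variable {N₀ m : ℕ} {κ A : Type*} [Fintype κ] [DecidableEq κ] [CommRing A] [IsDomain A]
  [CharZero A] {g : κ → ℤ⟦X⟧} {n : ℕ → Matrix κ κ A}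

theorem Fy.wf (H : Fy N₀ m g n) (h : N₀ ∣ N) (Q : FreeAlgebra ℤ (PA N)) : ∀ j,
    wf (FractionRing A) N m Q (PowerSeries.map (Int.castRingHom _) (g j)) =
      ∑ i, algebraMap A (FractionRing A) (FreeAlgebra.lift ℤ (fun ℓ : PA N => n ℓ.1) Q i j) •
        PowerSeries.map (Int.castRingHom _) (g i) := by
  induction Q using FreeAlgebra.induction with
  | grade0 r =>
    intro j
    rw [AlgHom.commutes, AlgHom.commutes]
    simp only [Algebra.algebraMap_eq_smul_one r, map_zsmul, map_one, LinearMap.smul_apply,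
      Module.End.one_apply, Matrix.smul_apply, Matrix.one_apply, smul_ite, smul_zero,
      apply_ite (algebraMap A (FractionRing A)), map_zero, ite_smul, zero_smul, smul_assoc,
      one_smul, Finset.sum_ite_eq', Finset.mem_univ, if_true]
  | grade1 ℓ =>
    intro j
    ext k
    have h3 := congrArg (algebraMap A (FractionRing A))
      (H.act ℓ.1 ℓ.2.1 (fun e => ℓ.2.2 (e.trans (mul_dvd_mul_left 2 h))) j k)
    simp only [map_mul, map_pow, map_natCast, map_sum, map_intCast, ← Tf_apply] at h3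
    simp only [Hm.wf, FreeAlgebra.lift_ι_apply, LinearMap.smul_apply, ← map_Tf, map_smul,
      coeff_map, map_sum, smul_eq_mul, eq_intCast]
    rw [← h3, inv_mul_cancel_left₀ (pow_ne_zero _ (Nat.cast_ne_zero.2 ℓ.2.1.ne_zero))]
  | mul a b ha hb =>
    intro j
    simp only [map_mul, Module.End.mul_apply, hb, map_sum, map_smul, ha, Matrix.mul_apply,
      Finset.smul_sum, Finset.sum_smul, smul_smul]
    rw [Finset.sum_comm]
    simp only [mul_comm]
  | add a b ha hb =>
    intro j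
    simp only [map_add, LinearMap.add_apply, ha, hb, Matrix.add_apply, add_smul,
      Finset.sum_add_distrib]

/-- the words act on the rational expansion -/
theorem Fy.rat (H : Fy N₀ m g n) (h : N₀ ∣ N) (j : κ) : ∃ f : MF N (2 * m + 2), Tv f ∧
    (∀ k, cf f k = (coeff k (g j) : ℤ)) ∧ ∀ P k, ∃ r : ℚ, cf (wd N m P f) k = r ∧
      algebraMap A (FractionRing A) (∑ i, FreeAlgebra.lift ℤ (fun ℓ : PA N => n ℓ.1) P i j *
        (coeff k (g i) : ℤ)) = r := by
  obtain ⟨f, f1, f2⟩ := ex_tv h (H.mem j)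
  refine ⟨f, f1, fun k => by rw [← coeff_qx, f2, coeff_map, eq_intCast], fun P k =>
    ⟨coeff k (Hm.wf ℚ N m P (PowerSeries.map (Int.castRingHom ℚ) (g j))), ?_, ?_⟩⟩
  · rw [← coeff_qx, qx_wd P f f1, f2, ← map_map_int (algebraMap ℚ ℂ), ← map_wf, coeff_map,
      eq_ratCast]
  · have := congrArg (coeff k) (H.wf h P j)
    rw [← map_map_int (algebraMap ℚ _) (g j), ← map_wf, coeff_map, eq_ratCast] at this
    simp only [this, map_sum, map_mul, map_intCast, map_smul, coeff_map, eq_intCast, smul_eq_mul]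

/-- **BRI**: a word which kills the forms kills the matrices -/
theorem Fy.brg (H : Fy N₀ m g n) (h : N₀ ∣ N) {P : FreeAlgebra ℤ (PA N)}
    (hP : ∀ f, Tv f → wd N m P f = 0) : FreeAlgebra.lift ℤ (fun ℓ : PA N => n ℓ.1) P = 0 := by
  have h3 : LinearIndependent (FractionRing A) fun i =>
      PowerSeries.map (Int.castRingHom (FractionRing A)) (g i) := by
    simpa only [map_map_int] using li_tr ℂ (FractionRing A)
      (g := fun i => PowerSeries.map (Int.castRingHom ℚ) (g i))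
      (by simpa only [map_map_int] using H.ind)
  ext i j
  refine (map_eq_zero_iff _ (IsFractionRing.injective A (FractionRing A))).1
    (Fintype.linearIndependent_iff.1 h3 (fun i => algebraMap A (FractionRing A)
      (FreeAlgebra.lift ℤ (fun ℓ : PA N => n ℓ.1) P i j)) (PowerSeries.ext fun k => ?_) i)
  obtain ⟨f, f1, -, f2⟩ := H.rat h j
  obtain ⟨r, r1, r2⟩ := f2 P k
  rw [hP f f1, ← cfL_apply, map_zero, eq_comm, Rat.cast_eq_zero] at r1
  simpa only [r1, map_sum, map_mul, map_intCast, map_smul, coeff_map, eq_intCast, smul_eq_mul,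
    Rat.cast_zero, map_zero] using r2

/-- the words which read the coefficients -/
theorem ex_rd (N : ℕ) [NeZero N] {ν : ℕ} (hν : ν.Coprime (2 * N)) : ∃ τ : FreeAlgebra ℤ (PA N),
    ∀ m f, Tv f → (ν : ℂ) ^ m * cf (wd N m τ f) 1 = cf f ν := by
  have := NeZero.ne N
  obtain ⟨x, x1, x2, x3⟩ := ex_eig (R := ℤ) (M := 2 * N) (by omega) 0 Nat.cast
  obtain ⟨τ, h, -⟩ := ex_word (N := N) ⟨x1, x2, fun l => (x3 l.1 l.2.1 l.2.2).2⟩ ν
  refine ⟨τ, fun m f hf => ?_⟩
  rw [h m f hf, nc, if_pos hν, LinearMap.smul_apply, smul_eq_mul, cfL_apply, mul_inv_cancel_left₀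
    (pow_ne_zero _ (Nat.cast_ne_zero.2 (by
      rintro rfl
      have := Nat.coprime_zero_left _ |>.1 hν
      omega)))]

theorem Fy.rd (H : Fy N₀ m g n) (h : N₀ ∣ N) {P : FreeAlgebra ℤ (PA N)} {ν : ℕ}
    (hP : ∀ f, Tv f → (ν : ℂ) ^ m * cf (wd N m P f) 1 = cf f ν) (j : κ) :
    (ν : A) ^ m * ∑ i, FreeAlgebra.lift ℤ (fun ℓ : PA N => n ℓ.1) P i j * (coeff 1 (g i) : ℤ) =
      (coeff ν (g j) : ℤ) := by
  obtain ⟨f, f1, f2, f3⟩ := H.rat h j
  obtain ⟨r, r1, r2⟩ := f3 P 1
  have h1 := hP f f1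
  rw [r1, f2] at h1
  have h2 : (ν : ℚ) ^ m * r = (coeff ν (g j) : ℤ) := by exact_mod_cast h1
  refine IsFractionRing.injective A (FractionRing A) ?_
  rw [map_mul, r2, map_pow, map_natCast, map_intCast]
  exact_mod_cast congrArg (Rat.cast : ℚ → FractionRing A) h2

end fam

open Vale.Agent.P022D.G

/-- the words in `T_ℓ`, `ℓ S_ℓ` on forms with trivial character -/
def sb (N m : ℕ) : Wd N →ₐ[ℤ] FreeAlgebra ℤ (PA N) := FreeAlgebra.lift ℤ
  (Sum.elim (fun ℓ => (ℓ.1 : _) ^ m * FreeAlgebra.ι ℤ ℓ) fun ℓ => (ℓ.1 : _) ^ (2 * m + 1))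

theorem sg_sb {m : ℕ} (Q : Wd N) : ∀ f : MF N (2 * m + 2), Tv f →
    sg N (2 * m + 1) Q f = wd N m (sb N m Q) f := by
  induction Q using FreeAlgebra.induction with
  | grade0 r => intro f _; simp [Algebra.algebraMap_eq_smul_one]
  | grade1 ℓ =>
    intro f hf
    have e : ∀ (a r : ℕ) (x : MF N (2 * m + 2)),
        ((a : Module.End ℂ (MF N (2 * m + 2))) ^ r) x = (a : ℂ) ^ r • x := fun a r x => by
      rw [← Nat.cast_pow, Module.End.natCast_apply, ← Nat.cast_pow, Nat.cast_smul_eq_nsmul]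
    rcases ℓ with ℓ | ℓ
    · simp [sg, sb, wd, gHk, e, smul_smul, ℓ.2.1.ne_zero]
    · simp [sg, sb, wd, gHk, e, hf ℓ]
  | mul a b ha hb =>
    intro f hf
    simp only [map_mul, Module.End.mul_apply, hb f hf, ha _ (hf.wd _)]
  | add a b ha hb => intro f hf; simp only [map_add, LinearMap.add_apply, ha f hf, hb f hf]

/-- **the Hecke ring of a family** -/
theorem Fy.ring {N₀ m : ℕ} [NeZero N₀] {κ O : Type} [Fintype κ] [DecidableEq κ] [CommRing O]
    [IsDomain O] [CharZero O] [IsNoetherianRing O] {g : κ → ℤ⟦X⟧} {n : ℕ → Matrix κ κ O}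
    (H : Fy N₀ m g n) : ∃ (A : Type) (_ : CommRing A) (_ : Algebra O A) (_ : Module.Finite O A)
      (ρ : A →ₐ[O] Matrix κ κ O) (β : Wd N₀ →+* A) (b : ℕ → A), Function.Injective ρ ∧
      (∀ l : ℕ, l.Prime → ¬ l ∣ 2 * N₀ → ρ (b l) = n l) ∧
      (∀ Q, sg N₀ (2 * m + 1) Q = 0 → β Q = 0) ∧ (∀ ℓ, β (wT ℓ) = (ℓ.1 : A) ^ m * b ℓ.1) ∧
      (∀ ℓ, β (wS ℓ) = (ℓ.1 : A) ^ (2 * m + 1)) ∧
      ∀ (N : ℕ), N₀ ∣ N → ∀ P : FreeAlgebra ℤ (PA N),
        ρ (FreeAlgebra.lift ℤ (fun ℓ : PA N => b ℓ.1) P) =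
          FreeAlgebra.lift ℤ (fun ℓ : PA N => n ℓ.1) P := by
  classical
  let S := Algebra.adjoin O (Set.range fun ℓ : PA N₀ => n ℓ.1)
  haveI : IsMulCommutative S := Algebra.isMulCommutative_adjoin O (by
    rintro _ ⟨a, rfl⟩ _ ⟨b, rfl⟩
    simpa [sub_eq_zero] using H.brg dvd_rfl (P := FreeAlgebra.ι ℤ a * FreeAlgebra.ι ℤ b -
      FreeAlgebra.ι ℤ b * FreeAlgebra.ι ℤ a) fun f _ => by
        simp [wd, smul_smul, mul_comm, Tl_Tl _ a b])
  let b : ℕ → S := fun l => if h : l.Prime ∧ ¬ l ∣ 2 * N₀ then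
    ⟨n l, Algebra.subset_adjoin ⟨⟨l, h⟩, rfl⟩⟩ else 0
  have hb : ∀ l : ℕ, l.Prime → ¬ l ∣ 2 * N₀ → S.val (b l) = n l := fun l h1 h2 => by
    simp [b, h1, h2]
  have hP : ∀ (N : ℕ), N₀ ∣ N → ∀ P : FreeAlgebra ℤ (PA N),
      S.val (FreeAlgebra.lift ℤ (fun ℓ : PA N => b ℓ.1) P) =
        FreeAlgebra.lift ℤ (fun ℓ : PA N => n ℓ.1) P := fun N h P => by
    induction P using FreeAlgebra.induction with
    | grade0 r => simp
    | grade1 ℓ =>
      rw [FreeAlgebra.lift_ι_apply, FreeAlgebra.lift_ι_apply,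
        hb _ ℓ.2.1 fun e => ℓ.2.2 (e.trans (mul_dvd_mul_left 2 h))]
    | mul a b ha hb => simp only [map_mul, ha, hb]
    | add a b ha hb => simp only [map_add, ha, hb]
  refine ⟨S, { (inferInstance : Ring S) with mul_comm := mul_comm' }, inferInstanceAs (Algebra O S),
    Module.Finite.of_injective S.val.toLinearMap Subtype.val_injective, S.val,
    ((FreeAlgebra.lift ℤ fun ℓ : PA N₀ => b ℓ.1).comp (sb N₀ m)).toRingHom, b,
    Subtype.val_injective, hb, fun Q hQ => Subtype.val_injective ((hP N₀ dvd_rfl _).trans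
      (H.brg dvd_rfl fun f hf => (sg_sb Q f hf).symm.trans (LinearMap.congr_fun hQ f))),
    fun ℓ => ?_, fun ℓ => ?_, hP⟩
  · simp [sb, wT]
  · simp [sb, wS]

end Vale.Agent.P022K.UC.Hm
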