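import Vale.Agent.P022D.G.Sub
import Vale.Agent.P022K.EN.Cmp
import Vale.Agent.P022.H853.L3.Cyc

/-!
# P022K, block UC, row GALF: the normalised pseudo-character over a complete Hecke ring
-/

set_option autoImplicit false
set_option linter.all false

open NumberField

noncomputable section

namespace Vale.Agent.P022K.UC.Gf

open Vale.Agent.P022 Vale.Agent.P022.H346 Vale.Agent.P022.H443 Vale.Agent.P022.H853
open Vale.Agent.P022D.G Vale.Agent.P022K.EN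

/-! ### the cyclotomic character -/

/-- the `2`-adic cyclotomic character -/
def ez : GQ →* ℤ_[2]ˣ := (cyclotomicCharacter Qb 2).comp (MulSemiringAction.toRingAut GQ Qb)

theorem ez_mod (n : ℕ) (g : GQ) :
    PadicInt.toZModPow n (ez g : ℤ_[2]) = (cyc (2 ^ n) g : ZMod (2 ^ n)) := by
  haveI : ∀ i, HasEnoughRootsOfUnity Qb (2 ^ i) := fun i => by
    have : NeZero ((2 ^ i : ℕ) : Qb) := ⟨by exact_mod_cast (NeZero.ne (2 ^ i))⟩
    infer_instance
  have hz := zt_prim (2 ^ n)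
  have h1 := cyclotomicCharacter.spec 2 (n := n) (MulSemiringAction.toRingAut GQ Qb g) _
    hz.pow_eq_one
  exact ZMod.val_injective _ (hz.pow_inj (ZMod.val_lt _) (ZMod.val_lt _)
    (h1.symm.trans (cyc_spec g hz.pow_eq_one)))

theorem ez_pow {l q : ℕ} (hl : l.Prime) (h2 : l ≠ 2) {P : Ideal (𝓞 Qb)} (hP : P.IsPrime)
    (hm : (l : 𝓞 Qb) ∈ P) {g : GQ} (hg : ∀ x : 𝓞 Qb, g • x - x ^ q ∈ P) :
    (ez g : ℤ_[2]) = q := PadicInt.ext_of_toZModPow.1 fun n => by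
  have h3 : ((2 ^ n : ℕ) : 𝓞 Qb) ∉ P := fun e => by
    have : l ∣ 2 ^ n := by
      exact_mod_cast H20.dvd_of_mem hl hP hm (d := ((2 ^ n : ℕ) : ℤ)) (by exact_mod_cast e)
    exact h2 ((Nat.prime_dvd_prime_iff_eq hl Nat.prime_two).1 (hl.dvd_of_dvd_pow this))
  rw [ez_mod, map_natCast]
  exact (ZMod.natCast_zmod_val _).symm.trans
    ((ZMod.natCast_eq_natCast_iff _ _ _).2 (cyc_of_pow dvd_rfl hP h3 hg))

theorem ez_conj {c : GQ} (hc : IsConj c) : (ez c : ℤ_[2]) = -1 :=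
  PadicInt.ext_of_toZModPow.1 fun n => by rw [ez_mod, map_neg, map_one, cyc_conj hc]

theorem ez_dvd (n : ℕ) {g : GQ} (h : g ∈ (cyc (2 ^ n)).ker) :
    (2 : ℤ_[2]) ^ n ∣ (ez g : ℤ_[2]) - 1 := by
  rw [← Ideal.mem_span_singleton]
  have := PadicInt.ker_toZModPow (p := 2) n
  rw [Nat.cast_ofNat] at this
  rw [← this, RingHom.mem_ker, map_sub, map_one, ez_mod, MonoidHom.mem_ker.1 h, Units.val_one,
    sub_self]

theorem ez_two (g : GQ) : (2 : ℤ_[2]) ^ 1 ∣ (ez g : ℤ_[2]) - 1 := by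
  refine ez_dvd 1 (MonoidHom.mem_ker.2 ?_)
  generalize cyc (2 ^ 1) g = u
  revert u
  decide

/-! ### complete rings -/

/-- the ideals `2 ^ i A` -/
abbrev I2 (A : Type*) [CommRing A] (i : ℕ) : Ideal A := Ideal.span {2 ^ i}

/-- `2`-adically separated and complete -/
structure Cpl (A : Type*) [CommRing A] : Prop where
  sep : ∀ a : A, (∀ i, a ∈ I2 A i) → a = 0
  lim : ∀ x : ℕ → A, (∀ s, x (s + 1) - x s ∈ I2 A s) → ∃ y, ∀ s, y - x s ∈ I2 A s

theorem I2_mono {A : Type*} [CommRing A] {i j : ℕ} (h : i ≤ j) : I2 A j ≤ I2 A i :=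
  Ideal.span_singleton_le_span_singleton.2 (pow_dvd_pow 2 h)

theorem lim_two (y : ℕ → ℤ_[2]) : ∃ z : ℤ_[2], ∀ s,
    2 ^ s ∣ z - ∑ i ∈ Finset.range s, 2 ^ i * y i := by
  have e : ∀ n, IsLocalRing.maximalIdeal ℤ_[2] ^ n • (⊤ : Submodule ℤ_[2] ℤ_[2]) =
      Ideal.span {2 ^ n} := fun n => by
    rw [PadicInt.maximalIdeal_eq_span_p, Ideal.span_singleton_pow, smul_eq_mul, Ideal.mul_top,
      Nat.cast_ofNat]
  obtain ⟨z, hz⟩ := IsPrecomplete.prec (I := IsLocalRing.maximalIdeal ℤ_[2]) inferInstance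
    (f := fun s => ∑ i ∈ Finset.range s, 2 ^ i * y i) (fun {m n} h => by
      rw [SModEq.sub_mem, e, Ideal.mem_span_singleton, ← dvd_neg, neg_sub,
        ← Finset.sum_Ico_eq_sub _ h]
      exact Finset.dvd_sum fun i hi => (pow_dvd_pow 2 (Finset.mem_Ico.1 hi).1).mul_right _)
  refine ⟨z, fun s => ?_⟩
  have := hz s
  rwa [SModEq.sub_mem, e, Ideal.mem_span_singleton, ← dvd_neg, neg_sub] at this

/-- finite `ℤ₂`-algebras are complete -/
theorem cpl_fin (A : Type*) [CommRing A] [Algebra ℤ_[2] A] [Module.Finite ℤ_[2] A] : Cpl A where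
  sep a h := by
    refine IsHausdorff.haus (I := IsLocalRing.maximalIdeal ℤ_[2]) inferInstance a fun n => ?_
    obtain ⟨b, rfl⟩ := Ideal.mem_span_singleton.1 (h n)
    rw [SModEq.zero, PadicInt.maximalIdeal_eq_span_p, Ideal.span_singleton_pow, Nat.cast_ofNat,
      show (2 : A) ^ n * b = (2 : ℤ_[2]) ^ n • b by rw [Algebra.smul_def, map_pow, map_ofNat]]
    exact Submodule.smul_mem_smul (Ideal.mem_span_singleton_self _) trivial
  lim x h := by
    obtain ⟨n, f, hf⟩ := Module.Finite.exists_fin' ℤ_[2] A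
    have h1 : ∀ s, ∃ v, x (s + 1) - x s = 2 ^ s * f v := fun s => by
      obtain ⟨b, hb⟩ := Ideal.mem_span_singleton.1 (h s)
      obtain ⟨v, rfl⟩ := hf b
      exact ⟨v, hb⟩
    choose v hv using h1
    choose z hz using fun j => lim_two fun i => v i j
    have sm : ∀ (s : ℕ) w, f ((2 : ℤ_[2]) ^ s • w) = 2 ^ s * f w := fun s w => by
      rw [map_smul, Algebra.smul_def, map_pow, map_ofNat]
    refine ⟨x 0 + f z, fun s => Ideal.mem_span_singleton.2 ?_⟩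
    choose w hw using fun j => hz j s
    have e1 : x s = x 0 + f (∑ i ∈ Finset.range s, (2 : ℤ_[2]) ^ i • v i) := by
      rw [map_sum, Finset.sum_congr rfl fun i _ => (sm i (v i)).trans (hv i).symm,
        Finset.sum_range_sub]
      ring
    refine ⟨f w, ?_⟩
    rw [e1, add_sub_add_left_eq_sub, ← map_sub, ← sm]
    congr 1
    funext j
    simpa using hw j

/-! ### twists -/

theorem tf_twist {G A : Type*} [Group G] [CommRing A] {t : G → A} {d d' : G →* Aˣ} (T : TF t d)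
    (χ : G →* Aˣ) (h : ∀ g, d' g = χ g * χ g * d g) : TF (fun g => χ g * t g) d' where
  one := by rw [map_one, T.one, Units.val_one, one_mul]
  comm g k := by rw [T.comm, map_mul, map_mul, mul_comm (χ g)]
  mul g k := by
    have e := T.mul g k
    have e' : (χ k⁻¹ : A) * χ k = 1 := by rw [← Units.val_mul, ← map_mul, inv_mul_cancel, map_one,
      Units.val_one]
    simp only [h, map_mul, Units.val_mul]
    linear_combination (χ g * χ k : A) * e - (χ g * χ k * d k * t (g * k⁻¹) : A) * e'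

variable (A : Type) [CommRing A] [Algebra ℤ_[2] A]

/-- the cyclotomic character with values in `A` -/
def eA : GQ →* Aˣ := (Units.map (algebraMap ℤ_[2] A).toMonoidHom).comp ez

variable {A}

theorem eA_coe (g : GQ) : (eA A g : A) = algebraMap ℤ_[2] A (ez g) := rfl

theorem eA_pow {l q : ℕ} (hl : l.Prime) (h2 : l ≠ 2) {P : Ideal (𝓞 Qb)} (hP : P.IsPrime)
    (hm : (l : 𝓞 Qb) ∈ P) {g : GQ} (hg : ∀ x : 𝓞 Qb, g • x - x ^ q ∈ P) : (eA A g : A) = q := by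
  rw [eA_coe, ez_pow hl h2 hP hm hg, map_natCast]

theorem eA_frob {l : ℕ} (hl : l.Prime) (h2 : l ≠ 2) {φ : GQ} (h : IsFrob l φ) :
    (eA A φ : A) = l :=
  let ⟨_, h3, h4, h5⟩ := h
  eA_pow hl h2 h3 h4 h5

theorem eA_inert {l : ℕ} (hl : l.Prime) (h2 : l ≠ 2) {s : GQ} (h : Inert l s) : eA A s = 1 :=
  let ⟨_, h3, h4, h5⟩ := h
  Units.ext (by
    rw [eA_pow (q := 1) hl h2 h3 h4 fun x => by rw [pow_one]; exact h5 x, Nat.cast_one,
      Units.val_one])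

theorem eA_conj {c : GQ} (hc : IsConj c) : (eA A c : A) = -1 := by
  rw [eA_coe, ez_conj hc, map_neg, map_one]

theorem mem_of_dvd {n : ℕ} {g : GQ} (h : (2 : ℤ_[2]) ^ n ∣ (ez g : ℤ_[2]) - 1) :
    (eA A g : A) - 1 ∈ I2 A n := by
  have := map_dvd (algebraMap ℤ_[2] A) h
  rw [map_pow, map_ofNat, map_sub, map_one] at this
  exact Ideal.mem_span_singleton.2 this

theorem mk_eA {n : ℕ} {g : GQ} (h : g ∈ (cyc (2 ^ n)).ker) :
    Ideal.Quotient.mk (I2 A n) (eA A g) = 1 :=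
  Ideal.Quotient.eq.2 (mem_of_dvd (ez_dvd n h))

theorem PA_ne {N : ℕ} (l : PA N) : l.1 ≠ 2 := fun e => l.2.2 ((dvd_of_eq e).mul_right N)

theorem pow_mem_I2 {a : A} {n : ℕ} (h : a ^ n ∈ I2 A 1) (i : ℕ) : a ^ (n * i) ∈ I2 A i := by
  rw [Ideal.mem_span_singleton, pow_one] at h
  rw [Ideal.mem_span_singleton, pow_mul]
  exact pow_dvd_pow_of_dvd h i

/-- the words modulo `2 ^ s` -/
abbrev bq {N : ℕ} (β : Wd N →+* A) (s : ℕ) : Wd N →+* A ⧸ I2 A s :=
  (Ideal.Quotient.mk (I2 A s)).comp β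

/-- `t` is the normalised pseudo-character of the system `β` of weight `2 m + 2` -/
structure Out (N m : ℕ) (β : Wd N →+* A) (t : GQ → A) : Prop where
  ps : Ps (I2 A) t (eA A)
  fr : ∀ (l : PA N) φ, IsFrob l.1 φ → (l.1 : A) ^ m * t φ = β (wT l)
  un : ∀ (l : PA N) s, Inert l.1 s → ∀ g, t (g * s) = t g
  ag : ∀ s ts ds, PS0 N (bq β s) ts ds → ∀ g,
    ts g = Ideal.Quotient.mk _ ((eA A g : A) ^ m * t g) ∧
      (ds g : A ⧸ I2 A s) = Ideal.Quotient.mk _ ((eA A g : A) ^ (2 * m + 1))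

variable {N m : ℕ} {β : Wd N →+* A}

theorem det_eq (F : FROB) (hN : N ≠ 0) {k : ℕ} (hS : ∀ l, β (wS l) = (l.1 : A) ^ k) {s : ℕ}
    {ts : GQ → A ⧸ I2 A s} {ds : GQ →* (A ⧸ I2 A s)ˣ} (h : PS0 N (bq β s) ts ds) (g : GQ) :
    (ds g : A ⧸ I2 A s) = Ideal.Quotient.mk _ ((eA A g : A) ^ k) := by
  obtain ⟨U, a, b, -, e⟩ := h.opn
  obtain ⟨l, φ, j, -, h2, h3⟩ := SubA.frob F hN (U ⊓ (cyc (2 ^ s)).ker) inferInstance
    (b.inter (isOpen_cyc _)) g ∅
  have h4 := mk_eA (A := A) h3.2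
  have h5 : (eA A (φ ^ j) : A) = eA A g * eA A (g⁻¹ * φ ^ j) := by
    rw [← Units.val_mul, ← map_mul, mul_inv_cancel_left]
  have h6 := congrArg (Ideal.Quotient.mk (I2 A s)) h5
  rw [map_mul, h4, mul_one] at h6
  rw [(SubA.val e h3.1).2, map_pow, Units.val_pow_eq_pow_val, h.frS l φ h2, RingHom.comp_apply, hS,
    map_pow (Ideal.Quotient.mk _) (eA A g : A), ← h6, map_pow (eA A), Units.val_pow_eq_pow_val,
    eA_frob l.2.1 (PA_ne l) h2, ← map_pow, ← map_pow, ← pow_mul, ← pow_mul, mul_comm k j]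

theorem nil_tr (F : FROB) (hN : N ≠ 0) {B : Type} [CommRing B] (h2 : (2 : B) = 0)
    {γ : Wd N →+* B} (hT : ∀ l, IsNilpotent (γ (wT l))) {t : GQ → B} {d : GQ →* Bˣ}
    (h : PS0 N γ t d) (g : GQ) : IsNilpotent (t g) := by
  obtain ⟨U, a, b, -, e⟩ := h.opn
  obtain ⟨l, φ, j, -, h3, h4⟩ := SubA.frob F hN U a b g ∅
  have ht : t φ ∈ nilradical B := h.frT l φ h3 ▸ hT l
  have key : ∀ k, t (φ ^ k) ∈ nilradical B ∧ t (φ ^ (k + 1)) ∈ nilradical B := fun k => by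
    induction k with
    | zero =>
      rw [pow_zero, zero_add, pow_one, h.tf.one, h2]
      exact ⟨zero_mem _, ht⟩
    | succ k ih =>
      refine ⟨ih.2, ?_⟩
      rw [SubA.step h.tf]
      exact sub_mem (Ideal.mul_mem_left _ _ ih.2) (Ideal.mul_mem_left _ _ ih.1)
  rw [(SubA.val e h4).1]
  exact (key j).1

/-- **GALF**, abstract form -/
theorem exists_out (F : FROB) (hN : N ≠ 0) (h3 : ∀ l : ℕ, l.Prime → l ∣ N → l = 2 ∨ l = 3)
    (C : Cpl A) (hS : ∀ l, β (wS l) = (l.1 : A) ^ (2 * m + 1))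
    (hT : ∀ l, ∃ n, β (wT l) ^ n ∈ I2 A 1) (H : ∀ s, ∃ t d, PS0 N (bq β s) t d) :
    ∃ t, Out N m β t := by
  choose ts ds hs using H
  have hu : ∀ s t' d', PS0 N (bq β s) t' d' → t' = ts s := fun s t' d' h =>
    (uniq F N _ _ _ _ _ _ _ hN h (hs s) ∅ fun _ _ => ⟨rfl, rfl⟩).1
  choose x hx using fun s g => Ideal.Quotient.mk_surjective (ts s g)
  have hc : ∀ g s, x (s + 1) g - x s g ∈ I2 A s := fun g s => by
    have h1 := (uniq F N _ _ _ _ _ _ _ hN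
      ((hs (s + 1)).map (Ideal.Quotient.factor (I2_mono (Nat.le_succ s)))) (hs s) ∅
      fun _ _ => ⟨rfl, rfl⟩).1
    have h2 := congrFun h1 g
    rw [← hx, ← hx] at h2
    exact Ideal.Quotient.eq.1 h2
  choose y hy using fun g => C.lim (fun s => x s g) (hc g)
  have hy' : ∀ s g, Ideal.Quotient.mk (I2 A s) (y g) = ts s g := fun s g =>
    (Ideal.Quotient.eq.2 (hy g s)).trans (hx s g)
  have ext : ∀ a b : A, (∀ s, Ideal.Quotient.mk (I2 A s) a = Ideal.Quotient.mk (I2 A s) b) →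
      a = b := fun a b h => sub_eq_zero.1 (C.sep _ fun s => Ideal.Quotient.eq.1 (h s))
  have hd := fun s g => det_eq F hN hS (hs s) g
  have T0 : TF y (eA A ^ (2 * m + 1)) :=
    ⟨ext _ _ fun s => by rw [hy', (hs s).tf.one, map_ofNat],
      fun g k => ext _ _ fun s => by rw [hy', hy', (hs s).tf.comm],
      fun g k => ext _ _ fun s => by
        rw [map_mul, map_add, map_mul, hy', hy', hy', hy', (hs s).tf.mul, hd]
        rfl⟩
  let χ : GQ →* Aˣ := (eA A ^ m)⁻¹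
  have hχ : ∀ g, (eA A g : A) ^ m * (χ g * y g) = y g := fun g => by
    rw [← mul_assoc, ← Units.val_pow_eq_pow_val, ← Units.val_mul]
    simp [χ]
  have T1 : TF (fun g => χ g * y g) (eA A) := tf_twist T0 χ fun g => by
    simp only [χ, MonoidHom.inv_apply, MonoidHom.pow_apply]
    rw [show 2 * m + 1 = m + m + 1 by ring, pow_succ, pow_add]
    generalize eA A g ^ m = u
    rw [mul_assoc, mul_assoc, inv_mul_cancel_left, inv_mul_cancel_left]
  have un : ∀ (l : PA N) s, Inert l.1 s → ∀ g, (χ (g * s) : A) * y (g * s) = χ g * y g := by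
    intro l s h g
    have e1 : χ s = 1 := by simp [χ, eA_inert l.2.1 (PA_ne l) h]
    rw [map_mul, e1, mul_one]
    congr 1
    refine ext _ _ fun i => ?_
    obtain ⟨U, -, -, c, e⟩ := (hs i).opn
    rw [hy', hy', (e s (c l s h)).2]
  refine ⟨fun g => χ g * y g, ⟨T1, fun i => ?_, fun i => ⟨i, Ideal.mem_span_singleton_self _⟩,
    fun i g => ?_, fun i g => ⟨1 * i, pow_mem_I2 (by rw [pow_one]; exact mem_of_dvd (ez_two g)) i⟩,
    fun l hl h2 h4 P hP hm s hs' g => un ⟨l, hl, fun h => ?_⟩ s ⟨P, hP, hm, hs'⟩ g,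
    fun c hc => eA_conj hc, fun P hP hm s hs' => ?_, fun P hP hm φ hφ => ?_⟩,
    fun l φ hφ => ?_, un, fun s t' d' h g => ⟨?_, det_eq F hN hS h g⟩⟩
  · obtain ⟨U, -, b, -, e⟩ := (hs i).opn
    refine ⟨_, (b.inter (isOpen_cyc (2 ^ i))).mem_nhds ⟨U.one_mem, (cyc _).ker.one_mem⟩,
      fun u hu g => Ideal.Quotient.eq.1 ?_⟩
    have e1 : Ideal.Quotient.mk (I2 A i) (χ u) = 1 := by
      have := mk_eA (A := A) ((cyc (2 ^ i)).ker.inv_mem hu.2)
      simp only [χ, MonoidHom.inv_apply, MonoidHom.pow_apply]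
      rw [← inv_pow, ← map_inv, Units.val_pow_eq_pow_val, map_pow, this, one_pow]
    rw [map_mul χ, Units.val_mul, map_mul, map_mul, map_mul, e1, mul_one, hy', hy', (e u hu.1).2]
  · obtain ⟨n, hn⟩ := nil_tr F hN (B := A ⧸ I2 A 1) (by
      rw [← map_ofNat (Ideal.Quotient.mk (I2 A 1)) 2, Ideal.Quotient.eq_zero_iff_mem]
      exact Ideal.mem_span_singleton.2 (by rw [pow_one])) (fun l => nil_of (hT l)) (hs 1) g
    rw [← hy', ← map_pow, Ideal.Quotient.eq_zero_iff_mem] at hn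
    exact ⟨n * i, pow_mem_I2 (by rw [mul_pow]; exact Ideal.mul_mem_left _ _ hn) i⟩
  · rcases (hl.dvd_mul.1 h) with h | h
    · exact h2 ((Nat.prime_dvd_prime_iff_eq hl Nat.prime_two).1 h)
    · exact (h3 l hl h).elim h2 h4
  · rw [eA_inert Nat.prime_three (by norm_num) ⟨P, hP, hm, hs'⟩, Units.val_one]
  · rw [eA_pow (q := 3) Nat.prime_three (by norm_num) hP hm hφ, Nat.cast_ofNat]
  · rw [← eA_frob l.2.1 (PA_ne l) hφ, hχ]
    exact ext _ _ fun s => by rw [hy', (hs s).frT l φ hφ]; rfl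
  · rw [hχ, hy', hu s t' d' h]

theorem Cpl.ext (C : Cpl A) {a b : A}
    (h : ∀ s, Ideal.Quotient.mk (I2 A s) a = Ideal.Quotient.mk (I2 A s) b) : a = b :=
  sub_eq_zero.1 (C.sep _ fun s => Ideal.Quotient.eq.1 (h s))

variable {t : GQ → A}

/-- at level `M q` the inertia at `q` has trace two -/
theorem Out.i1 (h : Out N m β t) (C : Cpl A) (H : ∀ s, ∃ t d, PS N (bq β s) t d) {M q : ℕ}
    (e : N = M * q) (hq : q.Prime) (h2 : q ≠ 2) (hM : ¬ q ∣ M) {σ : GQ} (hσ : Inert q σ) :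
    t σ = 2 := C.ext fun s => by
  obtain ⟨ts, ds, hs⟩ := H s
  have h1 := hs.i1 M q e hq hM σ hσ
  obtain ⟨h3, h4⟩ := h.ag s ts ds hs.toPS0 σ
  rw [h3, h4, eA_inert hq h2 hσ, Units.val_one, one_pow, one_pow, one_mul, map_one] at h1
  rw [h1, map_ofNat, one_add_one_eq_two]

/-- the Frobenius element at `3` on new forms -/
theorem Out.i2 (h : Out N m β t) (C : Cpl A) {φ : GQ} (hφ : IsFrob 3 φ)
    (H : ∀ s, ∃ ts ds, PS0 N (bq β s) ts ds ∧
      ((3 : ℕ) : A ⧸ I2 A s) * ts φ ^ 2 = ((3 : ℕ) + 1) ^ 2 * (ds φ : A ⧸ I2 A s)) :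
    t φ ^ 2 = 16 := by
  have e : (eA A φ : A) = 3 := by
    rw [eA_frob Nat.prime_three (by norm_num) hφ, Nat.cast_ofNat]
  have h0 : (eA A φ : A) ^ (2 * m + 1) * (t φ ^ 2 - 16) = 0 := C.ext fun s => by
    obtain ⟨ts, ds, hs, h1⟩ := H s
    obtain ⟨h3, h4⟩ := h.ag s ts ds hs φ
    rw [h3, h4, e] at h1
    simp only [e, map_mul, map_pow, map_sub, map_ofNat, map_zero, Nat.cast_ofNat] at h1 ⊢
    linear_combination h1
  rw [← Units.val_pow_eq_pow_val, Units.mul_right_eq_zero] at h0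
  exact sub_eq_zero.1 h0

/-- the text of `P022S.Gt.GAL2s` -/
def GAL2s : Prop := ∀ (N : ℕ) [NeZero N], Odd N → ∀ K : Finset ℕ, (∀ i ∈ K, 1 ≤ i) →
  ∀ (B : Type) [CommRing B] (s : ℕ), (2 : B) ^ s = 0 → ∀ β : Wd N →+* B,
  (∀ Q, (∀ i ∈ K, sg N i Q = 0) → β Q = 0) → ∃ t d, PS N β t d

theorem two_pow_quot (s : ℕ) : (2 : A ⧸ I2 A s) ^ s = 0 := by
  rw [← map_ofNat (Ideal.Quotient.mk (I2 A s)) 2, ← map_pow, Ideal.Quotient.eq_zero_iff_mem]
  exact Ideal.mem_span_singleton_self _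

theorem ps_of (hG : GAL2s) [NeZero N] (hN : Odd N) {i : ℕ} (hi : 1 ≤ i)
    (hk : ∀ Q, sg N i Q = 0 → β Q = 0) (s : ℕ) : ∃ t d, PS N (bq β s) t d :=
  hG N hN {i} (by simpa using hi) _ s (two_pow_quot s) _ fun Q h => by
    rw [RingHom.comp_apply, hk Q (h i (Finset.mem_singleton_self i)), map_zero]

/-- **GALF** -/
theorem galf (hG : GAL2s) (F : FROB) [NeZero N] (hN : Odd N)
    (h3 : ∀ l : ℕ, l.Prime → l ∣ N → l = 3) (C : Cpl A)
    (hk : ∀ Q, sg N (2 * m + 1) Q = 0 → β Q = 0) (hS : ∀ l, β (wS l) = (l.1 : A) ^ (2 * m + 1))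
    (hT : ∀ l, ∃ n, β (wT l) ^ n ∈ I2 A 1) : ∃ t, Out N m β t :=
  exists_out F (NeZero.ne N) (fun l a b => Or.inr (h3 l a b)) C hS hT fun s =>
    let ⟨t, d, h⟩ := ps_of hG hN (by omega) hk s
    ⟨t, d, h.toPS0⟩

/-- a nilpotent trace of the tame generator vanishes -/
theorem tau0 {B J : Type*} [CommRing B] {I : J → Ideal B} {t : GQ → B} {d : GQ →* Bˣ}
    {P : Ideal (𝓞 Qb)} {c τ σ : GQ} (h : Ps I t d) (sep : ∀ a, (∀ i, a ∈ I i) → a = 0)
    (h2 : ∀ a : B, 2 * a = 0 → a = 0) (H : Gen P c τ σ) (h0 : IsNilpotent (t τ)) : t τ = 0 := by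
  have e := h.cube sep H
  have k : ∀ n : ℕ, t τ ^ (2 * n + 1) = 2 ^ (2 * n) * t τ := fun n => by
    induction n with
    | zero => simp
    | succ n ih =>
      rw [show 2 * (n + 1) + 1 = 2 * n + 1 + 2 by ring, pow_add, ih]
      linear_combination (2 : B) ^ (2 * n) * e
  have k2 : ∀ (n : ℕ) (a : B), 2 ^ n * a = 0 → a = 0 := fun n => by
    induction n with
    | zero => simp
    | succ n ih => exact fun a ha => h2 a (ih _ (by rw [← ha]; ring))
  obtain ⟨n, hn⟩ := h0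
  exact k2 (2 * n) _ (by rw [← k, pow_eq_zero_of_le (by omega) hn])

/-! ### products -/

section pi

variable {ι : Type} [Finite ι] {R : ι → Type} [∀ i, CommRing (R i)]

theorem mem_pi {a : ∀ i, R i} {n : ℕ} : a ∈ I2 (∀ i, R i) n ↔ ∀ i, a i ∈ I2 (R i) n := by
  simp only [Ideal.mem_span_singleton]
  refine ⟨fun ⟨b, hb⟩ i => ⟨b i, congrFun hb i⟩, fun h => ?_⟩
  choose b hb using h
  exact ⟨b, funext hb⟩

theorem pow_pi {a : ∀ i, R i} {n : ℕ} (h : ∀ i, ∃ k, a i ^ k ∈ I2 (R i) n) :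
    ∃ k, a ^ k ∈ I2 (∀ i, R i) n := by
  choose k hk using h
  obtain ⟨K, hK⟩ := (Set.finite_range k).bddAbove
  exact ⟨K, mem_pi.2 fun i => Ideal.pow_mem_of_pow_mem _ (hk i) (hK ⟨i, rfl⟩)⟩

theorem Cpl.pi (C : ∀ i, Cpl (R i)) : Cpl (∀ i, R i) where
  sep a h := funext fun i => (C i).sep _ fun n => mem_pi.1 (h n) i
  lim x h := by
    choose y hy using fun i => (C i).lim (fun s => x s i) fun s => mem_pi.1 (h s) i
    exact ⟨y, fun s => mem_pi.2 fun i => hy i s⟩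

variable [∀ i, Algebra ℤ_[2] (R i)]

theorem ps_pi {t : ∀ i, GQ → R i} (h : ∀ i, Ps (I2 (R i)) (t i) (eA (R i))) :
    Ps (I2 (∀ i, R i)) (fun g i => t i g) (eA _) where
  tf := ⟨funext fun i => (h i).tf.one, fun g k => funext fun i => (h i).tf.comm g k,
    fun g k => funext fun i => (h i).tf.mul g k⟩
  opn n := by
    choose U h1 h2 using fun i => (h i).opn n
    exact ⟨⋂ i, U i, Filter.iInter_mem.2 h1, fun u hu g =>
      mem_pi.2 fun i => h2 i u (Set.mem_iInter.1 hu i) g⟩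
  two n := ⟨n, Ideal.mem_span_singleton_self _⟩
  nt n g := pow_pi fun i => (h i).nt n g
  nd n g := pow_pi fun i => (h i).nd n g
  unr l a b c P e f s hs g := funext fun i => (h i).unr l a b c P e f s hs g
  dc c hc := eA_conj hc
  dI P a b s hs := funext fun i => (h i).dI P a b s hs
  dF P a b φ hφ := funext fun i => (h i).dF P a b φ hφ

end pi

section prod

variable {B : Type} [CommRing B]

theorem mem_prod {a : A × B} {n : ℕ} : a ∈ I2 (A × B) n ↔ a.1 ∈ I2 A n ∧ a.2 ∈ I2 B n := by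
  simp only [Ideal.mem_span_singleton]
  exact ⟨fun ⟨b, hb⟩ => ⟨⟨b.1, congrArg Prod.fst hb⟩, ⟨b.2, congrArg Prod.snd hb⟩⟩,
    fun ⟨⟨b, hb⟩, ⟨c, hc⟩⟩ => ⟨(b, c), Prod.ext hb hc⟩⟩

theorem pow_prod {a : A × B} {n : ℕ} (h : ∃ k, a.1 ^ k ∈ I2 A n) (h' : ∃ k, a.2 ^ k ∈ I2 B n) :
    ∃ k, a ^ k ∈ I2 (A × B) n :=
  let ⟨k, hk⟩ := h
  let ⟨l, hl⟩ := h'
  ⟨k + l, mem_prod.2 ⟨Ideal.pow_mem_of_pow_mem _ hk (Nat.le_add_right k l),
    Ideal.pow_mem_of_pow_mem _ hl (Nat.le_add_left l k)⟩⟩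

theorem sep_prod (h : ∀ a : A, (∀ i, a ∈ I2 A i) → a = 0) (h' : ∀ a : B, (∀ i, a ∈ I2 B i) → a = 0)
    (a : A × B) (k : ∀ i, a ∈ I2 (A × B) i) : a = 0 :=
  Prod.ext (h _ fun i => (mem_prod.1 (k i)).1) (h' _ fun i => (mem_prod.1 (k i)).2)

variable [Algebra ℤ_[2] B]

theorem ps_prod {t' : GQ → B} (h : Ps (I2 A) t (eA A)) (h' : Ps (I2 B) t' (eA B)) :
    Ps (I2 (A × B)) (fun g => (t g, t' g)) (eA _) where
  tf := ⟨Prod.ext h.tf.one h'.tf.one, fun g k => Prod.ext (h.tf.comm g k) (h'.tf.comm g k),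
    fun g k => Prod.ext (h.tf.mul g k) (h'.tf.mul g k)⟩
  opn n := by
    obtain ⟨U, h1, h2⟩ := h.opn n
    obtain ⟨V, h3, h4⟩ := h'.opn n
    exact ⟨U ∩ V, Filter.inter_mem h1 h3, fun u hu g => mem_prod.2 ⟨h2 u hu.1 g, h4 u hu.2 g⟩⟩
  two n := ⟨n, Ideal.mem_span_singleton_self _⟩
  nt n g := pow_prod (h.nt n g) (h'.nt n g)
  nd n g := pow_prod (h.nd n g) (h'.nd n g)
  unr l a b c P e f s hs g := Prod.ext (h.unr l a b c P e f s hs g) (h'.unr l a b c P e f s hs g)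
  dc c hc := eA_conj hc
  dI P a b s hs := Prod.ext (h.dI P a b s hs) (h'.dI P a b s hs)
  dF P a b φ hφ := Prod.ext (h.dF P a b φ hφ) (h'.dF P a b φ hφ)

end prod

end Vale.Agent.P022K.UC.Gf
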