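import Vale.Agent.P022K.UC.CoreA
import Vale.Agent.P022K.UC.UcB

/-!
# P022K, block UC: from a large family on the hypersurface to the uniform congruences
-/

set_option linter.all false

open MvPolynomial

noncomputable section

namespace Vale.Agent.P022K.UC.Core

open Vale.Agent.P022 Vale.Agent.P022.H783 Vale.Agent.P022K.UC.Vol Vale.Agent.P022K.UC.Hm

/-- a family of height `W` and a point -/
structure Dat (N : ℕ) [NeZero N] {L : Type} [NormedField L] (lam : ℕ → L) (ρ : ℝ) (C W : ℕ)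
    {T A κ : Type} [CommRing T] [CommRing A] [Algebra ℤ_[2] A] [Fintype κ] [DecidableEq κ]
    (f : T →+* A) (μ : T →+* L) (b : PA N → T) (x y z : T) (φ : A →ₗ[ℤ_[2]] (κ → ℤ_[2])) :
    Prop where
  rel : 3 * x ^ 2 + y ^ 2 + z ^ 2 + 12 = 0
  gen : ∀ ℓ (i : ℕ), ∃ p ∈ Subring.closure {x, y}, ∃ q ∈ Subring.closure {x, y},
    b ℓ - (p + q * z) ∈ Ideal.span {(2 : T) ^ i}
  pt : ∀ ℓ, μ (b ℓ) = lam ℓ.1
  int : ∀ a, ‖μ a‖ ≤ 1
  px : ‖μ x‖ ≤ ρ
  py : ‖μ y‖ ≤ ρ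
  kil : ∀ P, (∀ m ≤ W, ∀ g : MF N (2 * m + 2), Tv g → wd N m P g = 0) →
    f (FreeAlgebra.lift ℤ b P) = 0
  hat : ∀ (h : ℕ) (u : A) j, 2 ^ h ∣ φ (f x ^ (C * (h + W)) * u) j ∧
    2 ^ h ∣ φ (f y ^ (C * (h + W)) * u) j
  det : ∃ (e : κ → FreeAlgebra ℤ (PA N)) (υ : κ → ℤ) (E : Matrix κ κ ℤ),
    (∀ k j, (υ k : ℤ_[2]) * φ (f (FreeAlgebra.lift ℤ b (e k))) j = E k j) ∧ E.det ≠ 0 ∧
    |E.det| ≤ (W + 2) ^ (C * (W + 1) * Fintype.card κ)
  card : W ^ 2 ≤ C * Fintype.card κ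

theorem Dat.le {N : ℕ} [NeZero N] {L : Type} [NormedField L] [IsUltrametricDist L] {lam : ℕ → L}
    {ρ : ℝ} {C W : ℕ} {T A κ : Type} [CommRing T] [CommRing A] [Algebra ℤ_[2] A] [Fintype κ]
    [DecidableEq κ] {f : T →+* A} {μ : T →+* L} {b : PA N → T} {x y z : T}
    {φ : A →ₗ[ℤ_[2]] (κ → ℤ_[2])} (D : Dat N lam ρ C W f μ b x y z φ) (h2 : ‖(2 : L)‖ ≤ ρ)
    {g e : ℕ} (k1 : (W + 2) ^ (C * (W + 1) * Fintype.card κ) ≤ 2 ^ (g * Fintype.card κ))
    (k2 : 2 * g ≤ C * (2 * g + W)) (k3 : 2 * ((2 * e + 1) * (3 * (C * (2 * g + W)) + 1) ^ 2) +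
      g * Fintype.card κ < 2 * g * Fintype.card κ) (P : FreeAlgebra ℤ (PA N))
    (hP : ∀ m ≤ W, ∀ g : MF N (2 * m + 2), Tv g → wd N m P g = 0) :
    ‖FreeAlgebra.lift ℤ (fun l : PA N => lam l.1) P‖ ≤ ρ ^ e := by
  have ev : ∀ p : MvPolynomial (Fin 2) ℤ,
      aeval ![f x, f y] (map (Int.castRingHom ℤ_[2]) p) = f (aeval ![x, y] p) := fun p => by
    induction p using MvPolynomial.induction_on with
    | C a => simp
    | add p q hp hq => simp only [map_add, hp, hq]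
    | mul_X p i hp => simp only [map_mul, hp, map_X, aeval_X]; fin_cases i <;> rfl
  have two : ∀ (i : ℕ) (a : T), a ∈ Ideal.span {(2 : T) ^ i} → ∀ u j, 2 ^ i ∣ φ (f a * u) j := by
    intro i a ha u j
    obtain ⟨c, rfl⟩ := Ideal.mem_span_singleton.1 ha
    rw [map_mul f, map_pow, map_ofNat, mul_assoc, ← map_ofNat (algebraMap ℤ_[2] A), ← map_pow,
      ← Algebra.smul_def, map_smul]
    exact dvd_mul_right _ _
  obtain ⟨w, υ, E, d1, d2, d3⟩ := D.det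
  choose p₀ q₀ h₀ using fun k => ex_word D.rel (fun l => D.gen l (g * Fintype.card κ + 1)) (w k)
  obtain ⟨p, q, h⟩ := ex_word D.rel (fun l => D.gen l (2 * g + e)) P
  have rel : 3 * f x ^ 2 + f y ^ 2 + f z ^ 2 + 12 = 0 := by
    simpa [map_ofNat] using congrArg f D.rel
  refine And.elim (fun hp hq => ?_) (cnt rel φ (fun k => map (Int.castRingHom ℤ_[2]) (p₀ k))
    (fun k => map (Int.castRingHom ℤ_[2]) (q₀ k)) (fun hd => ?_) (D.hat (2 * g)) k2 k3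
    (p := map (Int.castRingHom ℤ_[2]) p) (q := map (Int.castRingHom ℤ_[2]) q) fun u j => ?_)
  · have h3 : μ (FreeAlgebra.lift ℤ b P) = _ := map_lift μ b P
    simp only [D.pt] at h3
    obtain ⟨c, hc⟩ := Ideal.mem_span_singleton.1 h
    have r0 : 0 ≤ ρ := (norm_nonneg _).trans h2
    rw [← h3, sub_eq_iff_eq_add.1 hc]
    refine add_mem (s := Bl μ D.int (ρ ^ e) (by positivity)) (Ideal.mul_mem_right _ _ ?_)
      (add_mem (pt_le μ D.int h2 D.px D.py hp)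
        (Ideal.mul_mem_right _ _ (pt_le μ D.int h2 D.px D.py hq)))
    rw [pow_add]
    refine Ideal.mul_mem_left _ _ (show ‖μ _‖ ≤ _ from ?_)
    rw [map_pow, map_ofNat, norm_pow]
    gcongr
  · let π := Ideal.Quotient.mk (Ideal.span {(2 : ℤ_[2]) ^ (g * Fintype.card κ + 1)})
    have h3 : π (E.det : ℤ_[2]) = 0 := by
      have h4 := Ideal.Quotient.eq_zero_iff_mem.2 (Ideal.mem_span_singleton.2 hd)
      rw [RingHom.map_det, ← Matrix.det_transpose] at h4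
      rw [map_intCast, ← eq_intCast (Int.castRingHom _), RingHom.map_det]
      refine (congrArg Matrix.det (Matrix.ext fun k j => ?_)).trans
        ((Matrix.det_mul_column (fun k => (υ k : _ ⧸ _)) _).trans (by rw [h4, mul_zero]))
      have h5 := two _ _ (h₀ k) 1 j
      rw [mul_one, map_sub, map_sub, Pi.sub_apply, ← Ideal.mem_span_singleton,
        ← Ideal.Quotient.eq] at h5
      simp only [RingHom.mapMatrix_apply, Matrix.map_apply, Matrix.of_apply, Matrix.transpose_apply,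
        ev, eq_intCast]
      rw [← map_mul, ← map_add, ← h5, ← map_intCast π, ← d1, map_mul, map_intCast]
    have h4 := Ideal.mem_span_singleton.1 (Ideal.Quotient.eq_zero_iff_mem.1 h3)
    have h5 : ((2 : ℕ) : ℤ) ^ (g * Fintype.card κ + 1) ∣ E.det :=
      (PadicInt.pow_p_dvd_int_iff _ _).1 (by exact_mod_cast h4)
    have h6 := (Int.le_of_dvd (abs_pos.2 d2) ((dvd_abs _ _).2 h5)).trans d3
    have h7 : 2 ^ (g * Fintype.card κ + 1) ≤ (W + 2) ^ (C * (W + 1) * Fintype.card κ) := by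
      exact_mod_cast h6
    exact absurd (h7.trans k1) (not_le.2 (Nat.pow_lt_pow_right one_lt_two (Nat.lt_succ_self _)))
  · have h3 := two _ _ (neg_mem h) u j
    rw [neg_sub, map_sub, D.kil P hP, sub_zero, map_add f, map_mul f, ← ev, ← ev] at h3
    exact (pow_dvd_pow _ (Nat.le_add_right _ _)).trans h3

/-- **CORE** -/
theorem ucn {N : ℕ} [NeZero N] {L : Type} [NormedField L] [IsUltrametricDist L] [CharZero L]
    {lam : ℕ → L} {ρ : ℝ} {C W₀ : ℕ} (h2 : ‖(2 : L)‖ ≤ ρ) (h1 : ρ < 1)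
    (h : ∀ W, W₀ ≤ W → ∃ (T A κ : Type) (_ : CommRing T) (_ : CommRing A) (_ : Algebra ℤ_[2] A)
      (_ : Fintype κ) (_ : DecidableEq κ) (f : T →+* A) (μ : T →+* L) (b : PA N → T) (x y z : T)
      (φ : A →ₗ[ℤ_[2]] (κ → ℤ_[2])), Dat N lam ρ C W f μ b x y z φ) : UCN N lam := by
  obtain ⟨k, hk⟩ := exists_pow_lt_of_lt_one (norm_pos_iff.2 (two_ne_zero' L)) h1
  obtain ⟨K, hK⟩ := ari C k W₀
  refine ⟨4, 3, K, by norm_num, by norm_num, by norm_num, fun j => ?_⟩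
  obtain ⟨W, g, a1, a2, a3⟩ := hK j
  obtain ⟨T, A, κ, _, _, _, _, _, f, μ, b, x, y, z, φ, D⟩ := h W a1
  obtain ⟨b1, b2, b3⟩ := a3 _ D.card
  refine ⟨W, a2, fun P hP => (D.le h2 b1 b2 b3 P hP).trans ?_⟩
  rw [pow_mul]
  exact pow_le_pow_left₀ (pow_nonneg ((norm_nonneg _).trans h2) _) hk.le j

end Vale.Agent.P022K.UC.Core
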