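import Vale.Agent.P022K.UC.Lev

/-!
# P022K, block UC, row ETA: the forms `η (3 z) ^ 8` and `E₄ (3 z)` of weight four and level nine
-/

set_option autoImplicit false

open UpperHalfPlane ModularForm CongruenceSubgroup Matrix PowerSeries Filter Topology
open scoped MatrixGroups ModularForm Real Nat

noncomputable section

namespace Vale.Agent.P022K.UC

open Rm Lv Vale.Agent.P022.H218.L3

namespace Et

variable {k : ℤ} {F G : ℍ → ℂ} {f : ℂ⟦X⟧}

/-! ### the Euler product has integer coefficients -/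

theorem sp_X : Sp X qq := fun τ => by
  have := hasSum_single (f := fun n : ℕ => coeff n (X : ℂ⟦X⟧) • qq τ ^ n) 1
    (fun n hn => by simp [coeff_X, hn])
  simpa using this

theorem tay {g : ℂ → ℂ} (hg : DifferentiableOn ℂ g (Metric.ball 0 1)) :
    Sm (fun n => (n ! : ℂ)⁻¹ * iteratedDeriv n g 0) fun τ => g (qq τ) := fun τ => by
  refine hs_congr (Complex.hasSum_taylorSeries_on_ball hg
    (mem_ball_zero_iff.2 (norm_qq τ))) fun n => ?_
  simp only [smul_eq_mul, sub_zero]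
  ring

theorem sp_fin (s : Finset ℕ) :
    Sp (PowerSeries.map (Int.castRingHom ℂ) (∏ j ∈ s, (1 - X ^ (j + 1))))
      fun τ => ∏ j ∈ s, (1 - qq τ ^ (j + 1)) := by
  classical
  induction s using Finset.induction_on with
  | empty => simpa using Sp.const 1
  | insert a s ha ih =>
    simp only [Finset.prod_insert ha, map_mul, map_sub, map_one, map_pow, map_X]
    exact (Sp.one.sub (sp_X.pow (a + 1))).mul ih

/-- the Euler product -/
def eu (q : ℂ) : ℂ := ∏' n : ℕ, (1 - q ^ (n + 1))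

theorem tend (n : ℕ) : TendstoLocallyUniformlyOn
    (fun s : Finset ℕ => iteratedDeriv n fun q : ℂ => ∏ j ∈ s, (1 - q ^ (j + 1)))
    (iteratedDeriv n eu) atTop (Metric.ball 0 1) := by
  induction n with
  | zero => exact multipliableLocallyUniformlyOn_one_sub_pow.hasProdLocallyUniformlyOn
  | succ n ih =>
    simp only [iteratedDeriv_succ]
    refine ih.deriv (.of_forall fun s => ?_) Metric.isOpen_ball
    have : ContDiff ℂ ⊤ fun q : ℂ => ∏ j ∈ s, (1 - q ^ (j + 1)) :=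
      contDiff_prod fun j _ => by fun_prop
    exact (this.differentiable_iteratedDeriv n (by simp)).differentiableOn

theorem exists_P : ∃ P : ℤ⟦X⟧, coeff 0 P = 1 ∧
    Sp (PowerSeries.map (Int.castRingHom ℂ) P) fun τ => eu (qq τ) := by
  have h : ∀ n : ℕ, (n ! : ℂ)⁻¹ * iteratedDeriv n eu 0 ∈ Set.range ((↑) : ℤ → ℂ) := fun n => by
    refine Complex.isClosed_range_intCast.mem_of_tendsto
      (((tend n).tendsto_at (Metric.mem_ball_self one_pos)).const_mul _) (.of_forall fun s => ?_)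
    have h1 : DifferentiableOn ℂ (fun q : ℂ => ∏ j ∈ s, (1 - q ^ (j + 1))) (Metric.ball 0 1) := by
      fun_prop
    exact ⟨_, congrFun (Sm.uniq (sp_fin s) (tay h1)) n⟩
  choose p hp using h
  refine ⟨PowerSeries.mk p, ?_, ?_⟩
  · have := hp 0
    simp only [Nat.factorial_zero, Nat.cast_one, inv_one, iteratedDeriv_zero, eu, one_mul,
      zero_pow (Nat.succ_ne_zero _), sub_zero, tprod_one] at this
    rw [coeff_mk]
    exact_mod_cast this
  · have := tay (g := eu) differentiableOn_tprod_one_sub_pow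
    simpa [Sp, hp] using this

/-! ### the operator `F ↦ F (3 z)` -/

/-- the point `3 z` -/
def t3 (τ : ℍ) : ℍ := ⟨3 * τ, by simpa using τ.im_pos⟩

/-- the function `F (3 z)` -/
def V (F : ℍ → ℂ) : ℍ → ℂ := fun τ => F (t3 τ)

theorem Vl_eq (k : ℤ) (F : ℍ → ℂ) : Vl k 3 F = ((3 : ℂ) ^ (k - 1)) • V F := by
  funext τ
  obtain ⟨τ', h1, h2⟩ := sl_tri (k := k) (F := F) (a := 3) 0 three_ne_zero one_ne_zero τ
  obtain rfl : τ' = t3 τ := UpperHalfPlane.ext (by simpa [t3] using h1)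
  rw [Vl, h2]
  simp [V]

theorem sp_V (h : Sp f F) : Sp (expand 3 three_ne_zero f) (V F) := by
  have := sm_Vl h 1 three_ne_zero
  rw [Vl_eq] at this
  simpa [Sp, coeff_expand] using this

theorem sl_smul {A : Matrix (Fin 2) (Fin 2) ℤ} (hA : 0 < A.det) (c : ℂ) :
    sl k (c • F) A = c • sl k F A := by
  have hpos : 0 < (gl A hA.ne').det.val := by rw [gl_det]; exact_mod_cast hA
  rw [sl_eq hA.ne', sl_eq hA.ne', smul_slash, σ, if_pos hpos]
  rfl

theorem bdd_tri (hb : IsBoundedAtImInfty G) {a d : ℕ} (b : ℤ) (ha : a ≠ 0) (hd : d ≠ 0) :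
    IsBoundedAtImInfty (sl k G !![(a : ℤ), b; 0, (d : ℤ)]) := by
  obtain ⟨M, A, h⟩ := isBoundedAtImInfty_iff.1 hb
  refine isBoundedAtImInfty_iff.2 ⟨‖(a : ℂ) ^ (k - 1) * (d : ℂ)⁻¹‖ * M, A * d / a, fun τ hτ => ?_⟩
  obtain ⟨τ', h1, h2⟩ := sl_tri (k := k) (F := G) b ha hd τ
  have ha' : (0 : ℝ) < a := by positivity
  have hd' : (0 : ℝ) < d := by positivity
  rw [h2, norm_mul]
  refine mul_le_mul_of_nonneg_left (h τ' ?_) (norm_nonneg _)
  have : τ'.im = a * τ.im / d := by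
    rw [← coe_im, h1, Complex.div_natCast_im]
    simp
  rw [this, le_div_iff₀ hd', mul_comm (a : ℝ)]
  exact (div_le_iff₀ ha').1 hτ

theorem det1 (γ : SL(2, ℤ)) : γ 0 0 * γ 1 1 - γ 0 1 * γ 1 0 = 1 := by
  have := γ.2
  rwa [det_fin_two] at this

theorem Vl_slash (γ : SL(2, ℤ)) {y : ℤ} (hy : γ 1 0 = 3 * y) : ∃ g : SL(2, ℤ),
    g 0 1 = 3 * γ 0 1 ∧ g 1 0 = y ∧ Vl k 3 G ∣[k] γ = Vl k 3 (G ∣[k] g) := by
  have hd := det_tri (a := 3) (d := 1) 0 three_ne_zero one_ne_zero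
  let g : SL(2, ℤ) := ⟨!![γ 0 0, 3 * γ 0 1; y, γ 1 1], by
    rw [det_fin_two_of]
    linear_combination det1 γ + γ 0 1 * hy⟩
  refine ⟨g, rfl, rfl, sl_comm hd hd ?_⟩
  ext i j
  fin_cases i <;> fin_cases j <;> simp [g, Matrix.mul_apply, Fin.sum_univ_two] <;> linarith

theorem isMF_V (hol : V G ∈ Hol) (hb : IsBoundedAtImInfty G) (χ : SL(2, ℤ) → ℂ)
    (h : ∀ γ : SL(2, ℤ), G ∣[k] γ = χ γ • G)
    (h1 : ∀ γ : SL(2, ℤ), 3 ∣ γ 0 1 → 3 ∣ γ 1 0 → χ γ = 1) : IsMF (Gamma0 9) k (V G) := by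
  have h3 : (3 : ℂ) ^ (k - 1) ≠ 0 := zpow_ne_zero _ three_ne_zero
  have hd := det_tri (a := 3) (d := 1) 0 three_ne_zero one_ne_zero
  suffices hs : IsMF (Gamma0 9) k (Vl k 3 G) by
    have := hs.smul ((3 : ℂ) ^ (k - 1))⁻¹
    rwa [Vl_eq, smul_smul, inv_mul_cancel₀ h3, one_smul] at this
  refine ⟨Vl_eq k G ▸ Hol.smul_mem hol _, fun γ hγ => ?_, fun γ => ?_⟩
  · obtain ⟨y, hy⟩ : ((9 : ℕ) : ℤ) ∣ γ 1 0 :=
      (ZMod.intCast_zmod_eq_zero_iff_dvd _ _).1 (Gamma0_mem.1 hγ)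
    obtain ⟨g, e1, e2, e3⟩ := Vl_slash (k := k) (G := G) γ (y := 3 * y) (by rw [hy]; push_cast; ring)
    rw [e3, h, h1 g ⟨_, e1⟩ ⟨_, e2⟩, one_smul]
  · by_cases hc : 3 ∣ γ 1 0
    · obtain ⟨y, hy⟩ := hc
      obtain ⟨g, -, -, e3⟩ := Vl_slash (k := k) (G := G) γ hy
      rw [e3, h]
      exact bdd_tri (hb.smul _) 0 three_ne_zero one_ne_zero
    · obtain ⟨y, hy⟩ : 3 ∣ γ 1 1 - γ 1 0 * (γ 1 0 * γ 1 1) := by
        obtain ⟨m, hm | hm⟩ : ∃ m, γ 1 0 = 3 * m + 1 ∨ γ 1 0 = 3 * m + 2 := ⟨γ 1 0 / 3, by omega⟩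
        · exact ⟨-γ 1 1 * (3 * m ^ 2 + 2 * m), by rw [hm]; ring⟩
        · exact ⟨-γ 1 1 * (3 * m ^ 2 + 4 * m + 1), by rw [hm]; ring⟩
      let g : SL(2, ℤ) := ⟨!![3 * γ 0 0, γ 0 1 - γ 0 0 * (γ 1 0 * γ 1 1); γ 1 0, y], by
        rw [det_fin_two_of]
        linear_combination det1 γ - γ 0 0 * hy⟩
      rw [Vl, sl_comm hd (det_tri (a := 1) (d := 3) (γ 1 0 * γ 1 1) one_ne_zero three_ne_zero)
        (γ' := g), h]
      · exact bdd_tri (hb.smul _) _ one_ne_zero three_ne_zero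
      · ext i j
        fin_cases i <;> fin_cases j <;> simp [g, Matrix.mul_apply, Fin.sum_univ_two] <;> linarith

/-- the Fricke involution of level nine -/
theorem V_W (hS : G ∣[(4 : ℤ)] ModularGroup.S = G) :
    sl 4 (V G) !![0, -1; 9, 0] = (9 : ℂ) • V G := by
  have hd := det_tri (a := 3) (d := 1) 0 three_ne_zero one_ne_zero
  have hd' := det_tri (a := 9) (d := 3) 0 (by norm_num) three_ne_zero
  have h1 : sl 4 (Vl 4 3 G) !![0, -1; 9, 0] = sl 4 G !![((9 : ℕ) : ℤ), 0; 0, ((3 : ℕ) : ℤ)] := by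
    rw [Vl, ← sl_mul hd (by simp)]
    conv_rhs => rw [← hS, ← sl_coe, ← sl_mul (by simp) hd']
    congr 1
    simp [ModularGroup.S]
  rw [Vl_eq, sl_smul (by simp)] at h1
  funext τ
  obtain ⟨τ', h2, h3⟩ := sl_tri (k := 4) (F := G) (a := 9) (d := 3) 0 (by norm_num) three_ne_zero τ
  obtain rfl : τ' = t3 τ := UpperHalfPlane.ext (by rw [h2]; simp only [t3]; push_cast; ring)
  have h4 := (congrFun h1 τ).trans h3
  simp only [Pi.smul_apply, smul_eq_mul, V] at h4 ⊢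
  norm_num at h4
  linear_combination h4 / 27

/-! ### the eighth power of `η` -/

/-- the function `η ^ 8` -/
def G8 (τ : ℍ) : ℂ := η τ ^ 8

theorem G8_eq (τ : ℍ) : G8 τ = Function.Periodic.qParam 3 τ * eu (qq τ) ^ 8 := by
  simp only [G8, eta, mul_pow, eu, eta_q]
  congr 1
  simp only [Function.Periodic.qParam, ← Complex.exp_nat_mul]
  congr 1
  push_cast
  ring

theorem G8_S : G8 ∣[(4 : ℤ)] ModularGroup.S = G8 := by
  funext z
  have hs : ∀ w : ℂ, w ≠ 0 → Complex.sqrt w ^ 8 = w ^ 4 := fun w hw => by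
    rw [sqrt_eq_exp hw, ← Complex.exp_nat_mul,
      show ((8 : ℕ) : ℂ) * (Complex.log w / 2) = (4 : ℕ) * Complex.log w by push_cast; ring,
      Complex.exp_nat_mul, Complex.exp_log hw]
  suffices η (-(↑z)⁻¹) ^ 8 * ((z : ℂ) ^ 4)⁻¹ = η z ^ 8 by
    rw [SL_slash_apply, modular_S_smul, ModularGroup.denom_S]
    simpa [G8]
  have he : η (-(↑z)⁻¹) = (Complex.sqrt Complex.I)⁻¹ * (Complex.sqrt z * η z) := by
    simpa [neg_div] using eta_comp_eq_csqrt_I_inv z.2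
  simp only [he, mul_pow, inv_pow, hs _ Complex.I_ne_zero, hs _ z.ne_zero, Complex.I_pow_four]
  field_simp [z.ne_zero]

theorem G8_T : G8 ∣[(4 : ℤ)] ModularGroup.T = ZMod.stdAddChar (1 : ZMod 3) • G8 := by
  funext z
  have h1 : qq ((1 : ℝ) +ᵥ z) = qq z := by
    simp [Function.Periodic.qParam, mul_add, Complex.exp_add]
  have h2 := ZMod.stdAddChar_coe (N := 3) 1
  rw [Int.cast_one] at h2
  rw [SL_slash_apply, modular_T_smul, Pi.smul_apply, G8_eq, G8_eq, h1, h2, smul_eq_mul,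
    ← mul_assoc]
  have h3 : denom (ModularGroup.T : GL (Fin 2) ℝ) z = 1 := by
    rw [ModularGroup.denom_apply, ModularGroup.coe_T]
    simp
  rw [h3, _root_.one_zpow, mul_one]
  congr 1
  simp only [Function.Periodic.qParam, ← Complex.exp_add, coe_vadd]
  congr 1
  push_cast
  ring

/-- the character of order three -/
def ps (γ : SL(2, ℤ)) : ZMod 3 :=
  ((γ 0 0 : ℤ) + (γ 1 1 : ℤ)) * (γ 1 0 : ℤ) - (γ 0 1 : ℤ) * (γ 1 1 : ℤ) * ((γ 1 0 : ℤ) ^ 2 - 1)

theorem det3 (γ : SL(2, ℤ)) :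
    ((γ 0 0 : ℤ) : ZMod 3) * (γ 1 1 : ℤ) - (γ 0 1 : ℤ) * (γ 1 0 : ℤ) = 1 := by
  exact_mod_cast congrArg (Int.cast : ℤ → ZMod 3) (det1 γ)

theorem ps_S (γ : SL(2, ℤ)) : ps (γ * ModularGroup.S) = ps γ + 0 := by
  have h : ∀ a b c d : ZMod 3, a * d - b * c = 1 →
      (b + -c) * d - -a * -c * (d ^ 2 - 1) = (a + d) * c - b * d * (c ^ 2 - 1) + 0 := by decide
  rw [ps, ps, ← h _ _ _ _ (det3 γ)]
  simp [ModularGroup.coe_S, Matrix.mul_apply, Fin.sum_univ_two]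

theorem ps_T (γ : SL(2, ℤ)) : ps (γ * ModularGroup.T) = ps γ + 1 := by
  have h : ∀ a b c d : ZMod 3, a * d - b * c = 1 → (a + (c + d)) * c -
      (a + b) * (c + d) * (c ^ 2 - 1) = (a + d) * c - b * d * (c ^ 2 - 1) + 1 := by decide
  rw [ps, ps, ← h _ _ _ _ (det3 γ)]
  simp [ModularGroup.coe_T, Matrix.mul_apply, Fin.sum_univ_two]

theorem G8_slash (γ : SL(2, ℤ)) : G8 ∣[(4 : ℤ)] γ = ZMod.stdAddChar (ps γ) • G8 := by
  have hg : ∀ y ∈ ({ModularGroup.S, ModularGroup.T} : Set SL(2, ℤ)), ∃ r : ZMod 3,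
      G8 ∣[(4 : ℤ)] y = ZMod.stdAddChar r • G8 ∧ ∀ x, ps (x * y) = ps x + r := by
    rintro y (rfl | rfl)
    · exact ⟨0, by simpa using G8_S, ps_S⟩
    · exact ⟨1, G8_T, ps_T⟩
  have : γ ∈ Subgroup.closure {ModularGroup.S, ModularGroup.T} := by
    simp [SpecialLinearGroup.SL2Z_generators]
  induction this using Subgroup.closure_induction_right with
  | one => simp [ps]
  | mul_right x _ y hy ih =>
    obtain ⟨r, h1, h2⟩ := hg y hy
    rw [SlashAction.slash_mul, ih, SL_smul_slash, h1, h2, smul_smul, AddChar.map_add_eq_mul]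
  | mul_inv_cancel x _ y hy ih =>
    obtain ⟨r, h1, h2⟩ := hg y hy
    have h3 := h2 (x * y⁻¹)
    have h4 := congrArg (fun H : ℍ → ℂ => H ∣[(4 : ℤ)] y⁻¹) h1
    simp only [← SlashAction.slash_mul, mul_inv_cancel, SlashAction.slash_one,
      SL_smul_slash] at h4
    rw [inv_mul_cancel_right] at h3
    rw [SlashAction.slash_mul, ih, SL_smul_slash, h3, AddChar.map_add_eq_mul, mul_smul, ← h4]

/-! ### growth of the coefficients -/

theorem growth {N : ℕ} [NeZero N] {w : ℕ} (h : IsMF (Gamma0 N) w F) (hf : Sp f F) :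
    ∃ A : ℕ, ∀ n : ℕ, ‖coeff n f‖ ≤ ((n : ℝ) + 2) ^ A := by
  let M : ModularForm (Gamma0 N) w :=
    { toFun := F
      slash_action_eq' := by
        rintro _ ⟨γ, hγ, rfl⟩
        exact h.slash γ hγ
      holo' := h.hol
      bdd_at_cusps' := fun {c} hc => by
        rw [OnePoint.isBoundedAt_iff_forall_SL2Z
          ((Subgroup.IsArithmetic.isCusp_iff_isCusp_SL2Z _).1 hc)]
        exact fun γ _ => h.bdd γ }
  have e : qExpansion 1 M = f :=
    Sp.uniq (fun τ => ModularForm.hasSum_qExpansion M one_pos (by simp) τ) hf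
  have hO := ModularFormClass.qExpansion_isBigO (Int.natCast_nonneg w) M
  rw [strictWidthInfty_Gamma0, e] at hO
  obtain ⟨c, hc0, hc⟩ := Asymptotics.bound_of_isBigO_nat_atTop hO
  obtain ⟨m, hm⟩ := pow_unbounded_of_one_lt (c + ‖coeff 0 f‖) (one_lt_two (α := ℝ))
  refine ⟨m + w, fun n => ?_⟩
  have hn : (0 : ℝ) ≤ n := n.cast_nonneg
  have h1 : (1 : ℝ) ≤ ((n : ℝ) + 2) ^ w := one_le_pow₀ (by linarith)
  have h2 : (2 : ℝ) ^ m ≤ ((n : ℝ) + 2) ^ m := pow_le_pow_left₀ zero_le_two (by linarith) m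
  have h3 := norm_nonneg (coeff 0 f)
  rw [pow_add]
  rcases Nat.eq_zero_or_pos n with rfl | h0
  · nlinarith
  · refine (hc (x := n) (by positivity)).trans ?_
    rw [zpow_natCast, Real.norm_of_nonneg (by positivity)]
    exact mul_le_mul (by linarith) (pow_le_pow_left₀ hn (by linarith) w) (by positivity)
      (by positivity)

theorem growth_int {N : ℕ} [NeZero N] {w : ℕ} {x : ℤ⟦X⟧} (h : IsMF (Gamma0 N) w F)
    (hf : Sp (PowerSeries.map (Int.castRingHom ℂ) x) F) :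
    ∃ A : ℕ, ∀ n : ℕ, |coeff n x| ≤ ((n : ℤ) + 2) ^ A := by
  obtain ⟨A, hA⟩ := growth h hf
  refine ⟨A, fun n => ?_⟩
  have := hA n
  rw [coeff_map, eq_intCast, Complex.norm_intCast] at this
  exact_mod_cast this

/-! ### the two series -/

/-- the series `∏ (1 - X ^ n)` -/
def P : ℤ⟦X⟧ := exists_P.choose

/-- the expansion of `η (3 z) ^ 8` -/
def D : ℤ⟦X⟧ := X * expand 3 three_ne_zero (P ^ 8)

/-- the expansion of `E₄ (3 z)` -/
def u : ℤ⟦X⟧ := expand 3 three_ne_zero (E4 ℤ)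

theorem sp_D : Sp (PowerSeries.map (Int.castRingHom ℂ) D) (V G8) := by
  have h := sp_X.mul (sp_V (exists_P.choose_spec.2.pow 8))
  rw [D, map_mul, map_X, map_expand, map_pow]
  suffices e : V G8 = qq * V ((fun τ => eu (qq τ)) ^ 8) from e ▸ h
  funext τ
  rw [V, G8_eq]
  change _ = qq τ * eu (qq (t3 τ)) ^ 8
  congr 1
  simp only [Function.Periodic.qParam, t3]
  congr 1
  push_cast
  ring

theorem mf_D : IsMF (Gamma0 9) 4 (V G8) := by
  refine isMF_V (Sm.hol sp_D) ?_ _ G8_slash fun γ hb hc => ?_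
  · have h1 : IsBoundedAtImInfty fun τ : ℍ => Function.Periodic.qParam 3 τ :=
      isBoundedAtImInfty_iff.2 ⟨1, 0, fun τ _ =>
        (Function.Periodic.norm_qParam_lt_one three_pos τ.im_pos).le⟩
    have := h1.mul (Sm.bdd (exists_P.choose_spec.2.pow 8))
    rw [funext G8_eq]
    exact this
  · have h1 := (ZMod.intCast_zmod_eq_zero_iff_dvd _ 3).2 hb
    have h2 := (ZMod.intCast_zmod_eq_zero_iff_dvd _ 3).2 hc
    simp [ps, h1, h2]

theorem sp_u : Sp (PowerSeries.map (Int.castRingHom ℂ) u) (V E₄) := by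
  rw [u, map_expand, map_Es]
  exact sp_V sp_E4

theorem mf_u : IsMF (Gamma0 9) 4 (V E₄) :=
  isMF_V (Sm.hol sp_u) (Sm.bdd sp_E4) (fun _ => 1) (fun γ => by rw [E4_slash, one_smul])
    fun _ _ _ => rfl

/-- the form `η (3 z) ^ 8` with its Fricke eigenvalue -/
theorem form_D : ∃ F, IsMF (Gamma0 9) 4 F ∧ Sp (PowerSeries.map (Int.castRingHom ℂ) D) F ∧
    sl 4 F !![0, -1; 9, 0] = (9 : ℂ) • F := ⟨_, mf_D, sp_D, V_W G8_S⟩

theorem D0 : coeff 0 D = 0 := by simp [D]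

theorem D1 : coeff 1 D = 1 := by
  have : constantCoeff P = 1 := by
    rw [← coeff_zero_eq_constantCoeff_apply]
    exact exists_P.choose_spec.1
  rw [D, coeff_succ_X_mul, coeff_zero_eq_constantCoeff, constantCoeff_expand, map_pow, this,
    one_pow]

theorem D3 (n : ℕ) (h : n % 3 ≠ 1) : coeff n D = 0 := by
  cases n with
  | zero => exact D0
  | succ n => rw [D, coeff_succ_X_mul, coeff_expand_of_not_dvd _ _ _ (by omega)]

theorem sq2 (x : (ZMod 2)⟦X⟧) : x ^ 2 = expand 2 two_ne_zero x := by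
  have := MvPowerSeries.map_frobenius_expand 2 two_ne_zero (f := x)
  rw [ZMod.frobenius_zmod, MvPowerSeries.map_id] at this
  exact this.symm

theorem D2 (n : ℕ) (h : n % 4 ≠ 1) : 2 ∣ coeff n D := by
  cases n with
  | zero => simp [D0]
  | succ n =>
    refine (ZMod.intCast_zmod_eq_zero_iff_dvd _ 2).1 ?_
    rw [← eq_intCast (Int.castRingHom (ZMod 2)), ← coeff_map, D, map_mul, map_X, coeff_succ_X_mul,
      map_expand, map_pow, show 8 = 2 * 2 * 2 from rfl, pow_mul, pow_mul, sq2, sq2,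
      ← expand_mul, ← expand_mul, coeff_expand_of_not_dvd _ _ _ (by omega)]

theorem u1 : ∃ w, u = 1 + (16 : ℤ) • (X * w) := by
  obtain ⟨s, hs⟩ : (X : ℤ⟦X⟧) ∣ sg ℤ 3 := X_dvd_iff.2 (by
    rw [← coeff_zero_eq_constantCoeff_apply, sg, coeff_mk]
    simp)
  refine ⟨15 * X ^ 2 * expand 3 three_ne_zero s, ?_⟩
  rw [u, E4, Es_eq, hs, map_add, map_one, map_mul, map_mul, expand_X, map_intCast, zsmul_eq_mul]
  push_cast
  ring

theorem u3 (n : ℕ) (h : ¬ 3 ∣ n) : coeff n u = 0 := coeff_expand_of_not_dvd _ _ _ h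

theorem gr : ∃ A : ℕ, ∀ n : ℕ, |coeff n D| ≤ ((n : ℤ) + 2) ^ A ∧ |coeff n u| ≤ ((n : ℤ) + 2) ^ A := by
  obtain ⟨A, hA⟩ := growth_int (w := 4) mf_D sp_D
  obtain ⟨B, hB⟩ := growth_int (w := 4) mf_u sp_u
  have h : ∀ n : ℕ, (1 : ℤ) ≤ n + 2 := fun n => by omega
  exact ⟨A + B, fun n => ⟨(hA n).trans (pow_le_pow_right₀ (h n) (by omega)),
    (hB n).trans (pow_le_pow_right₀ (h n) (by omega))⟩⟩

end Et

end Vale.Agent.P022K.UC
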