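import Vale.Agent.P022K.UC.Had
import Vale.Agent.P022K.UC.Alg3
import Mathlib.NumberTheory.ModularForms.Bounds

/-!
# P022K, block UC: the determinant of the family `u ^ (a - i) D ^ i`
-/

set_option autoImplicit false
set_option linter.all false

open PowerSeries UpperHalfPlane CongruenceSubgroup
open scoped MatrixGroups ModularForm

noncomputable section

namespace Vale.Agent.P022K.UC.Hd

open Vale.Agent.P022.H218.L3 Hm

/-- polynomial growth -/
def Pb (A : ℕ) (x : ℤ⟦X⟧) : Prop := ∀ n, |coeff n x| ≤ ((n : ℤ) + 2) ^ A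

theorem Pb.mono {A B : ℕ} {x : ℤ⟦X⟧} (h : Pb A x) (k : A ≤ B) : Pb B x := fun n =>
  (h n).trans (pow_le_pow_right₀ (by omega) k)

theorem Pb.mul {A B : ℕ} {x y : ℤ⟦X⟧} (h : Pb A x) (k : Pb B y) : Pb (A + B + 1) (x * y) :=
  fun n => by
    rw [coeff_mul]
    refine (Finset.abs_sum_le_sum_abs _ _).trans ((Finset.sum_le_card_nsmul _ _
      (((n : ℤ) + 2) ^ (A + B)) fun p hp => ?_).trans ?_)
    · have := Finset.HasAntidiagonal.mem_antidiagonal.1 hp
      rw [abs_mul, pow_add]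
      exact mul_le_mul ((h _).trans (pow_le_pow_left₀ (by positivity) (by omega) _))
        ((k _).trans (pow_le_pow_left₀ (by positivity) (by omega) _)) (abs_nonneg _) (by positivity)
    · rw [Finset.Nat.card_antidiagonal, nsmul_eq_mul, pow_succ']
      exact mul_le_mul_of_nonneg_right (by push_cast; omega) (by positivity)

theorem Pb.pow {A : ℕ} {x : ℤ⟦X⟧} (h : Pb A x) (k : ℕ) : Pb (k * (A + 1)) (x ^ k) := by
  induction k with
  | zero =>
    intro n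
    rw [pow_zero, coeff_one]
    split_ifs <;> simp
  | succ k ih =>
    rw [pow_succ, Nat.succ_mul, ← add_assoc]
    exact ih.mul h

theorem tri {K ι : Type*} [Field K] (g : ι → K⟦X⟧) (p : ι → ℕ) (hp : Function.Injective p)
    (h1 : ∀ i, coeff (p i) (g i) ≠ 0) (h0 : ∀ i, ∀ n < p i, coeff n (g i) = 0) :
    LinearIndependent K g := by
  classical
  refine linearIndependent_iff'.2 fun s c hc i hi => ?_
  by_contra k
  obtain ⟨j, hj, hm⟩ := (s.filter (c · ≠ 0)).exists_min_image p ⟨i, Finset.mem_filter.2 ⟨hi, k⟩⟩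
  obtain ⟨j1, j2⟩ := Finset.mem_filter.1 hj
  have := congrArg (coeff (p j)) hc
  rw [map_sum, Finset.sum_eq_single_of_mem j j1, map_smul, map_zero, smul_eq_mul] at this
  · exact mul_ne_zero j2 (h1 j) this
  · intro b hb e
    rw [map_smul, smul_eq_mul]
    by_cases hc : c b = 0
    · rw [hc, zero_mul]
    · rw [h0 b _ ((hm b (Finset.mem_filter.2 ⟨hb, hc⟩)).lt_of_ne fun k => e (hp k).symm), mul_zero]

theorem lead {u D : ℤ⟦X⟧} (hu : coeff 0 u = 1) (h0 : coeff 0 D = 0) (h1 : coeff 1 D = 1)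
    (k i : ℕ) : coeff i (u ^ k * D ^ i) = 1 ∧ ∀ n < i, coeff n (u ^ k * D ^ i) = 0 := by
  obtain ⟨E, rfl⟩ : X ∣ D := X_dvd_iff.2 (by simpa using h0)
  rw [coeff_succ_X_mul] at h1
  rw [mul_pow, mul_left_comm]
  refine ⟨?_, fun n hn => by rw [coeff_X_pow_mul', if_neg (by omega)]⟩
  rw [coeff_zero_eq_constantCoeff] at hu h1
  rw [coeff_X_pow_mul', if_pos le_rfl, Nat.sub_self, coeff_zero_eq_constantCoeff, map_mul, map_pow,
    map_pow, hu, h1, one_pow, one_pow, one_mul]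

theorem num {S A d W : ℕ} (hd : d ≤ W ^ 2) :
    (d * (S * (W + 2) ^ 5 + 2) ^ (W + A * (W + 1))) ^ d ≤
      (W + 2) ^ (((S + 6) * (A + 1) + 2) * (W + 1) * d) := by
  have h2 : S + 1 ≤ (W + 2) ^ S := (Nat.lt_two_pow_self).trans_le (Nat.pow_le_pow_left (by omega) _)
  have h3 : 2 ≤ (W + 2) ^ 5 := le_trans (by omega) (Nat.le_self_pow (by norm_num) (W + 2))
  have h4 : S * (W + 2) ^ 5 + 2 ≤ (W + 2) ^ (S + 6) := by
    calc S * (W + 2) ^ 5 + 2 ≤ (S + 1) * (W + 2) ^ 5 := by nlinarith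
      _ ≤ (W + 2) ^ S * (W + 2) ^ 5 := Nat.mul_le_mul_right _ h2
      _ ≤ (W + 2) ^ (S + 6) := by
        rw [← pow_add]
        exact Nat.pow_le_pow_right (by omega) (by omega)
  rw [pow_mul _ _ d]
  refine Nat.pow_le_pow_left ?_ _
  calc d * (S * (W + 2) ^ 5 + 2) ^ (W + A * (W + 1))
      ≤ (W + 2) ^ 2 * ((W + 2) ^ (S + 6)) ^ (W + A * (W + 1)) :=
        Nat.mul_le_mul (hd.trans (Nat.pow_le_pow_left (by omega) _)) (Nat.pow_le_pow_left h4 _)
    _ ≤ _ := by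
      rw [← pow_mul, ← pow_add]
      refine Nat.pow_le_pow_right (by omega) ?_
      nlinarith [Nat.zero_le S, Nat.zero_le W, Nat.zero_le (S * W), Nat.zero_le (A * W)]

theorem growth {N a : ℕ} [NeZero N] {x : ℂ⟦X⟧} (h : x ∈ SM (Gamma0 N) a) :
    ∃ A : ℕ, ∀ n, ‖coeff n x‖ ≤ ((n : ℝ) + 2) ^ A := by
  obtain ⟨F, h1, h2⟩ := h
  have h3 := ModularFormClass.qExpansion_isBigO (by positivity) (Ab.toMF h1)
  rw [strictWidthInfty_Gamma0] at h3
  have e : qExpansion 1 (Ab.toMF h1) = x := Sp.uniq (fun τ => ModularForm.hasSum_qExpansion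
    (Ab.toMF h1) one_pos (strictWidthInfty_Gamma0 N ▸ Subgroup.strictWidthInfty_mem_strictPeriods _)
    τ) h2
  rw [e] at h3
  obtain ⟨C, -, h4⟩ := Asymptotics.bound_of_isBigO_nat_atTop h3
  obtain ⟨B, hB⟩ := pow_unbounded_of_one_lt (max C ‖coeff 0 x‖) (one_lt_two (α := ℝ))
  refine ⟨B + 2 * a, fun n => ?_⟩
  have k1 : (2 : ℝ) ^ B ≤ ((n : ℝ) + 2) ^ B := pow_le_pow_left₀ zero_le_two (by simp) _
  rw [pow_add]
  rcases n.eq_zero_or_pos with rfl | hn
  · exact ((le_max_right _ _).trans (hB.le.trans k1)).trans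
      (le_mul_of_one_le_right (by positivity) (one_le_pow₀ (by norm_num)))
  · refine (h4 (zpow_ne_zero _ (by positivity))).trans (mul_le_mul
      ((le_max_left _ _).trans (hB.le.trans k1)) ?_ (norm_nonneg _) (by positivity))
    rw [show 2 * (a : ℤ) = ((2 * a : ℕ) : ℤ) by push_cast; ring, zpow_natCast, norm_pow,
      Real.norm_natCast]
    exact pow_le_pow_left₀ (by positivity) (by simp) _

theorem pb_of {N a : ℕ} [NeZero N] {x : ℤ⟦X⟧}
    (h : PowerSeries.map (Int.castRingHom ℂ) x ∈ SM (Gamma0 N) a) : ∃ A, Pb A x :=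
  (growth h).imp fun A k n => by
    have := k n
    rw [coeff_map, eq_intCast, Complex.norm_intCast] at this
    exact_mod_cast this

theorem isMF_of {Γ : Subgroup SL(2, ℤ)} [Γ.FiniteIndex] {k : ℤ} {c : ℕ → ℂ} {F : ℍ → ℂ} {A : ℕ}
    (hF : Sm c F) (hc : ∀ n, ‖c n‖ ≤ ((n : ℝ) + 2) ^ A) (h : ∀ γ ∈ Γ, F ∣[k] γ = F) :
    IsMF Γ k F := ⟨hF.hol, h, fun γ => by
  obtain ⟨M, hM, -, hm⟩ := Subgroup.exists_pow_mem_of_index_ne_zero
    (Subgroup.FiniteIndex.index_ne_zero (H := Γ)) (γ * ModularGroup.T * γ⁻¹)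
  refine Ab.bdd_of hF hc γ hM.ne' ?_
  rw [conj_pow] at hm
  rw [← SlashAction.slash_mul, zpow_natCast, show γ * ModularGroup.T ^ M =
    γ * ModularGroup.T ^ M * γ⁻¹ * γ by group, SlashAction.slash_mul, h _ hm]⟩

/-- the odd part -/
def od {R : Type*} [CommRing R] (x : R⟦X⟧) : R⟦X⟧ :=
  PowerSeries.mk fun n => if Odd n then coeff n x else 0

theorem od_mem {N a : ℕ} [NeZero N] {x : ℂ⟦X⟧} (h : x ∈ SM (Gamma0 N) a) :
    od x ∈ SM (Gamma0 (4 * N)) a := by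
  obtain ⟨A, hA⟩ := growth h
  obtain ⟨F, h1, h2⟩ := h
  have hp : ∀ τ : ℍ, 0 < ((τ : ℂ) + 2⁻¹).im := fun τ => by simpa using τ.im_pos
  let G : ℍ → ℂ := fun τ => F (ofComplex (τ + 2⁻¹))
  have h3 : Sp (PowerSeries.mk fun n => (-1) ^ n * coeff n x) G := fun τ => by
    have e : Rm.qq (ofComplex (τ + 2⁻¹)) = -Rm.qq τ := by
      rw [Rm.qq, Ab.coe_of (hp τ), Function.Periodic.qParam, Rm.qq, Function.Periodic.qParam,
        ← Complex.exp_add_pi_mul_I]
      congr 1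
      push_cast
      ring
    refine Rm.hs_congr (h2 (ofComplex (τ + 2⁻¹))) fun n => ?_
    change coeff n _ • Rm.qq τ ^ n = coeff n x • Rm.qq _ ^ n
    rw [e, coeff_mk, neg_pow (Rm.qq τ), smul_eq_mul, smul_eq_mul]
    ring
  have h4 : od x = (2 : ℂ)⁻¹ • (x - PowerSeries.mk fun n => (-1) ^ n * coeff n x) := by
    ext n
    rw [od, coeff_mk, map_smul, map_sub, coeff_mk, smul_eq_mul]
    split_ifs with k
    · rw [k.neg_one_pow]
      ring
    · rw [(Nat.not_odd_iff_even.1 k).neg_one_pow]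
      ring
  rw [h4]
  refine Submodule.smul_mem _ _ (sub_mem ⟨F, h1.mono fun γ hγ => ?_, h2⟩
    ⟨G, isMF_of (A := A) h3 (fun n => by simpa using hA n) fun γ hγ => ?_, h3⟩)
  · rw [Gamma0_mem, ZMod.intCast_zmod_eq_zero_iff_dvd] at hγ ⊢
    exact dvd_trans (by push_cast; exact dvd_mul_left _ _) hγ
  · rw [Gamma0_mem, ZMod.intCast_zmod_eq_zero_iff_dvd] at hγ
    obtain ⟨c, hc⟩ := hγ
    push_cast at hc
    have hd := Ab.det_eq γ
    obtain ⟨e, he⟩ : 2 ∣ γ 1 1 - γ 0 0 := by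
      have : Odd (γ 0 0 * γ 1 1) := ⟨γ 0 1 * (2 * N * c), by rw [hc] at hd; linear_combination hd⟩
      exact ((Int.odd_mul.1 this).2.sub_odd (Int.odd_mul.1 this).1).two_dvd
    let δ := Ab.sl (γ 0 0 + 2 * N * c) (γ 0 1 + e - N * c) (γ 1 0) (γ 1 1 - 2 * N * c) (by
      rw [hc] at hd ⊢
      linear_combination hd + (2 * N * c) * he)
    have hδ : δ ∈ Ab.stab (2 * (a : ℤ)) F := h1.slash δ (by
      rw [Gamma0_mem, ZMod.intCast_zmod_eq_zero_iff_dvd]
      exact ⟨4 * c, hc.trans (by ring)⟩)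
    refine Ab.mem_stab.2 fun τ => ?_
    have k1 := Ab.mem_stab.1 hδ (ofComplex (τ + 2⁻¹))
    have k2 := Ab.coe_smul_mul γ τ
    have c1 : ((γ 1 0 : ℤ) : ℂ) = 4 * N * c := by exact_mod_cast hc
    have c2 : ((γ 1 1 : ℤ) : ℂ) - γ 0 0 = 2 * e := by exact_mod_cast he
    obtain ⟨d1, d2, d3, d4⟩ : δ 0 0 = γ 0 0 + 2 * N * c ∧ δ 0 1 = γ 0 1 + e - N * c ∧
      δ 1 0 = γ 1 0 ∧ δ 1 1 = γ 1 1 - 2 * N * c := ⟨rfl, rfl, rfl, rfl⟩
    rw [Ab.smul_eq δ _ (hp (γ • τ)) (by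
      rw [d1, d2, d3, d4, Ab.coe_of (hp τ)]
      push_cast
      rw [c1] at k2 ⊢
      linear_combination k2 + 2⁻¹ * c2), d3, d4, Ab.coe_of (hp τ)] at k1
    refine k1.trans ?_
    congr 2
    push_cast
    rw [c1]
    ring

theorem SM.pow {Γ : Subgroup SL(2, ℤ)} {a : ℕ} {x : ℂ⟦X⟧} (h : x ∈ SM Γ a) (k : ℕ) :
    x ^ k ∈ SM Γ (k * a) := by
  induction k with
  | zero => simpa using SM.one
  | succ k ih =>
    rw [pow_succ, Nat.succ_mul]
    exact SM.mul ih h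

theorem supp {u D : ℤ⟦X⟧} (hu : ∀ n, n % 3 ≠ 0 → coeff n u = 0)
    (hD : ∀ n, n % 3 ≠ 1 → coeff n D = 0) (k i n : ℕ) (h : n % 3 ≠ i % 3) :
    coeff n (u ^ k * D ^ i) = 0 := by
  have mul : ∀ (x y : ℤ⟦X⟧) (r s : ℕ), (∀ n, n % 3 ≠ r % 3 → coeff n x = 0) →
      (∀ n, n % 3 ≠ s % 3 → coeff n y = 0) → ∀ n, n % 3 ≠ (r + s) % 3 → coeff n (x * y) = 0 :=
    fun x y r s hx hy n hn => by
      rw [coeff_mul]
      refine Finset.sum_eq_zero fun p hp => ?_
      have := Finset.HasAntidiagonal.mem_antidiagonal.1 hp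
      by_cases k : p.1 % 3 = r % 3
      · rw [hy _ (by omega), mul_zero]
      · rw [hx _ k, zero_mul]
  have pw : ∀ (x : ℤ⟦X⟧) (r : ℕ), (∀ n, n % 3 ≠ r % 3 → coeff n x = 0) →
      ∀ k n, n % 3 ≠ (k * r) % 3 → coeff n (x ^ k) = 0 := fun x r hx k => by
    induction k with
    | zero =>
      intro n hn
      rw [pow_zero, coeff_one, if_neg (by omega)]
    | succ k ih =>
      rw [pow_succ, Nat.succ_mul]
      exact mul _ _ _ _ ih hx
  exact mul _ _ _ _ (pw u 0 hu k) (pw D 1 hD i) n (by simpa using h)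

/-- the exponent of `D` -/
def fi {L : ℕ} (j : Fin L × Fin L) : ℕ := 6 * j.2 + 1

/-- a quarter of the weight -/
def fa {L : ℕ} (j : Fin L × Fin L) : ℕ := j.1 + fi j

/-- **FAM**: the determinant of the family -/
theorem fam {N : ℕ} [NeZero N] {u D : ℤ⟦X⟧}
    (mu : PowerSeries.map (Int.castRingHom ℂ) u ∈ SM (Gamma0 N) 2)
    (mD : PowerSeries.map (Int.castRingHom ℂ) D ∈ SM (Gamma0 N) 2) (u0 : coeff 0 u = 1)
    (hu : ∀ n, n % 3 ≠ 0 → coeff n u = 0) (h1 : coeff 1 D = 1)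
    (hD : ∀ n, n % 3 ≠ 1 → coeff n D = 0) : ∃ C : ℕ, ∀ W, 14 ≤ W →
    W ^ 2 ≤ C * Fintype.card (Fin (W / 14) × Fin (W / 14)) ∧
    (∀ j : Fin (W / 14) × Fin (W / 14), 2 * fa j - 1 ≤ W) ∧
    ∃ ν : Fin (W / 14) × Fin (W / 14) → ℕ, (∀ k, (ν k).Coprime 6) ∧
      (Matrix.of fun k j => (ν k : ℤ) ^ (W - (2 * fa j - 1)) *
        coeff (ν k) (u ^ (fa j - fi j) * D ^ fi j)).det ≠ 0 ∧
      |(Matrix.of fun k j => (ν k : ℤ) ^ (W - (2 * fa j - 1)) *
        coeff (ν k) (u ^ (fa j - fi j) * D ^ fi j)).det| ≤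
        (W + 2) ^ (C * (W + 1) * Fintype.card (Fin (W / 14) × Fin (W / 14))) := by
  obtain ⟨A, hA⟩ := pb_of mu
  obtain ⟨B, hB⟩ := pb_of mD
  refine ⟨(Sb (Gamma0 (4 * N)) + 6) * (A + B + 3 + 1) + 2 + 784, fun W hW => ?_⟩
  obtain ⟨L, hL⟩ : ∃ L, L = W / 14 := ⟨_, rfl⟩
  rw [← hL]
  have hc : Fintype.card (Fin L × Fin L) = L ^ 2 := by simp [sq]
  have hw : ∀ j : Fin L × Fin L, 2 * fa j - 1 ≤ W := fun j => by
    have := j.1.2
    have := j.2.2
    simp only [fa, fi]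
    omega
  refine ⟨?_, hw, ?_⟩
  · rw [hc]
    exact ((Nat.pow_le_pow_left (by omega : W ≤ 28 * L) 2).trans_eq (by ring)).trans
      (Nat.mul_le_mul_right _ (Nat.le_add_left 784 _))
  have em : ∀ x : ℤ⟦X⟧, PowerSeries.map (Int.castRingHom ℂ) (od x) =
      od (PowerSeries.map (Int.castRingHom ℂ) x) := fun x => by
    ext n
    simp only [od, coeff_map, coeff_mk]
    split_ifs <;> simp
  obtain ⟨ν, -, k2, k3⟩ := had (Γ := Gamma0 (4 * N)) (A := (A + B + 3) * (W + 1)) _ hw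
    (fun j => od (u ^ (fa j - fi j) * D ^ fi j)) (fun j => by
      rw [em, map_mul, map_pow, map_pow]
      convert od_mem (SM.mul (SM.pow mu _) (SM.pow mD _)) using 2
      simp only [fa, fi]
      omega)
    (fun m => tri _ (fun j => fi j.1) (fun j j' e => by
        have a1 := j.2
        have a2 := j'.2
        simp only [fa, fi] at a1 a2 e
        exact Subtype.ext (Prod.ext (Fin.ext (by omega)) (Fin.ext (by omega))))
      (fun j => by
        rw [coeff_map, od, coeff_mk, if_pos ⟨3 * j.1.2, by rw [fi]; ring⟩,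
          (lead u0 (hD 0 (by norm_num)) h1 _ _).1, map_one]
        exact one_ne_zero)
      fun j n hn => by
        rw [coeff_map, od, coeff_mk, (lead u0 (hD 0 (by norm_num)) h1 _ _).2 n hn, ite_self,
          map_zero])
    fun j n => by
      rw [od, coeff_mk]
      split_ifs
      · refine (((hA.pow _).mul (hB.pow _)).mono ?_) n
        have a1 : fa j - fi j ≤ W := by have := hw j; simp only [fa, fi] at this ⊢; omega
        have a2 : fi j ≤ W := by have := hw j; simp only [fa, fi] at this ⊢; omega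
        nlinarith [Nat.mul_le_mul_right (A + 1) a1, Nat.mul_le_mul_right (B + 1) a2]
      · rw [abs_zero]
        positivity
  have k4 : ∀ k, ∃ j, coeff (ν k) (od (u ^ (fa j - fi j) * D ^ fi j)) ≠ 0 := fun k => by
    by_contra k5
    exact k2 (Matrix.det_eq_zero_of_row_eq_zero k fun j => by
      rw [Matrix.of_apply, not_not.1 (not_exists.1 k5 j), mul_zero])
  have k5 : ∀ k, Odd (ν k) ∧ ν k % 3 = 1 := fun k => by
    obtain ⟨j, hj⟩ := k4 k
    rw [od, coeff_mk] at hj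
    split_ifs at hj with ho
    · exact ⟨ho, by_contra fun e => hj (supp hu hD _ _ _ (by rw [fi]; omega))⟩
    · exact absurd rfl hj
  simp only [od, coeff_mk, fun k => (k5 k).1, if_true] at k2 k3
  refine ⟨ν, fun k => Nat.Coprime.mul_right (m := 2) (n := 3) (k5 k).1.coprime_two_right
    ((Nat.Prime.coprime_iff_not_dvd Nat.prime_three).2 (by have := (k5 k).2; omega)).symm,
    k2, k3.trans ?_⟩
  have k6 := (num (S := Sb (Gamma0 (4 * N))) (A := A + B + 3) (W := W)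
    (hc.le.trans (Nat.pow_le_pow_left (by omega) 2))).trans (Nat.pow_le_pow_right (by omega)
    (Nat.mul_le_mul_right _ (Nat.mul_le_mul_right _ (Nat.le_add_right _ 784))))
  exact_mod_cast k6

end Vale.Agent.P022K.UC.Hd
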