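import Vale.Agent.P022K.UC.AmSt

/-!
# P022K, block UC, row RAM: convergent `q`-series and Ramanujan's differential equations

* `Rm.th R` : the derivation `q d/dq` of `R⟦X⟧`; `Rm.E2 R`, `Rm.E4 R`, `Rm.E6 R` : the series over
  any commutative ring;
* `Sp f F` : the function `F` on the upper half plane is the sum of the power series `f`;
* `Rm.th_E2`, `Rm.th_E4`, `Rm.th_E6` : the three identities over any commutative ring.
-/

set_option autoImplicit false

open UpperHalfPlane ModularForm PowerSeries Derivative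
open scoped MatrixGroups ModularForm Manifold Real ENNReal NNReal

noncomputable section

namespace Vale.Agent.P022K.UC

open Vale.Agent.P022.H218.L3

/-- `F` is the sum of the power series `f` -/
def Sp (f : ℂ⟦X⟧) (F : ℍ → ℂ) : Prop := Sm (fun n => coeff n f) F

namespace Rm

section formal

variable {R S : Type*} [CommRing R] [CommRing S]

/-- the derivation `q d/dq` -/
def th (R : Type*) [CommRing R] : Derivation R R⟦X⟧ R⟦X⟧ :=
  (X : R⟦X⟧) • PowerSeries.derivative R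

theorem th_apply (f : R⟦X⟧) : th R f = X * PowerSeries.derivative R f := rfl

theorem coeff_th (f : R⟦X⟧) (n : ℕ) : coeff n (th R f) = n * coeff n f := by
  rw [th_apply]
  cases n with
  | zero => simp
  | succ n => rw [coeff_succ_X_mul, coeff_derivative]; push_cast; ring

theorem th_mul (f g : R⟦X⟧) : th R (f * g) = f * th R g + th R f * g := by
  rw [Derivation.leibniz, smul_eq_mul, smul_eq_mul, mul_comm g]

theorem map_th (φ : R →+* S) (f : R⟦X⟧) :
    PowerSeries.map φ (th R f) = th S (PowerSeries.map φ f) := by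
  ext n
  simp [coeff_th]

/-- the series `1 + c ∑ σ_r(n) q ^ n` -/
def Es (R : Type*) [CommRing R] (c : ℤ) (r : ℕ) : R⟦X⟧ :=
  PowerSeries.mk fun n => if n = 0 then 1 else (c : R) * (ArithmeticFunction.sigma r n : R)

theorem coeff_Es (c : ℤ) (r n : ℕ) : coeff n (Es R c r) =
    if n = 0 then 1 else (c : R) * (ArithmeticFunction.sigma r n : R) := by
  simp [Es]

theorem map_Es (φ : R →+* S) (c : ℤ) (r : ℕ) : PowerSeries.map φ (Es R c r) = Es S c r := by
  ext n
  rw [coeff_map, coeff_Es, coeff_Es]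
  split_ifs <;> simp

theorem cc_Es (c : ℤ) (r : ℕ) : constantCoeff (Es R c r) = 1 := by
  rw [← coeff_zero_eq_constantCoeff_apply, coeff_Es, if_pos rfl]

theorem cc_th (f : R⟦X⟧) : constantCoeff (th R f) = 0 := by
  rw [← coeff_zero_eq_constantCoeff_apply, coeff_th, Nat.cast_zero, zero_mul]

/-- the expansion of `E₂` -/
abbrev E2 (R : Type*) [CommRing R] : R⟦X⟧ := Es R (-24) 1

/-- the expansion of `E₄` -/
abbrev E4 (R : Type*) [CommRing R] : R⟦X⟧ := Es R 240 3

/-- the expansion of `E₆` -/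
abbrev E6 (R : Type*) [CommRing R] : R⟦X⟧ := Es R (-504) 5

theorem e2_eq : e2 = E2 ℂ := by
  ext n
  simp [e2, Es]

theorem e4_eq : e4 = E4 ℂ := by
  ext n
  simp [e4, Es]

theorem e6_eq : e6 = E6 ℂ := by
  ext n
  simp [e6, Es]

end formal

theorem hs_congr {a b : ℕ → ℂ} {s : ℂ} (h : HasSum a s) (e : ∀ n, b n = a n) : HasSum b s :=
  funext e ▸ h

/-- the local parameter -/
abbrev qq (τ : ℍ) : ℂ := Function.Periodic.qParam (1 : ℝ) (τ : ℂ)

theorem norm_qq (τ : ℍ) : ‖qq τ‖ < 1 := Function.Periodic.norm_qParam_lt_one one_pos τ.im_pos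

theorem exists_qq {z : ℂ} (h0 : z ≠ 0) (h1 : ‖z‖ < 1) : ∃ τ : ℍ, qq τ = z :=
  ⟨⟨Function.Periodic.invQParam 1 z,
    Function.Periodic.im_invQParam_pos_of_norm_lt_one one_pos h1 h0⟩,
    Function.Periodic.qParam_right_inv one_ne_zero h0⟩

theorem ball {c : ℕ → ℂ} {F : ℍ → ℂ} (h : Sm c F) :
    HasFPowerSeriesOnBall (FormalMultilinearSeries.ofScalars ℂ c).sum
      (FormalMultilinearSeries.ofScalars ℂ c) 0 1 := by
  set p := FormalMultilinearSeries.ofScalars ℂ c with hp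
  have hrad : (1 : ℝ≥0∞) ≤ p.radius := by
    refine ENNReal.le_of_forall_nnreal_lt fun r hr => ?_
    have hr1 : (r : ℝ) < 1 := by exact_mod_cast hr
    refine p.le_radius_of_summable_norm ?_
    by_cases hr0 : r = 0
    · refine summable_of_ne_finset_zero (s := {0}) fun n hn => ?_
      rw [Finset.mem_singleton] at hn
      rw [hr0, NNReal.coe_zero, zero_pow hn, mul_zero]
    · obtain ⟨τ, hτ⟩ := exists_qq (z := (r : ℝ)) (by exact_mod_cast hr0) (by
        rw [Complex.norm_real, Real.norm_of_nonneg (NNReal.coe_nonneg r)]; exact hr1)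
      refine (h τ).summable.norm.congr fun n => ?_
      change ‖c n • qq τ ^ n‖ = _
      rw [hτ, hp, FormalMultilinearSeries.ofScalars_norm, norm_smul, norm_pow, Complex.norm_real,
        Real.norm_of_nonneg (NNReal.coe_nonneg r)]
  exact (p.hasFPowerSeriesOnBall (lt_of_lt_of_le one_pos hrad)).mono one_pos hrad

theorem mem_ball {z : ℂ} (hz : ‖z‖ < 1) : z ∈ Metric.eball (0 : ℂ) 1 := by
  rw [Metric.mem_eball, edist_zero_right, ← ofReal_norm]
  rwa [← ENNReal.ofReal_one, ENNReal.ofReal_lt_ofReal_iff one_pos]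

theorem eq_sum {c : ℕ → ℂ} {F : ℍ → ℂ} (h : Sm c F) (τ : ℍ) :
    F τ = (FormalMultilinearSeries.ofScalars ℂ c).sum (qq τ) := by
  rw [← (h τ).tsum_eq, FormalMultilinearSeries.sum]
  exact tsum_congr fun n => (FormalMultilinearSeries.ofScalars_apply_eq c _ n).symm

theorem hasDeriv {c : ℕ → ℂ} {F : ℍ → ℂ} (h : Sm c F) (τ : ℍ) :
    HasDerivAt (F ∘ ofComplex) (deriv (FormalMultilinearSeries.ofScalars ℂ c).sum (qq τ) *
      (qq τ * (2 * π * Complex.I))) (τ : ℂ) := by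
  have hd := ((ball h).analyticAt_of_mem (mem_ball (norm_qq τ))).differentiableAt.hasDerivAt
  have hq : HasDerivAt (Function.Periodic.qParam (1 : ℝ)) (qq τ * (2 * π * Complex.I)) (τ : ℂ) := by
    have h1 : HasDerivAt (fun w : ℂ => 2 * π * Complex.I * w / ((1 : ℝ) : ℂ)) (2 * π * Complex.I)
        (τ : ℂ) := by
      simpa using (hasDerivAt_id (τ : ℂ)).const_mul (2 * π * Complex.I)
    exact h1.cexp
  refine (hd.comp (τ : ℂ) hq).congr_of_eventuallyEq ?_
  filter_upwards [isOpen_upperHalfPlaneSet.mem_nhds τ.im_pos] with w hw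
  rw [Function.comp_apply, ofComplex_apply_of_im_pos hw, eq_sum h]
  rfl

end Rm

open Rm

section series

variable {c : ℕ → ℂ} {f g : ℂ⟦X⟧} {F G : ℍ → ℂ}

theorem Sm.hol (h : Sm c F) : F ∈ Hol :=
  fun τ => UpperHalfPlane.mdifferentiableAt_iff.2 (hasDeriv h τ).differentiableAt

theorem Sm.bdd (h : Sm c F) : IsBoundedAtImInfty F :=
  isBoundedAtImInfty_of_hasSum_qExpansion one_pos h

theorem Sm.der (h : Sm c F) : Sm (fun n => n * c n) (D F) := by
  intro τ
  set p := FormalMultilinearSeries.ofScalars ℂ c with hp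
  have hπ : (2 * π * Complex.I : ℂ) ≠ 0 := Complex.two_pi_I_ne_zero
  have e : D F τ = qq τ * deriv p.sum (qq τ) := by
    rw [normalizedDerivOfComplex, (hasDeriv h τ).deriv, ← hp]
    field_simp
  have h2 := (ball h).fderiv.hasSum (mem_ball (norm_qq τ))
  rw [zero_add] at h2
  have h3 := (ContinuousLinearMap.apply ℂ ℂ (qq τ)).hasSum h2
  simp only [ContinuousLinearMap.apply_apply] at h3
  have h4 : fderiv ℂ p.sum (qq τ) (qq τ) = qq τ * deriv p.sum (qq τ) := by
    have := (fderiv ℂ p.sum (qq τ)).map_smul (qq τ) 1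
    rw [smul_eq_mul, mul_one] at this
    rw [this, smul_eq_mul]
    rfl
  rw [h4, ← e] at h3
  have h5 : HasSum (fun n : ℕ => (((n + 1 : ℕ) : ℂ) * c (n + 1)) • qq τ ^ (n + 1)) (D F τ) := by
    refine hs_congr h3 fun n => ?_
    rw [p.derivSeries_apply_diag n (qq τ), hp, FormalMultilinearSeries.ofScalars_apply_eq]
    simp only [smul_eq_mul, nsmul_eq_mul]
    ring
  have h6 := (hasSum_nat_add_iff (f := fun n : ℕ => ((n : ℂ) * c n) • qq τ ^ n) 1).1 h5
  simpa using h6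

theorem Sm.uniq {c' : ℕ → ℂ} (h : Sm c F) (h' : Sm c' F) : c = c' := by
  have h1 := (ball h).hasFPowerSeriesAt
  have h2 := (ball h').hasFPowerSeriesAt
  have h3 : (FormalMultilinearSeries.ofScalars ℂ c).sum =ᶠ[nhds 0]
      (FormalMultilinearSeries.ofScalars ℂ c').sum := by
    refine (h1.continuousAt.eventuallyEq_nhds_iff_eventuallyEq_nhdsNE h2.continuousAt).1 ?_
    filter_upwards [self_mem_nhdsWithin,
      mem_nhdsWithin_of_mem_nhds (Metric.ball_mem_nhds (0 : ℂ) one_pos)] with z h0 hz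
    obtain ⟨τ, rfl⟩ := exists_qq h0 (mem_ball_zero_iff.1 hz)
    rw [← eq_sum h, ← eq_sum h']
  have h4 := (h1.congr h3).eq_formalMultilinearSeries h2
  funext n
  simpa using congrArg (FormalMultilinearSeries.coeff · n) h4

theorem Sm.fun_eq (h : Sm c F) (h' : Sm c G) : F = G := funext fun τ => (h τ).unique (h' τ)

theorem sp_mk : Sp (PowerSeries.mk c) F ↔ Sm c F := by simp [Sp]

theorem Sp.uniq (h : Sp f F) (h' : Sp g F) : f = g :=
  PowerSeries.ext fun n => congrFun (Sm.uniq h h') n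

theorem Sp.der (h : Sp f F) : Sp (th ℂ f) (D F) := by
  simpa [Sp, coeff_th] using Sm.der h

theorem Sp.add (h : Sp f F) (h' : Sp g G) : Sp (f + g) (F + G) := fun τ => by
  simpa [add_mul] using (h τ).add (h' τ)

theorem Sp.smul (a : ℂ) (h : Sp f F) : Sp (a • f) (a • F) := fun τ => by
  simpa [mul_assoc] using (h τ).mul_left a

theorem Sp.neg (h : Sp f F) : Sp (-f) (-F) := by simpa using h.smul (-1)

theorem Sp.sub (h : Sp f F) (h' : Sp g G) : Sp (f - g) (F - G) := by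
  simpa [sub_eq_add_neg] using h.add h'.neg

theorem Sp.mul (h : Sp f F) (h' : Sp g G) : Sp (f * g) (F * G) := fun τ => by
  have h1 := (h τ).summable.norm
  have h2 := (h' τ).summable.norm
  have h3 := tsum_mul_tsum_eq_tsum_sum_antidiagonal_of_summable_norm h1 h2
  have h4 := (summable_norm_sum_mul_antidiagonal_of_summable_norm h1 h2).of_norm.hasSum
  rw [← h3, (h τ).tsum_eq, (h' τ).tsum_eq] at h4
  refine hs_congr h4 fun n => ?_
  simp only [coeff_mul, smul_eq_mul, Finset.sum_mul]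
  refine Finset.sum_congr rfl fun p hp => ?_
  rw [← Finset.HasAntidiagonal.mem_antidiagonal.1 hp, pow_add]
  ring

theorem Sp.const (a : ℂ) : Sp (C a) (fun _ => a) := fun τ => by
  have := hasSum_single (f := fun n : ℕ => coeff n (C a : ℂ⟦X⟧) • qq τ ^ n) 0
    (fun n hn => by simp [coeff_C, hn])
  simpa using this

theorem Sp.one : Sp 1 1 := by
  have := Sp.const 1
  rwa [map_one] at this

theorem Sp.zero : Sp 0 0 := by
  have := Sp.const 0
  rwa [map_zero] at this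

theorem Sp.pow (h : Sp f F) (n : ℕ) : Sp (f ^ n) (F ^ n) := by
  induction n with
  | zero => simpa using Sp.one
  | succ n ih => simpa [pow_succ] using ih.mul h

theorem Sp.sum {ι : Type*} (s : Finset ι) {f : ι → ℂ⟦X⟧} {F : ι → ℍ → ℂ}
    (h : ∀ i ∈ s, Sp (f i) (F i)) : Sp (∑ i ∈ s, f i) (∑ i ∈ s, F i) := by
  classical
  induction s using Finset.induction_on with
  | empty => simpa using Sp.zero
  | insert a s ha ih =>
    rw [Finset.sum_insert ha, Finset.sum_insert ha]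
    exact (h a (Finset.mem_insert_self a s)).add (ih fun i hi => h i (Finset.mem_insert_of_mem hi))

theorem Sp.eq_zero_iff (h : Sp f F) : f = 0 ↔ F = 0 :=
  ⟨fun e => Sm.fun_eq h (e ▸ Sp.zero), fun e => h.uniq (e ▸ Sp.zero)⟩

/-- a modular form of level one is the sum of its expansion -/
theorem sp_qExpansion {k : ℤ} (F : ModularForm 𝒮ℒ k) : Sp (qExpansion 1 F) F := fun τ =>
  ModularForm.hasSum_qExpansion F one_pos (by simp) τ

/-- a convergent series which is invariant under `SL(2, ℤ)` as a bundled form -/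
def Sp.form (h : Sp f F) (k : ℤ) (hs : ∀ γ : SL(2, ℤ), F ∣[k] γ = F) : ModularForm 𝒮ℒ k where
  toFun := F
  slash_action_eq' := by
    rintro _ ⟨γ, rfl⟩
    exact hs γ
  holo' := Sm.hol h
  bdd_at_cusps' := by
    intro c hc
    rw [Subgroup.IsArithmetic.isCusp_iff_isCusp_SL2Z] at hc
    rw [OnePoint.isBoundedAt_iff_forall_SL2Z hc]
    intro γ _
    rw [hs γ]
    exact Sm.bdd h

/-- the Sturm bound in level one -/
theorem Sp.sturm (h : Sp f F) {k : ℕ} (hs : ∀ γ : SL(2, ℤ), F ∣[(k : ℤ)] γ = F)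
    (h0 : ∀ n ≤ k / 12, coeff n f = 0) : f = 0 := by
  have e : qExpansion 1 (h.form k hs) = f := (sp_qExpansion (h.form k hs)).uniq h
  have : h.form k hs = 0 := by
    refine ModularForm.sturm_bound_levelOne_nat ?_
    rw [e]
    refine lt_of_lt_of_le ?_ (PowerSeries.nat_le_order f (k / 12 + 1) fun i hi => h0 i (by omega))
    exact_mod_cast Nat.lt_succ_self _
  rw [← e, this]
  exact qExpansion_zero 1

end series

namespace Rm

theorem sp_E2 : Sp (E2 ℂ) EisensteinSeries.E2 := fun τ => by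
  have := EisensteinSeries.hasSum_qExpansion_E2 (z := τ)
  simpa [Function.Periodic.qParam, coeff_Es] using this

theorem sp_E4 : Sp (E4 ℂ) E₄ := by
  have e : qExpansion 1 (E₄ : ℍ → ℂ) = E4 ℂ := by
    ext n
    rw [EisensteinSeries.E_qExpansion_coeff (k := 4) (by norm_num) ⟨2, rfl⟩, coeff_Es]
    have : bernoulli 4 = -1 / 30 := by
      rw [bernoulli_eq_bernoulli'_of_ne_one (by norm_num), bernoulli'_four]
    rw [this]
    norm_num
  exact e ▸ sp_qExpansion E₄

theorem sp_E6 : Sp (E6 ℂ) E₆ := by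
  have e : qExpansion 1 (E₆ : ℍ → ℂ) = E6 ℂ := by
    ext n
    rw [EisensteinSeries.E_qExpansion_coeff (k := 6) (by norm_num) ⟨3, rfl⟩, coeff_Es]
    have : bernoulli 6 = 1 / 42 := by decide +kernel
    rw [this]
    norm_num
  exact e ▸ sp_qExpansion E₆

theorem E4_slash (γ : SL(2, ℤ)) : (E₄ : ℍ → ℂ) ∣[(4 : ℤ)] γ = E₄ :=
  E₄.slash_action_eq' _ ⟨γ, rfl⟩

theorem E6_slash (γ : SL(2, ℤ)) : (E₆ : ℍ → ℂ) ∣[(6 : ℤ)] γ = E₆ :=
  E₆.slash_action_eq' _ ⟨γ, rfl⟩

/-- the Serre derivative of a convergent series -/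
theorem sp_serre {f : ℂ⟦X⟧} {F : ℍ → ℂ} (h : Sp f F) (k : ℂ) :
    Sp (th ℂ f - (k * 12⁻¹) • (E2 ℂ * f)) (serreDerivative k F) := by
  convert h.der.sub ((sp_E2.mul h).smul (k * 12⁻¹)) using 1
  funext τ
  simp [mul_assoc]

theorem th_E4_C : 3 * th ℂ (E4 ℂ) = E2 ℂ * E4 ℂ - E6 ℂ := by
  have h := ((sp_serre sp_E4 (4 : ℤ)).smul 3).add sp_E6
  have h0 := h.sturm (k := 6) (fun γ => by
    have := serreDerivative_slash_invariant (k := 4) (Sm.hol sp_E4) (E4_slash γ)
    rw [SlashAction.add_slash, SL_smul_slash]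
    exact congrArg₂ (· + ·) (congrArg _ this) (E6_slash γ)) (fun n hn => by
      obtain rfl : n = 0 := by omega
      simp [cc_th, cc_Es]
      norm_num)
  have e : ((3 : ℂ) • (th ℂ (E4 ℂ) - (((4 : ℤ) : ℂ) * 12⁻¹) • (E2 ℂ * E4 ℂ))) =
      3 * th ℂ (E4 ℂ) - E2 ℂ * E4 ℂ := by
    rw [smul_sub, smul_smul, show (3 : ℂ) * (((4 : ℤ) : ℂ) * 12⁻¹) = 1 by norm_num, one_smul,
      Algebra.smul_def, map_ofNat]
  rw [e] at h0
  linear_combination h0

theorem th_E6_C : 2 * th ℂ (E6 ℂ) = E2 ℂ * E6 ℂ - E4 ℂ ^ 2 := by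
  have h := ((sp_serre sp_E6 (6 : ℤ)).smul 2).add (sp_E4.mul sp_E4)
  have h0 := h.sturm (k := 8) (fun γ => by
    have := serreDerivative_slash_invariant (k := 6) (Sm.hol sp_E6) (E6_slash γ)
    have h2 := mul_slash_SL2 4 4 γ E₄ E₄
    rw [E4_slash] at h2
    rw [SlashAction.add_slash, SL_smul_slash]
    exact congrArg₂ (· + ·) (congrArg _ this) h2) (fun n hn => by
      obtain rfl : n = 0 := by omega
      simp [cc_th, cc_Es]
      norm_num)
  have e : ((2 : ℂ) • (th ℂ (E6 ℂ) - (((6 : ℤ) : ℂ) * 12⁻¹) • (E2 ℂ * E6 ℂ))) =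
      2 * th ℂ (E6 ℂ) - E2 ℂ * E6 ℂ := by
    rw [smul_sub, smul_smul, show (2 : ℂ) * (((6 : ℤ) : ℂ) * 12⁻¹) = 1 by norm_num, one_smul,
      Algebra.smul_def, map_ofNat]
  rw [e] at h0
  linear_combination h0

/-- the transformation law of `E₂` -/
theorem E2_slash (γ : SL(2, ℤ)) : EisensteinSeries.E2 ∣[(2 : ℤ)] γ = EisensteinSeries.E2 +
    (12 * (2 * π * Complex.I)⁻¹ * (γ 1 0 : ℂ)) • ((fun _ => 1 : ℍ → ℂ) ∣[(1 : ℤ)] γ) := by
  have hπ : (π : ℂ) ≠ 0 := by exact_mod_cast Real.pi_ne_zero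
  rw [EisensteinSeries.E2_slash_action]
  funext z
  have hz := denom_ne_zero (γ : GL (Fin 2) ℝ) z
  simp only [Pi.sub_apply, Pi.add_apply, Pi.smul_apply, smul_eq_mul, EisensteinSeries.D2,
    riemannZeta_two, SL_slash_apply, zpow_neg, zpow_one]
  field_simp
  linear_combination (-12 * (γ 1 0 : ℂ)) * Complex.I_sq

theorem R2_slash (γ : SL(2, ℤ)) :
    ((12 : ℂ) • D EisensteinSeries.E2 - EisensteinSeries.E2 * EisensteinSeries.E2) ∣[(4 : ℤ)] γ =
      (12 : ℂ) • D EisensteinSeries.E2 - EisensteinSeries.E2 * EisensteinSeries.E2 := by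
  have h1 : MDiff (fun _ => 1 : ℍ → ℂ) := mdifferentiable_const
  have h2 : MDiff EisensteinSeries.E2 := Sm.hol sp_E2
  have h3 : MDiff ((fun _ => 1 : ℍ → ℂ) ∣[(1 : ℤ)] γ) := slash_mem h1 1 γ
  have e1 := normalizedDerivOfComplex_SL_slash (k := 1) h1 (γ := γ)
  have e2 := normalizedDerivOfComplex_SL_slash (k := 2) h2 (γ := γ)
  have e3 := mul_slash_SL2 2 2 γ EisensteinSeries.E2 EisensteinSeries.E2
  rw [normalizedDerivOfComplex_const, SlashAction.zero_slash] at e1
  rw [E2_slash, normalizedDerivOfComplex_add _ _ h2 (h3.const_smul _),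
    normalizedDerivOfComplex_smul _ _ h3, e1] at e2
  rw [E2_slash] at e3
  rw [sub_eq_add_neg, SlashAction.add_slash, SlashAction.neg_slash, SL_smul_slash]
  funext z
  have hz := denom_ne_zero (γ : GL (Fin 2) ℝ) z
  have f2 := congrFun e2 z
  have f3 := congrFun e3 z
  have hw : ((fun _ => 1 : ℍ → ℂ) ∣[(1 : ℤ)] γ) z = (denom γ z)⁻¹ := by simp [SL_slash_apply]
  simp only [Pi.sub_apply, Pi.add_apply, Pi.smul_apply, Pi.mul_apply, Pi.neg_apply, Pi.zero_apply,
    smul_eq_mul, hw, div_eq_mul_inv] at f2 f3 ⊢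
  push_cast at f2 f3
  rw [f3]
  linear_combination (-12) * f2

theorem th_E2_C : 12 * th ℂ (E2 ℂ) = E2 ℂ ^ 2 - E4 ℂ := by
  have h := ((sp_E2.der.smul 12).sub (sp_E2.mul sp_E2)).add sp_E4
  have h0 := h.sturm (k := 4) (fun γ => by
    rw [SlashAction.add_slash]
    exact congrArg₂ (· + ·) (R2_slash γ) (E4_slash γ)) (fun n hn => by
      obtain rfl : n = 0 := by omega
      simp [cc_th, cc_Es])
  rw [Algebra.smul_def, map_ofNat] at h0
  linear_combination h0

theorem map_inj : Function.Injective (PowerSeries.map (Int.castRingHom ℂ)) :=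
  PowerSeries.map_injective _ Int.cast_injective

variable (R : Type*) [CommRing R]

/-- **Ramanujan's equation for `E₂`** -/
theorem th_E2 : 12 * th R (E2 R) = E2 R ^ 2 - E4 R := by
  have h : 12 * th ℤ (E2 ℤ) = E2 ℤ ^ 2 - E4 ℤ := map_inj (by
    simpa [map_th, map_Es, map_ofNat] using th_E2_C)
  simpa [map_th, map_Es, map_ofNat] using congrArg (PowerSeries.map (Int.castRingHom R)) h

/-- **Ramanujan's equation for `E₄`** -/
theorem th_E4 : 3 * th R (E4 R) = E2 R * E4 R - E6 R := by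
  have h : 3 * th ℤ (E4 ℤ) = E2 ℤ * E4 ℤ - E6 ℤ := map_inj (by
    simpa [map_th, map_Es, map_ofNat] using th_E4_C)
  simpa [map_th, map_Es, map_ofNat] using congrArg (PowerSeries.map (Int.castRingHom R)) h

/-- **Ramanujan's equation for `E₆`** -/
theorem th_E6 : 2 * th R (E6 R) = E2 R * E6 R - E4 R ^ 2 := by
  have h : 2 * th ℤ (E6 ℤ) = E2 ℤ * E6 ℤ - E4 ℤ ^ 2 := map_inj (by
    simpa [map_th, map_Es, map_ofNat] using th_E6_C)
  simpa [map_th, map_Es, map_ofNat] using congrArg (PowerSeries.map (Int.castRingHom R)) h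

/-- the series `∑ σ_r(n) q ^ n` -/
def sg (r : ℕ) : R⟦X⟧ := PowerSeries.mk fun n => (ArithmeticFunction.sigma r n : R)

theorem Es_eq (c : ℤ) (r : ℕ) : Es R c r = 1 + (c : R⟦X⟧) * sg R r := by
  ext n
  rw [← map_intCast (C (R := R)) c, map_add, coeff_C_mul, coeff_Es, coeff_one, sg, coeff_mk]
  split_ifs with h
  · simp [h]
  · simp

theorem twelve_dvd (d : ℕ) : 12 ∣ 5 * d ^ 3 + 7 * d ^ 5 := by
  have h1 : (5 * d ^ 3 + 7 * d ^ 5) % 12 = (5 * (d % 12) ^ 3 + 7 * (d % 12) ^ 5) % 12 := by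
    simp [Nat.add_mod, Nat.mul_mod, Nat.pow_mod]
  rw [Nat.dvd_iff_mod_eq_zero, h1]
  have h2 : d % 12 < 12 := Nat.mod_lt _ (by norm_num)
  generalize d % 12 = r at h2
  interval_cases r <;> rfl

/-- the discriminant has integer coefficients -/
theorem exists_D : ∃ d : ℤ⟦X⟧, 1728 * d = E4 ℤ ^ 3 - E6 ℤ ^ 2 ∧ coeff 0 d = 0 ∧ coeff 1 d = 1 := by
  have h : ∀ n : ℕ, ∃ m : ℤ, 12 * m = 5 * (ArithmeticFunction.sigma 3 n : ℤ) +
      7 * (ArithmeticFunction.sigma 5 n : ℤ) := fun n => by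
    obtain ⟨m, hm⟩ : 12 ∣ ∑ d ∈ n.divisors, (5 * d ^ 3 + 7 * d ^ 5) :=
      Finset.dvd_sum fun d _ => twelve_dvd d
    rw [Finset.sum_add_distrib, ← Finset.mul_sum, ← Finset.mul_sum,
      ← ArithmeticFunction.sigma_apply, ← ArithmeticFunction.sigma_apply] at hm
    exact ⟨m, by exact_mod_cast hm.symm⟩
  choose g hg using h
  have e : 12 * PowerSeries.mk g = 5 * sg ℤ 3 + 7 * sg ℤ 5 := by
    ext n
    rw [← map_ofNat (C (R := ℤ)) 12, ← map_ofNat (C (R := ℤ)) 5, ← map_ofNat (C (R := ℤ)) 7,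
      map_add, coeff_C_mul, coeff_C_mul, coeff_C_mul, sg, sg, coeff_mk, coeff_mk, coeff_mk, hg]
  have h1 : 1728 * (PowerSeries.mk g + 100 * sg ℤ 3 ^ 2 + 8000 * sg ℤ 3 ^ 3 - 147 * sg ℤ 5 ^ 2) =
      E4 ℤ ^ 3 - E6 ℤ ^ 2 := by
    rw [E4, E6, Es_eq, Es_eq]
    push_cast
    linear_combination 144 * e
  generalize PowerSeries.mk g + 100 * sg ℤ 3 ^ 2 + 8000 * sg ℤ 3 ^ 3 - 147 * sg ℤ 5 ^ 2 = d at h1
  have h2 : ∀ n, 1728 * coeff n d = coeff n (E4 ℤ ^ 3 - E6 ℤ ^ 2) := fun n => by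
    rw [← h1, ← coeff_C_mul]
    rfl
  have h3 : coeff 0 (E4 ℤ ^ 3 - E6 ℤ ^ 2) = 0 := by simp [cc_Es]
  have h4 : coeff 1 (E4 ℤ ^ 3 - E6 ℤ ^ 2) = 1728 := by simp [coeff_one_pow, cc_Es, coeff_Es]
  have h5 := h2 0
  have h6 := h2 1
  exact ⟨d, h1, by omega, by omega⟩

end Rm

end Vale.Agent.P022K.UC
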