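import Vale.Agent.P022K.UC.Hat2
import Vale.Agent.P022K.UC.Ram

/-!
# P022K, block UC, row MAT: the Hecke matrices of the family `u ^ (a - i) * D ^ i`
-/

set_option linter.all false

open PowerSeries Finset

noncomputable section

namespace Vale.Agent.P022K.UC.Mt

open Vale.Agent.P022K.UC.Hat2

section gen

variable {R : Type*} [CommRing R]

/-- triangular families -/
theorem tri (A : AddSubgroup R) {g : ℕ → R⟦X⟧} {S : Finset ℕ} {c : ℕ → R} (p : ℕ → Prop)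
    (h0 : ∀ i ∈ S, ∀ n < i, coeff n (g i) = 0) (h1 : ∀ i ∈ S, coeff i (g i) = 1)
    (hA : ∀ i ∈ S, ∀ n, ∀ a ∈ A, a * coeff n (g i) ∈ A)
    (hp : ∀ k ∈ S, ¬ p k → ∀ n, p n → c k * coeff n (g k) ∈ A)
    (h : ∀ n ∈ S, p n → ∑ k ∈ S, c k * coeff n (g k) ∈ A) : ∀ i ∈ S, p i → c i ∈ A := by
  intro i
  induction i using Nat.strong_induction_on with
  | _ i ih =>
    intro hi pi
    have e := h i hi pi
    rw [← Finset.add_sum_erase _ _ hi, h1 i hi, mul_one] at e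
    refine (A.add_mem_cancel_right (A.sum_mem fun k hk => ?_)).1 e
    obtain ⟨k1, k2⟩ := Finset.mem_erase.1 hk
    by_cases pk : p k
    · rcases lt_or_gt_of_ne k1 with l | l
      · exact hA k k2 i _ (ih k l k2 pk)
      · rw [h0 k k2 i l, mul_zero]; exact zero_mem _
    · exact hp k k2 pk i pi

/-- the exponents lie in one class -/
def Sup (m r : ℕ) (f : R⟦X⟧) : Prop := ∀ n, coeff n f ≠ 0 → n ≡ r [MOD m]

theorem Sup.mul {m r s : ℕ} {f g : R⟦X⟧} (hf : Sup m r f) (hg : Sup m s g) :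
    Sup m (r + s) (f * g) := fun n hn => by
  rw [coeff_mul] at hn
  obtain ⟨x, h1, h2⟩ := Finset.exists_ne_zero_of_sum_ne_zero hn
  rw [← Finset.HasAntidiagonal.mem_antidiagonal.1 h1]
  exact (hf _ (left_ne_zero_of_mul h2)).add (hg _ (right_ne_zero_of_mul h2))

theorem Sup.pow {m r : ℕ} {f : R⟦X⟧} (hf : Sup m r f) (k : ℕ) : Sup m (k * r) (f ^ k) := by
  induction k with
  | zero =>
    intro n hn
    rw [pow_zero, coeff_one] at hn
    rw [zero_mul, show n = 0 from by_contra fun h => hn (if_neg h)]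
  | succ k ih => rw [pow_succ, add_mul, one_mul]; exact ih.mul hf

theorem sup_expand {m : ℕ} (hm : m ≠ 0) (f : R⟦X⟧) : Sup m 0 (expand m hm f) := fun n hn =>
  (Nat.modEq_zero_iff_dvd).2 (by_contra fun h => hn (coeff_expand_of_not_dvd _ _ _ h))

theorem coeff_Tl (l n : ℕ) (lam : R) (f : R⟦X⟧) : coeff n (Tl l lam f) =
    coeff (l * n) f + lam * if l ∣ n then coeff (n / l) f else 0 := coeff_mk _ _

theorem Tl_ne {l n : ℕ} {lam : R} {f : R⟦X⟧} (h : coeff n (Tl l lam f) ≠ 0) :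
    coeff (l * n) f ≠ 0 ∨ ∃ m, n = l * m ∧ coeff m f ≠ 0 := by
  by_contra k
  rw [not_or, not_not] at k
  rw [coeff_Tl, k.1, zero_add] at h
  split_ifs at h with d
  · exact k.2 ⟨n / l, (Nat.mul_div_cancel' d).symm, right_ne_zero_of_mul h⟩
  · exact h (mul_zero _)

theorem map_Tl {R' : Type*} [CommRing R'] (φ : R →+* R') (l : ℕ) (lam : R) (f : R⟦X⟧) :
    PowerSeries.map φ (Tl l lam f) = Tl l (φ lam) (PowerSeries.map φ f) := by
  ext n
  simp only [coeff_map, coeff_Tl, map_add, map_mul]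
  split_ifs <;> simp

/-- the formal operator as a linear map -/
def TL (l : ℕ) (lam : R) : R⟦X⟧ →ₗ[R] R⟦X⟧ where
  toFun := Tl l lam
  map_add' f g := by
    ext n
    simp only [coeff_Tl, map_add]
    split_ifs <;> ring
  map_smul' c f := by
    ext n
    simp only [coeff_Tl, map_smul, smul_eq_mul, RingHom.id_apply]
    split_ifs <;> ring

theorem TL_apply (l : ℕ) (lam : R) (f : R⟦X⟧) : TL l lam f = Tl l lam f := rfl

theorem key {u w : R⟦X⟧} {c mu c' : R} {N : ℕ → Submodule R R⟦X⟧} {l : ℕ} (hl : l ≠ 0) (lam : R)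
    (hw : u = 1 + C c * w) (hc : mu - 1 = c * c') (mul : ∀ n, ∀ x ∈ N n, u * x ∈ N (n + 1))
    (hT : ∀ j, ∀ x ∈ N j, Tl l (lam * mu ^ j) x ∈ N j) (j b : ℕ) {y : R⟦X⟧} (hy : y ∈ N j) :
    ∃ z : ℕ → R⟦X⟧, (∀ s, c ^ s • z s ∈ N (j + s)) ∧ Tl l (lam * mu ^ (j + b)) (u ^ b * y) =
      ∑ s ∈ range (b + 1), (b.choose s : R) • c ^ s • (u ^ (b - s) * z s) := by
  rw [← smul_eq_C_mul] at hw
  let V := expand (R := R) l hl
  let H : ℕ → ℕ → R⟦X⟧ → R⟦X⟧ := fun s j y =>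
    Uo l ((u - V u) ^ s * y) + (lam * mu ^ j) • ((mu • V u - u) ^ s * V y)
  have H1 : ∀ s j y, y ∈ N j → H s j y ∈ N (j + s) := fun s => by
    induction s with
    | zero => intro j y hy; simpa [H, V, ← Tl_eq] using hT j y hy
    | succ s ih =>
      intro j y hy
      have e : H (s + 1) j y = H s (j + 1) (u * y) - u * H s j y := by
        simp only [H]
        rw [mul_add, ← Uo_mul hl, add_sub_add_comm, ← map_sub]
        simp only [map_mul, V, smul_eq_C_mul]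
        congr 1
        · congr 1; ring
        · simp only [map_mul, map_pow]; ring
      rw [e]
      exact sub_mem (by have := ih (j + 1) _ (mul j y hy); rwa [add_right_comm] at this)
        (mul _ _ (ih j y hy))
  have H2 : ∀ s, ∃ z, H s j y = c ^ s • z := fun s => by
    have e1 : u - V u = c • (w - V w) := by
      rw [hw, map_add, map_one, map_smul, smul_sub]; ring
    have e2 : mu • V u - u = c • (c' • V u + (V w - w)) := by
      rw [sub_eq_iff_eq_add.1 hc, add_smul, one_smul, mul_smul, add_sub_assoc, smul_add,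
        ← neg_sub u, e1, ← smul_neg, neg_sub]
    refine ⟨Uo l ((w - V w) ^ s * y) + (lam * mu ^ j) • ((c' • V u + (V w - w)) ^ s * V y), ?_⟩
    simp only [H]
    rw [e1, e2, _root_.smul_pow, _root_.smul_pow, smul_mul_assoc, smul_mul_assoc, map_smul, smul_add,
      smul_comm]
  choose z hz using H2
  refine ⟨z, fun s => hz s ▸ H1 s j y hy, ?_⟩
  simp only [← mul_smul_comm (c ^ _), ← hz]
  rw [Tl_eq hl]
  simp only [H, mul_add, smul_add, Finset.sum_add_distrib]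
  congr 1
  · conv_lhs => rw [← sub_add_cancel u (V u), add_pow, Finset.sum_mul, map_sum]
    refine Finset.sum_congr rfl fun s _ => ?_
    rw [← Uo_mul hl, ← map_smul, map_pow, smul_eq_C_mul, map_natCast]
    congr 1; ring
  · have : (mu • V u) ^ b = (mu • V u - u + u) ^ b := by rw [sub_add_cancel]
    rw [add_pow, _root_.smul_pow] at this
    rw [map_mul, map_pow, pow_add, ← mul_assoc, mul_smul, ← smul_mul_assoc, this, Finset.sum_mul,
      Finset.smul_sum]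
    refine Finset.sum_congr rfl fun s _ => ?_
    simp only [smul_eq_C_mul, map_natCast, V]
    ring

/-- the family -/
def g (u D : R⟦X⟧) (a i : ℕ) : R⟦X⟧ := u ^ (a - i) * D ^ i

theorem map_g {R' : Type*} [CommRing R'] (φ : R →+* R') (u D : R⟦X⟧) (a i : ℕ) :
    PowerSeries.map φ (g u D a i) = g (PowerSeries.map φ u) (PowerSeries.map φ D) a i := by
  rw [g, g, map_mul, map_pow, map_pow]

theorem g_up (u D : R⟦X⟧) {a i : ℕ} (h : i ≤ a) (r : ℕ) : u ^ r * g u D a i = g u D (a + r) i := by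
  rw [g, g, ← mul_assoc, ← pow_add, show r + (a - i) = a + r - i by omega]

theorem g_ord {u D : R⟦X⟧} (u0 : coeff 0 u = 1) (d0 : coeff 0 D = 0) (d1 : coeff 1 D = 1)
    (a i : ℕ) : (∀ n < i, coeff n (g u D a i) = 0) ∧ coeff i (g u D a i) = 1 := by
  obtain ⟨E, rfl⟩ := X_dvd_iff.2 (coeff_zero_eq_constantCoeff_apply D ▸ d0)
  rw [coeff_succ_X_mul, coeff_zero_eq_constantCoeff_apply] at d1
  rw [coeff_zero_eq_constantCoeff_apply] at u0
  rw [g, mul_pow, mul_left_comm]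
  refine ⟨fun n hn => by rw [coeff_X_pow_mul', if_neg hn.not_ge], ?_⟩
  rw [coeff_X_pow_mul', if_pos le_rfl, Nat.sub_self, coeff_zero_eq_constantCoeff_apply]
  simp [u0, d1]

/-- the indices -/
def Sa (a : ℕ) : Finset ℕ := (range (a + 1)).filter fun i => ¬ 3 ∣ i

theorem mem_Sa {a i : ℕ} : i ∈ Sa a ↔ i ≤ a ∧ ¬ 3 ∣ i := by
  rw [Sa, mem_filter, mem_range, Nat.lt_succ_iff]

/-- the combinations -/
def cb (u D : R⟦X⟧) (a : ℕ) (c : ℕ → R) : R⟦X⟧ := ∑ i ∈ Sa a, c i • g u D a i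

theorem coeff_cb (u D : R⟦X⟧) (a : ℕ) (c : ℕ → R) (n : ℕ) :
    coeff n (cb u D a c) = ∑ i ∈ Sa a, c i * coeff n (g u D a i) := by
  simp only [cb, map_sum, map_smul, smul_eq_mul]

/-- the lattices -/
def Lm (u D : R⟦X⟧) (a : ℕ) (φ : ℕ → R) : Submodule R R⟦X⟧ where
  carrier := {x | ∃ c : ℕ → R, (∀ i, φ i ∣ c i) ∧ x = cb u D a c}
  add_mem' := by
    rintro _ _ ⟨c, h1, rfl⟩ ⟨c', h2, rfl⟩
    exact ⟨fun i => c i + c' i, fun i => dvd_add (h1 i) (h2 i), by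
      simp only [cb, add_smul, sum_add_distrib]⟩
  zero_mem' := ⟨0, fun i => dvd_zero _, by simp [cb]⟩
  smul_mem' := by
    rintro r _ ⟨c, h1, rfl⟩
    exact ⟨fun i => r * c i, fun i => (h1 i).mul_left r, by simp only [cb, mul_smul, smul_sum]⟩

variable {u D : R⟦X⟧}

theorem g_mem {a i : ℕ} (hi : i ∈ Sa a) {φ : ℕ → R} {c : R} (h : φ i ∣ c) :
    c • g u D a i ∈ Lm u D a φ := by
  refine ⟨fun k => if k = i then c else 0, fun k => ?_, ?_⟩
  · dsimp only
    split_ifs with e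
    exacts [e ▸ h, dvd_zero _]
  · simp only [cb, ite_smul, zero_smul, sum_ite_eq', if_pos hi]

theorem g_mem1 {a i : ℕ} (hi : i ∈ Sa a) : g u D a i ∈ Lm u D a 1 := by
  simpa using g_mem (u := u) (D := D) (c := 1) (φ := 1) hi dvd_rfl

theorem up_mem {a : ℕ} (r : ℕ) {φ : ℕ → R} {c : R} (h : ∀ i ≤ a, φ i ∣ c) {x : R⟦X⟧}
    (hx : x ∈ Lm u D a 1) : c • (u ^ r * x) ∈ Lm u D (a + r) φ := by
  obtain ⟨b, -, rfl⟩ := hx
  rw [cb, mul_sum, smul_sum]
  refine sum_mem fun i hi => ?_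
  obtain ⟨k1, k2⟩ := mem_Sa.1 hi
  rw [mul_smul_comm, smul_smul, g_up _ _ k1]
  exact g_mem (mem_Sa.2 ⟨k1.trans (Nat.le_add_right _ _), k2⟩) ((h i k1).mul_right _)

theorem up_one {a : ℕ} {x : R⟦X⟧} (hx : x ∈ Lm u D a 1) : u * x ∈ Lm u D (a + 1) 1 := by
  simpa using up_mem (c := 1) (φ := 1) 1 (fun _ _ => dvd_rfl) hx

theorem Tl_mem {a l : ℕ} {lam : R} {A : Submodule R R⟦X⟧}
    (h : ∀ i ∈ Sa a, Tl l lam (g u D a i) ∈ A) {x : R⟦X⟧} (hx : x ∈ Lm u D a 1) :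
    Tl l lam x ∈ A := by
  obtain ⟨c, -, rfl⟩ := hx
  rw [← TL_apply, cb, map_sum]
  exact sum_mem fun i hi => by rw [map_smul]; exact Submodule.smul_mem _ _ (h i hi)

variable (u0 : coeff 0 u = 1) (d0 : coeff 0 D = 0) (d1 : coeff 1 D = 1)
include u0 d0 d1

theorem cb_dvd {a : ℕ} {c : ℕ → R} {r : R} (hc : ∀ n, r ∣ coeff n (cb u D a c)) :
    ∀ i ∈ Sa a, r ∣ c i := fun i hi =>
  Ideal.mem_span_singleton.1 (tri (Ideal.span {r}).toAddSubgroup (fun _ => True)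
    (fun i _ => (g_ord u0 d0 d1 a i).1) (fun i _ => (g_ord u0 d0 d1 a i).2)
    (fun _ _ _ _ hx => Ideal.mul_mem_right _ _ hx) (fun _ _ k => (k trivial).elim)
    (fun n _ _ => Ideal.mem_span_singleton.2 (coeff_cb u D a c n ▸ hc n)) i hi trivial)

theorem cb_zero {a : ℕ} {c : ℕ → R} (hc : cb u D a c = 0) : ∀ i ∈ Sa a, c i = 0 := fun i hi =>
  zero_dvd_iff.1 (cb_dvd u0 d0 d1 (fun n => by rw [hc, map_zero]) i hi)

theorem Lm_sat [IsDomain R] {a : ℕ} {r : R} (hr : r ≠ 0) {x : R⟦X⟧} (hx : r • x ∈ Lm u D a 1) :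
    x ∈ Lm u D a 1 := by
  obtain ⟨c, -, e⟩ := hx
  have k := cb_dvd u0 d0 d1 (a := a) (c := c) (r := r) fun n => by
    rw [← e, map_smul]; exact dvd_mul_right _ _
  choose! b hb using k
  refine ⟨b, fun _ => one_dvd _, PowerSeries.ext fun n => mul_left_cancel₀ hr ?_⟩
  rw [← smul_eq_mul, ← map_smul, e, coeff_cb, coeff_cb, mul_sum]
  exact sum_congr rfl fun i hi => by rw [hb i hi, mul_assoc]

theorem Lm_int {K : Type*} [Field K] (φ : R →+* K) (hφ : Function.Injective φ) {a : ℕ} {x : R⟦X⟧}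
    (hx : PowerSeries.map φ x ∈ Submodule.span K
      ((fun i => PowerSeries.map φ (g u D a i)) '' Sa a)) : x ∈ Lm u D a 1 := by
  obtain ⟨c, e⟩ := (Submodule.mem_span_image_finset_iff_exists_fun' K).1 hx
  have e' : ∀ n, ∑ i ∈ Sa a, c i * coeff n (PowerSeries.map φ (g u D a i)) = φ (coeff n x) :=
    fun n => by rw [← coeff_map, ← e]; simp only [map_sum, map_smul, smul_eq_mul]
  have k := tri φ.range.toAddSubgroup (S := Sa a) (c := c)
    (g := fun i => PowerSeries.map φ (g u D a i)) (fun _ => True)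
    (fun i _ n hn => by rw [coeff_map, (g_ord u0 d0 d1 a i).1 n hn, map_zero])
    (fun i _ => by rw [coeff_map, (g_ord u0 d0 d1 a i).2, map_one])
    (fun _ _ _ _ hx => Subring.mul_mem _ hx ⟨_, (coeff_map _ _ _).symm⟩)
    (fun _ _ k => (k trivial).elim) (fun n _ _ => ⟨_, (e' n).symm⟩)
  choose! b hb using fun i hi => k i hi trivial
  refine ⟨b, fun _ => one_dvd _, PowerSeries.ext fun n => hφ ?_⟩
  rw [← e', coeff_cb, map_sum]
  exact sum_congr rfl fun i hi => by rw [map_mul, hb i hi, coeff_map]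

end gen

/-- the odd part modulo four -/
def cl (n : ℕ) : ℕ := ordCompl[2] n % 4

theorem cl_odd {n : ℕ} (h : n % 2 = 1) : cl n = n % 4 := by
  rw [cl, (Nat.ordCompl_eq_self_iff_zero_or_not_dvd n Nat.prime_two).2 (Or.inr (by omega))]

theorem cl_two (n : ℕ) : cl (2 * n) = cl n := by
  have := Nat.ordCompl_self_pow_mul n 1 Nat.prime_two
  rw [pow_one] at this
  rw [cl, cl, this]

theorem cl_mul {l n : ℕ} (hl : l % 4 = 3) (h : n ≠ 0) : cl (l * n) ≠ cl n := by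
  have h1 := Nat.not_dvd_ordCompl Nat.prime_two h
  rw [cl, cl, Nat.ordCompl_mul,
    (Nat.ordCompl_eq_self_iff_zero_or_not_dvd l Nat.prime_two).2 (Or.inr (by omega)), Nat.mul_mod, hl]
  omega

theorem cl_zero {n : ℕ} (h : n ≠ 0) : cl n ≠ cl 0 := by
  have h1 := Nat.not_dvd_ordCompl Nat.prime_two h
  rw [cl, cl, Nat.zero_div]
  omega

theorem sq_two (f : (ZMod 2)⟦X⟧) : f ^ 2 = expand 2 two_ne_zero f := by
  have := MvPowerSeries.map_frobenius_expand 2 two_ne_zero (f := f)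
  rw [ZMod.frobenius_zmod, MvPowerSeries.map_id] at this
  exact this.symm

theorem cl_pow {D : (ZMod 2)⟦X⟧} (h : Sup 4 1 D) (k : ℕ) :
    ∀ n, coeff n (D ^ k) ≠ 0 → cl n = cl k := by
  induction k using Nat.strong_induction_on with
  | _ k ih =>
    intro n hn
    have h1 : n % 4 = k * 1 % 4 := h.pow k n hn
    rcases Nat.even_or_odd' k with ⟨m, rfl | rfl⟩
    · rcases m.eq_zero_or_pos with rfl | h0
      · rw [mul_zero, pow_zero, coeff_one] at hn
        rw [show n = 0 from by_contra fun h => hn (if_neg h)]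
      rw [pow_mul', sq_two, coeff_expand] at hn
      split_ifs at hn with d
      · obtain ⟨n, rfl⟩ := d
        rw [Nat.mul_div_cancel_left _ two_pos] at hn
        rw [cl_two, cl_two, ih m (by omega) n hn]
      · exact (hn rfl).elim
    · rw [cl_odd (by omega), cl_odd (by omega), h1, mul_one]

/-- what is used of the two generators -/
structure Et (u D : ℤ⟦X⟧) : Prop where
  u0 : coeff 0 u = 1
  u3 : Sup 3 0 u
  u16 : ∃ w, u = 1 + C 16 * w
  d0 : coeff 0 D = 0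
  d1 : coeff 1 D = 1
  d3 : ∀ n, n % 3 ≠ 1 → coeff n D = 0
  d4 : ∀ n, n % 4 ≠ 1 → 2 ∣ coeff n D

/-- the expansion of `E₄ (3 z)` -/
def u3 : ℤ⟦X⟧ := expand 3 three_ne_zero (Rm.E4 ℤ)

theorem et {D : ℤ⟦X⟧} (d0 : coeff 0 D = 0) (d1 : coeff 1 D = 1)
    (d3 : ∀ n, n % 3 ≠ 1 → coeff n D = 0) (d4 : ∀ n, n % 4 ≠ 1 → 2 ∣ coeff n D) : Et u3 D where
  u0 := by rw [u3, coeff_expand, if_pos (dvd_zero 3), Rm.coeff_Es, if_pos rfl]
  u3 := sup_expand _ _
  u16 := ⟨expand 3 three_ne_zero (15 * Rm.sg ℤ 3), by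
    rw [u3, Rm.E4, Rm.Es_eq, map_add, map_one, ← expand_C 3 three_ne_zero, ← map_mul, ← mul_assoc,
      map_ofNat]
    norm_num⟩
  d0 := d0
  d1 := d1
  d3 := d3
  d4 := d4

variable {u D : ℤ⟦X⟧}

theorem Et.g3 (h : Et u D) (a i : ℕ) : Sup 3 i (g u D a i) := by
  have := (h.u3.pow (a - i)).mul (Sup.pow (m := 3) (r := 1) (f := D)
    (fun n hn => by_contra fun k => hn (h.d3 n k)) i)
  rwa [mul_zero, zero_add, mul_one] at this

theorem Et.g2 (h : Et u D) (a i n : ℕ) (hn : cl n ≠ cl i) : 2 ∣ coeff n (g u D a i) := by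
  obtain ⟨w, hw⟩ := h.u16
  have e : PowerSeries.map (Int.castRingHom (ZMod 2)) u = 1 := by
    rw [hw, map_add, map_one, map_mul, map_C, show Int.castRingHom (ZMod 2) 16 = 0 from rfl, map_zero,
      zero_mul, add_zero]
  refine (ZMod.intCast_zmod_eq_zero_iff_dvd _ 2).1 (by_contra fun k => hn ?_)
  refine cl_pow (D := PowerSeries.map (Int.castRingHom (ZMod 2)) D) (fun n hn => by_contra fun k =>
    hn ((ZMod.intCast_zmod_eq_zero_iff_dvd _ 2).2 (h.d4 n k))) i n fun z => k ?_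
  rw [← one_mul (_ ^ i), ← one_pow (a - i), ← e, ← g, ← map_g] at z
  exact z

/-- the span of the family is stable under the formal operator -/
def Stab (u D : ℤ⟦X⟧) (l : ℕ) : Prop := ∀ a, ∀ j ∈ Sa a,
  PowerSeries.map (Int.castRingHom ℂ) (Tl l ((l : ℤ) ^ (4 * a - 1)) (g u D a j)) ∈
    Submodule.span ℂ ((fun i => PowerSeries.map (Int.castRingHom ℂ) (g u D a i)) '' Sa a)

theorem Et.tl (h : Et u D) {l : ℕ} (hl : Odd l) (st : Stab u D l) {a j : ℕ} (hj : j ∈ Sa a) :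
    Tl l ((l : ℤ) ^ (4 * a - 1)) (g u D a j) ∈ Lm u D a fun i => 16 ^ (i - j) := by
  obtain ⟨k1, k2⟩ := mem_Sa.1 hj
  obtain ⟨b, rfl⟩ := Nat.exists_eq_add_of_le k1
  obtain ⟨j, rfl⟩ : ∃ i, j = i + 1 := ⟨j - 1, by omega⟩
  obtain ⟨w, hw⟩ := h.u16
  obtain ⟨m, hm⟩ := Int.eight_dvd_sq_sub_one_of_odd (k := l) (by exact_mod_cast hl)
  have e : ∀ a : ℕ, (l : ℤ) ^ (4 * (a + 1) - 1) = l ^ 3 * (l ^ 4) ^ a := fun a => by
    rw [← pow_mul, ← pow_add]; congr 1; omega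
  obtain ⟨z, z1, z2⟩ := key (N := fun a => Lm u D (a + 1) 1) (mu := (l : ℤ) ^ 4)
    (c' := m * (4 * m + 1)) hl.pos.ne' ((l : ℤ) ^ 3) hw
    (by linear_combination ((l : ℤ) ^ 2 + 1 + 8 * m) * hm)
    (fun n x hx => up_one hx) (fun a x hx => e a ▸ Tl_mem (fun i hi =>
      Lm_int h.u0 h.d0 h.d1 _ (RingHom.injective_int _) (st _ i hi)) hx) j b
    (g_mem1 (mem_Sa.2 ⟨le_rfl, k2⟩))
  rw [← g_up _ _ le_rfl, add_right_comm, e, z2]
  refine sum_mem fun s hs => Submodule.smul_mem _ _ ?_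
  have k3 := Nat.lt_succ_iff.1 (mem_range.1 hs)
  rw [show j + b + 1 = j + s + 1 + (b - s) by omega]
  exact up_mem _ (fun i hi => pow_dvd_pow _ (by omega)) (Lm_sat h.u0 h.d0 h.d1 (by positivity) (z1 s))

/-- **MAT**, on the first lattice -/
theorem Et.mat0 (h : Et u D) {l : ℕ} (hl : Odd l) (st : Stab u D l) (a : ℕ) : ∃ t : ℕ → ℕ → ℤ,
    ∀ j ∈ Sa a, Tl l ((l : ℤ) ^ (4 * a - 1)) (g u D a j) = (cb u D a fun i => t i j) ∧
      (∀ i, 16 ^ (i - j) ∣ t i j) ∧ (l % 3 = 2 → t j j = 0) ∧ (l % 4 = 3 → 2 ∣ t j j) := by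
  choose! t t1 t2 using fun j (hj : j ∈ Sa a) => h.tl hl st hj
  refine ⟨fun i j => t j i, fun j hj => ⟨t2 j hj, t1 j hj, fun l3 => ?_, fun l4 => ?_⟩⟩
  · have k := (mem_Sa.1 hj).2
    refine AddSubgroup.mem_bot.1 (tri ⊥ (c := t j) (fun n => n % 3 = j % 3)
      (fun i _ => (g_ord h.u0 h.d0 h.d1 a i).1) (fun i _ => (g_ord h.u0 h.d0 h.d1 a i).2)
      (fun _ _ _ _ hx => by rw [AddSubgroup.mem_bot.1 hx, zero_mul]; exact zero_mem _)
      (fun i _ hi n hn => ?_) (fun n _ hn => ?_) j hj rfl)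
    · rw [show coeff n (g u D a i) = 0 from by_contra fun z => hi ((h.g3 a i n z).symm.trans hn),
        mul_zero]
      exact zero_mem _
    · rw [← coeff_cb, ← t2 j hj]
      refine AddSubgroup.mem_bot.2 (by_contra fun z => ?_)
      rcases Tl_ne z with z' | ⟨m, rfl, z'⟩
      · have : l * n % 3 = j % 3 := h.g3 a j _ z'
        rw [Nat.mul_mod, l3] at this
        omega
      · have : m % 3 = j % 3 := h.g3 a j _ z'
        rw [Nat.mul_mod, l3] at hn
        omega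
  · have k : j ≠ 0 := fun e => (mem_Sa.1 hj).2 (e ▸ dvd_zero 3)
    refine Ideal.mem_span_singleton.1 (tri (Ideal.span {(2 : ℤ)}).toAddSubgroup (c := t j)
      (fun n => cl n = cl j)
      (fun i _ => (g_ord h.u0 h.d0 h.d1 a i).1) (fun i _ => (g_ord h.u0 h.d0 h.d1 a i).2)
      (fun _ _ _ _ hx => Ideal.mul_mem_right _ _ hx) (fun i _ hi n hn => ?_) (fun n _ hn => ?_)
      j hj rfl)
    · exact Ideal.mem_span_singleton.2 ((h.g2 a i n fun e => hi (e.symm.trans hn)).mul_left _)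
    · have n0 : n ≠ 0 := fun e => cl_zero k (e ▸ hn).symm
      rw [← coeff_cb, ← t2 j hj, coeff_Tl]
      refine Ideal.mem_span_singleton.2 (dvd_add (h.g2 a j _ (hn ▸ cl_mul l4 n0))
        (Dvd.dvd.mul_left ?_ _))
      split_ifs with d
      · obtain ⟨m, rfl⟩ := d
        rw [Nat.mul_div_cancel_left _ hl.pos]
        exact h.g2 a j _ (hn ▸ (cl_mul l4 (right_ne_zero_of_mul n0)).symm)
      · exact dvd_zero _

/-- **MAT**, on the second lattice -/
theorem Et.mat (h : Et u D) {l : ℕ} (hl : Odd l) (st : Stab u D l) (a : ℕ) : ∃ n : ℕ → ℕ → ℤ,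
    ∀ j ∈ Sa a, (∀ m, 4 ^ j * coeff m (Tl l ((l : ℤ) ^ (4 * a - 1)) (g u D a j)) =
        ∑ i ∈ Sa a, n i j * (4 ^ i * coeff m (g u D a i))) ∧
      (∀ i, i ≠ j → 4 ∣ n i j) ∧ (l % 3 = 2 → n j j = 0) ∧ (l % 4 = 3 → 2 ∣ n j j) := by
  obtain ⟨t, ht⟩ := h.mat0 hl st a
  have k : ∀ i j, ∃ n : ℤ, j ∈ Sa a → 4 ^ j * t i j = n * 4 ^ i ∧ (i ≠ j → 4 ∣ n) := fun i j => by
    by_cases hj : j ∈ Sa a
    swap
    · exact ⟨0, fun k => (hj k).elim⟩
    rcases le_total j i with e | e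
    · obtain ⟨s, rfl⟩ := Nat.exists_eq_add_of_le e
      obtain ⟨c, hc⟩ := (ht j hj).2.1 (j + s)
      rw [Nat.add_sub_cancel_left, show (16 : ℤ) = 4 * 4 by norm_num, mul_pow] at hc
      exact ⟨4 ^ s * c, fun _ => ⟨by rw [hc]; ring, fun e =>
        (dvd_pow_self 4 (by rintro rfl; exact e rfl)).mul_right _⟩⟩
    · obtain ⟨s, rfl⟩ := Nat.exists_eq_add_of_le e
      exact ⟨4 ^ s * t i (i + s), fun _ => ⟨by ring, fun e =>
        (dvd_pow_self 4 (by rintro rfl; exact e rfl)).mul_right _⟩⟩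
  choose n hn using k
  refine ⟨n, fun j hj => ?_⟩
  have e : n j j = t j j := mul_right_cancel₀ (pow_ne_zero j four_ne_zero)
    ((hn j j hj).1.symm.trans (mul_comm _ _))
  refine ⟨fun m => ?_, fun i => (hn i j hj).2, e ▸ (ht j hj).2.2⟩
  rw [(ht j hj).1, coeff_cb, mul_sum]
  exact sum_congr rfl fun i _ => by rw [← mul_assoc, ← mul_assoc, (hn i j hj).1]

end Vale.Agent.P022K.UC.Mt
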