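import Vale.Agent.P022K.UC.Lev
import Vale.Agent.P022K.UC.Hat2

/-!
# P022K, block UC, row STAB: the forms `E₄(3z) ^ (a - i) η(3z) ^ (8 i)` span a Hecke module
-/

set_option autoImplicit false

open UpperHalfPlane ModularForm CongruenceSubgroup Matrix PowerSeries
open scoped MatrixGroups ModularForm Real

noncomputable section

namespace Vale.Agent.P022K.UC.Sb

open Rm Lv Vale.Agent.P022.H218.L3

/-- the properties of `η(3z) ^ 8` -/
def Eta (D : ℤ⟦X⟧) : Prop :=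
  (∃ F, IsMF (Gamma0 9) 4 F ∧ Sp (PowerSeries.map (Int.castRingHom ℂ) D) F ∧
    sl 4 F !![0, -1; 9, 0] = (9 : ℂ) • F) ∧ coeff 1 D = 1 ∧ ∀ n, n % 3 ≠ 1 → coeff n D = 0

/-- `q ↦ q ^ 3` -/
abbrev V3 (f : ℤ⟦X⟧) : ℤ⟦X⟧ := PowerSeries.expand 3 three_ne_zero f

/-- the family -/
def gs (D : ℤ⟦X⟧) (a i : ℕ) : ℤ⟦X⟧ := V3 (E4 ℤ) ^ (a - i) * D ^ i

variable {k k' : ℤ} {F G : ℍ → ℂ} {A : Matrix (Fin 2) (Fin 2) ℤ}

theorem sl_smul (hA : 0 < A.det) (c : ℂ) : sl k (c • F) A = c • sl k F A := by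
  rw [sl_eq hA.ne', sl_eq hA.ne', ModularForm.smul_slash, σ, if_pos (by
    rw [gl_det]; exact_mod_cast hA)]
  rfl

theorem sl_add (hA : A.det ≠ 0) : sl k (F + G) A = sl k F A + sl k G A := by
  rw [sl_eq hA, sl_eq hA, sl_eq hA, SlashAction.add_slash]

theorem sl_sum (hA : A.det ≠ 0) {ι : Type*} (s : Finset ι) (f : ι → ℍ → ℂ) :
    sl k (∑ i ∈ s, f i) A = ∑ i ∈ s, sl k (f i) A := by
  simp only [sl_eq hA, SlashAction.sum_slash]

theorem det_W : (!![0, -1; 9, 0] : Matrix (Fin 2) (Fin 2) ℤ).det = 9 := by simp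

theorem sl_prod : sl (k + k') (F * G) !![0, -1; 9, 0] =
    (9 : ℂ) • (sl k F !![0, -1; 9, 0] * sl k' G !![0, -1; 9, 0]) := by
  have h : (!![0, -1; 9, 0] : Matrix (Fin 2) (Fin 2) ℤ).det ≠ 0 := by simp
  rw [sl_eq h, sl_eq h, sl_eq h, ModularForm.mul_slash, gl_det, det_W]
  ext τ
  simp

/-- fixed by the involution -/
def Fx (k : ℤ) (F : ℍ → ℂ) : Prop := sl k F !![0, -1; 9, 0] = ((3 : ℂ) ^ (k - 2)) • F

theorem Fx.mul (hF : Fx k F) (hG : Fx k' G) : Fx (k + k') (F * G) := by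
  rw [Fx, sl_prod, hF, hG, smul_mul_smul_comm, smul_smul, ← zpow_add₀ three_ne_zero,
    show (9 : ℂ) = 3 ^ (2 : ℤ) by norm_num, ← zpow_add₀ three_ne_zero]
  congr 2
  ring

theorem Fx.add (hF : Fx k F) (hG : Fx k G) : Fx k (F + G) := by
  rw [Fx, sl_add (by simp), hF, hG, smul_add]

theorem Fx.smul (hF : Fx k F) (c : ℂ) : Fx k (c • F) := by
  rw [Fx, sl_smul (by simp), hF, smul_comm]

theorem sl_three : sl k F !![((3 : ℕ) : ℤ), 0; 0, ((3 : ℕ) : ℤ)] = ((3 : ℂ) ^ (k - 2)) • F := by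
  ext τ
  obtain ⟨τ', h1, h2⟩ := sl_tri (k := k) (F := F) (a := 3) (d := 3) 0 three_ne_zero three_ne_zero τ
  have h3 : τ' = τ := UpperHalfPlane.ext (by rw [h1]; push_cast; ring)
  rw [h2, h3, Pi.smul_apply, smul_eq_mul, show k - 2 = k - 1 + -1 by ring,
    zpow_add₀ three_ne_zero]
  simp

theorem Vl_W : sl k (Vl k 3 F) !![0, -1; 9, 0] =
    Vl k 3 (((3 : ℂ) ^ (k - 2)) • (F ∣[k] ModularGroup.S)) := by
  rw [← sl_three, Vl, Vl, ← sl_coe, ← sl_mul (by simp) (by simp), ← sl_mul (by simp) (by simp),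
    ← sl_mul (by simp) (by simp)]
  congr 1
  rw [ModularGroup.coe_S]
  ext i j
  fin_cases i <;> fin_cases j <;> simp [Matrix.mul_apply, Fin.sum_univ_two]

theorem Fx.one : Fx 0 1 := by
  have h1 : Vl 0 3 (1 : ℍ → ℂ) = ((3 : ℂ) ^ (-1 : ℤ)) • (1 : ℍ → ℂ) := by
    ext τ
    obtain ⟨τ', -, h2⟩ := sl_tri (k := 0) (F := 1) (a := 3) (d := 1) 0 three_ne_zero one_ne_zero τ
    rw [Vl, h2]
    simp
  have h2 := Vl_W (k := 0) (F := 1)
  rw [ModularForm.is_invariant_one, Vl, Vl, sl_smul (by simp), ← Vl, h1, sl_smul (by simp),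
    smul_comm] at h2
  exact smul_right_injective _ (by norm_num) h2

theorem Fx.pow (hF : Fx k F) (n : ℕ) : Fx (n * k) (F ^ n) := by
  induction n with
  | zero => simpa using Fx.one
  | succ n ih =>
    rw [pow_succ, Nat.cast_succ, add_mul, one_mul]
    exact ih.mul hF

theorem sm_T {c : ℕ → ℂ} (h : Sm c F) : F ∣[k] ModularGroup.T = F := by
  ext τ
  obtain ⟨τ', h1, h2⟩ := sl_tri (k := k) (F := F) (a := 1) (d := 1) 1 one_ne_zero one_ne_zero τ
  have h3 : qq τ' = qq τ := by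
    simp only [Function.Periodic.qParam, h1]
    push_cast
    rw [div_one, div_one, div_one, one_mul, mul_add, mul_one, Complex.exp_add,
      Complex.exp_two_pi_mul_I, mul_one]
  have h4 : F τ' = F τ := (h τ').unique (by simpa only [h3] using h τ)
  rw [← sl_coe, ModularGroup.coe_T, ← h4]
  simpa using h2

/-- a form in `q ^ 3` which is fixed by the involution comes from level one -/
theorem vanish {x : ℂ⟦X⟧} {b : ℕ} (h : Sp x F) (hF : Fx (4 * b) F)
    (h3 : ∀ n, n % 3 ≠ 0 → coeff n x = 0) (h0 : ∀ n ≤ b, coeff n x = 0) : x = 0 := by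
  have h1 := sm_Ul h (4 * b) three_ne_zero
  have h2 : Vl (4 * b) 3 (Ul (4 * b) 3 F) = ((3 : ℂ) ^ ((4 * b : ℤ) - 1)) • F := by
    refine (sm_Vl h1 (4 * b) three_ne_zero).fun_eq fun τ => hs_congr ((h τ).mul_left _) fun n => ?_
    beta_reduce
    split_ifs with hn
    · rw [Nat.mul_div_cancel' hn]
      simp [mul_assoc]
    · rw [h3 n fun e => hn (Nat.dvd_of_mod_eq_zero e)]
      simp
  have h4 := Vl_W (k := 4 * b) (F := Ul (4 * b) 3 F)
  rw [h2, sl_smul (by simp), hF, smul_comm, ← h2, Vl, ← sl_smul (by simp), Vl] at h4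
  have h5 := smul_right_injective _ (zpow_ne_zero _ three_ne_zero) (sl_inj (by simp) h4)
  have h6 : ∀ γ : SL(2, ℤ), Ul (4 * b) 3 F ∣[(4 * b : ℤ)] γ = Ul (4 * b) 3 F := fun γ => by
    have : γ ∈ Subgroup.closure {ModularGroup.S, ModularGroup.T} := by
      simp [SpecialLinearGroup.SL2Z_generators]
    induction this using Subgroup.closure_induction with
    | mem g hg =>
      rcases hg with rfl | rfl
      · exact h5.symm
      · exact sm_T h1
    | one => exact SlashAction.slash_one _ _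
    | mul g g' _ _ e e' => rw [SlashAction.slash_mul, e, e']
    | inv g _ e =>
      have := congrArg (fun H : ℍ → ℂ => H ∣[(4 * b : ℤ)] g⁻¹) e
      simpa [← SlashAction.slash_mul] using this.symm
  have h7 := (sp_mk.2 h1).sturm (k := 4 * b) (by exact_mod_cast h6) fun n hn => by
    rw [coeff_mk]
    exact h0 _ (by omega)
  ext n
  by_cases hn : n % 3 = 0
  · obtain ⟨m, rfl⟩ := Nat.dvd_of_mod_eq_zero hn
    simpa using congrArg (coeff m) h7
  · simpa using h3 n hn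

/-- the Hecke operators commute with the involution -/
theorem Fx.hecke (hF : Fx k F) (hs : ∀ γ ∈ Gamma0 9, F ∣[k] γ = F) {l : ℕ} (hl : l.Prime)
    (h3 : l ≠ 3) : Fx k (Ul k l F + Vl k l F) := by
  have : Fact l.Prime := ⟨hl⟩
  have hl0 := hl.ne_zero
  have h9 : (9 : ZMod l) ≠ 0 := fun h => h3 ((Nat.prime_dvd_prime_iff_eq hl Nat.prime_three).1
    (hl.dvd_of_dvd_pow (n := 2) ((ZMod.natCast_eq_zero_iff 9 l).1 (by exact_mod_cast h))))
  let s : ZMod l → ZMod l := fun r => -(9 * r)⁻¹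
  have hs' : Function.Bijective s := Finite.injective_iff_bijective.1 fun r r' e =>
    mul_left_cancel₀ h9 (inv_injective (neg_injective e))
  let u : ZMod l → ℍ → ℂ := fun r => sl k F !![((1 : ℕ) : ℤ), (r.val : ℤ); 0, (l : ℤ)]
  have hW : (!![0, -1; 9, 0] : Matrix (Fin 2) (Fin 2) ℤ).det ≠ 0 := by simp
  have key : ∀ {A B : Matrix (Fin 2) (Fin 2) ℤ} (γ : SL(2, ℤ)), γ ∈ Gamma0 9 → A.det ≠ 0 →
      0 < B.det → A * !![0, -1; 9, 0] = !![0, -1; 9, 0] * γ.1 * B →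
      sl k (sl k F A) !![0, -1; 9, 0] = ((3 : ℂ) ^ (k - 2)) • sl k F B := by
    intro A B γ hγ hA hB e
    have hγ' : γ.1.det ≠ 0 := by rw [γ.2]; exact one_ne_zero
    rw [← sl_mul hA hW, e, sl_mul (by rw [det_mul]; exact mul_ne_zero hW hγ') hB.ne',
      sl_mul hW hγ', hF, sl_coe, ModularForm.SL_smul_slash, hs γ hγ, sl_smul hB]
  have pos : ∀ b : ℤ, 0 < (!![((1 : ℕ) : ℤ), b; 0, (l : ℤ)]).det := fun b => by simpa using hl.pos
  have k0 : sl k (u 0) !![0, -1; 9, 0] = ((3 : ℂ) ^ (k - 2)) • Vl k l F :=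
    key 1 (one_mem _) (pos _).ne' (by simpa using hl.pos) (by
      ext i j
      fin_cases i <;> fin_cases j <;> simp [Matrix.mul_apply, Fin.sum_univ_two, mul_comm])
  have k1 : sl k (Vl k l F) !![0, -1; 9, 0] = ((3 : ℂ) ^ (k - 2)) • u 0 :=
    key 1 (one_mem _) (by simpa using hl0) (pos _) (by
      ext i j
      fin_cases i <;> fin_cases j <;> simp [Matrix.mul_apply, Fin.sum_univ_two, mul_comm])
  have k2 : ∀ r, r ≠ 0 → sl k (u r) !![0, -1; 9, 0] = ((3 : ℂ) ^ (k - 2)) • u (s r) := by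
    intro r hr
    obtain ⟨x, hx⟩ : (l : ℤ) ∣ 9 * r.val * (s r).val + 1 := by
      rw [← ZMod.intCast_zmod_eq_zero_iff_dvd]
      push_cast
      simp only [ZMod.natCast_val, ZMod.cast_id', id_eq, s]
      rw [mul_neg, mul_inv_cancel₀ (mul_ne_zero h9 hr), neg_add_cancel]
    refine key ⟨!![(l : ℤ), -((s r).val : ℤ); -(9 * (r.val : ℤ)), x], by
      rw [det_fin_two_of]
      linear_combination -hx⟩ (Gamma0_mem.2 ((ZMod.intCast_zmod_eq_zero_iff_dvd _ _).2 (by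
        simp))) (pos _).ne' (pos _) ?_
    ext i j
    fin_cases i <;> fin_cases j <;> simp [Matrix.mul_apply, Fin.sum_univ_two] <;>
      simp only [ZMod.natCast_val] at hx <;> linarith
  have e : Ul k l F = ∑ r, u r := by rw [Ul, sum_zmod]
  rw [Fx, e, sl_add hW, sl_sum hW, k1, ← Finset.add_sum_erase _ _ (Finset.mem_univ 0), k0,
    Finset.sum_congr rfl fun r hr => k2 r (Finset.mem_erase.1 hr).1, ← hs'.sum_comp u,
    ← Finset.add_sum_erase _ (fun r => u (s r)) (Finset.mem_univ 0), ← Finset.smul_sum]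
  simp only [s, mul_zero, _root_.inv_zero, neg_zero, smul_add]
  abel

/-- series with exponents in the class of `r` -/
def Su {R : Type*} [CommRing R] (r : ℕ) (x : R⟦X⟧) : Prop := ∀ n, n % 3 ≠ r % 3 → coeff n x = 0

theorem Su.mul {R : Type*} [CommRing R] {r s : ℕ} {x y : R⟦X⟧} (hx : Su r x) (hy : Su s y) :
    Su (r + s) (x * y) := fun n hn => by
  rw [coeff_mul]
  refine Finset.sum_eq_zero fun p hp => ?_
  have : p.1 + p.2 = n := by simpa using hp
  by_cases h : p.1 % 3 = r % 3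
  · rw [hy p.2 (by omega), mul_zero]
  · rw [hx p.1 h, zero_mul]

theorem Su.pow {R : Type*} [CommRing R] {r : ℕ} {x : R⟦X⟧} (hx : Su r x) (n : ℕ) :
    Su (n * r) (x ^ n) := by
  induction n with
  | zero => exact fun n hn => by rw [pow_zero, coeff_one, if_neg (by omega)]
  | succ n ih => rw [pow_succ, Nat.succ_mul]; exact ih.mul hx

variable {D : ℤ⟦X⟧}

theorem su_V3 (f : ℤ⟦X⟧) : Su 0 (V3 f) := fun _ hn =>
  coeff_expand_of_not_dvd 3 three_ne_zero f fun h => hn (Nat.mod_eq_zero_of_dvd h)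

theorem gs_su (h : Eta D) (a i : ℕ) : Su i (gs D a i) := by
  simpa [gs] using ((su_V3 (E4 ℤ)).pow (a - i)).mul (Su.pow (r := 1) h.2.2 i)

theorem gs_eq (h : Eta D) (a i : ℕ) : ∃ u, gs D a i = X ^ i * u ∧ constantCoeff u = 1 := by
  obtain ⟨v, hv⟩ := X_dvd_iff.2 (show constantCoeff D = 0 by
    rw [← coeff_zero_eq_constantCoeff_apply]; exact h.2.2 0 (by norm_num))
  have h1 := coeff_succ_X_mul 0 v
  rw [← hv, zero_add, h.2.1, coeff_zero_eq_constantCoeff_apply] at h1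
  refine ⟨V3 (E4 ℤ) ^ (a - i) * v ^ i, by rw [gs, hv]; ring, ?_⟩
  rw [map_mul, map_pow, map_pow, ← h1, constantCoeff_expand, cc_Es]
  simp

theorem gs_lt (h : Eta D) (a : ℕ) {i n : ℕ} (hn : n < i) : coeff n (gs D a i) = 0 := by
  obtain ⟨u, hu, -⟩ := gs_eq h a i
  exact X_pow_dvd_iff.1 ⟨u, hu⟩ n hn

theorem gs_top (h : Eta D) (a i : ℕ) : coeff i (gs D a i) = 1 := by
  obtain ⟨u, hu, h1⟩ := gs_eq h a i
  have := coeff_X_pow_mul u i 0
  rw [zero_add, coeff_zero_eq_constantCoeff_apply, h1] at this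
  rw [hu, this]

theorem e4_form : ∃ F, IsMF (Gamma0 9) 4 F ∧
    Sp (PowerSeries.map (Int.castRingHom ℂ) (V3 (E4 ℤ))) F ∧ Fx 4 F := by
  have h1 := sm_Vl sp_E4 4 three_ne_zero
  refine ⟨(27 : ℂ)⁻¹ • Vl 4 3 E₄, IsMF.smul _ ⟨h1.hol, fun γ hγ => ?_, fun γ => ?_⟩,
    fun τ => hs_congr ((h1 τ).mul_left _) fun n => ?_, Fx.smul ?_ _⟩
  · obtain ⟨c, hc⟩ : ((9 : ℕ) : ℤ) ∣ γ 1 0 :=
      (ZMod.intCast_zmod_eq_zero_iff_dvd _ _).1 (Gamma0_mem.1 hγ)
    have hdet : γ 0 0 * γ 1 1 - γ 0 1 * γ 1 0 = 1 := by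
      have := γ.2
      rwa [det_fin_two] at this
    let γ' : SL(2, ℤ) := ⟨!![γ 0 0, 3 * γ 0 1; 3 * c, γ 1 1], by
      rw [det_fin_two_of]
      push_cast at hc
      linear_combination hdet + γ 0 1 * hc⟩
    rw [Vl, sl_comm (by simp) (B := !![((3 : ℕ) : ℤ), 0; 0, ((1 : ℕ) : ℤ)]) (by simp) (γ' := γ'),
      E4_slash]
    ext i j
    fin_cases i <;> fin_cases j <;> simp [γ', Matrix.mul_apply, Fin.sum_univ_two] <;>
      push_cast at hc <;> linarith
  · obtain ⟨u, v, huv⟩ : ∃ u v : ℤ, u * (3 * γ 0 0) + v * γ 1 0 = Int.gcd (3 * γ 0 0) (γ 1 0) :=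
      ⟨Int.gcdA (3 * γ 0 0) (γ 1 0), Int.gcdB (3 * γ 0 0) (γ 1 0), by
        rw [Int.gcd_eq_gcd_ab]; ring⟩
    obtain ⟨p, hp⟩ := Int.gcd_dvd_left (3 * γ 0 0) (γ 1 0)
    obtain ⟨q, hq⟩ := Int.gcd_dvd_right (3 * γ 0 0) (γ 1 0)
    have hdet : γ 0 0 * γ 1 1 - γ 0 1 * γ 1 0 = 1 := by
      have := γ.2
      rwa [det_fin_two] at this
    have hg : (Int.gcd (3 * γ 0 0) (γ 1 0) : ℤ) ≠ 0 := fun h => by
      rw [h, zero_mul] at hp hq
      rw [hq, show γ 0 0 = 0 by omega] at hdet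
      simp at hdet
    generalize (Int.gcd (3 * γ 0 0) (γ 1 0) : ℤ) = g at *
    have h2 : p * u - -v * q = 1 := mul_left_cancel₀ hg (by linear_combination huv - u * hp - v * hq)
    have h3 : g * (p * γ 1 1 - q * (3 * γ 0 1)) = 3 := by
      linear_combination 3 * hdet - γ 1 1 * hp + 3 * γ 0 1 * hq
    have h4 : (!![g, u * (3 * γ 0 1) + v * γ 1 1; 0, p * γ 1 1 - q * (3 * γ 0 1)]).det ≠ 0 := by
      rw [det_fin_two_of, mul_zero, sub_zero, h3]
      norm_num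
    let γ' : SL(2, ℤ) := ⟨!![p, -v; q, u], by rw [det_fin_two_of, h2]⟩
    rw [Vl, sl_comm (by simp) h4 (γ' := γ'), E4_slash, sl_eq h4]
    · exact (Sm.bdd sp_E4).slash _ (by simp [gl_apply])
    · ext i j
      fin_cases i <;> fin_cases j <;> simp [γ', Matrix.mul_apply, Fin.sum_univ_two]
      · linear_combination hp
      · linear_combination (-3 * γ 0 1) * h2
      · linear_combination hq
      · linear_combination (-γ 1 1) * h2
  · beta_reduce
    rw [coeff_map, coeff_expand, show E4 ℂ = PowerSeries.map (Int.castRingHom ℂ) (E4 ℤ) from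
      (map_Es _ _ _).symm, coeff_map]
    split_ifs <;> simp only [smul_eq_mul, map_zero] <;> norm_num
    ring
  · rw [Fx, Vl_W, E4_slash, Vl, sl_smul (by simp), Vl]

theorem gs_form (h : Eta D) {a i : ℕ} (hi : i ≤ a) : ∃ F, IsMF (Gamma0 9) (4 * a) F ∧
    Sp (PowerSeries.map (Int.castRingHom ℂ) (gs D a i)) F ∧ Fx (4 * a) F := by
  obtain ⟨F, h1, h2, h3⟩ := e4_form
  obtain ⟨G, k1, k2, k3⟩ := h.1
  have k4 : Fx 4 G := by rw [Fx, k3]; norm_num
  have e : (4 * a : ℤ) = (a - i : ℕ) * 4 + i * 4 := by push_cast [hi]; ring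
  refine ⟨F ^ (a - i) * G ^ i, e ▸ (h1.pow _).mul (k1.pow _), ?_, e ▸ (h3.pow _).mul (k4.pow _)⟩
  rw [gs, map_mul, map_pow, map_pow]
  exact (h2.pow _).mul (k2.pow _)

/-- an integral series which is fixed by the involution is an integral combination of the family -/
theorem span (h : Eta D) {a r : ℕ} {x : ℤ⟦X⟧} (hx : Su r x)
    (hF : ∃ F, Sp (PowerSeries.map (Int.castRingHom ℂ) x) F ∧ Fx (4 * a) F) :
    ∃ t : ℕ → ℤ, (∀ i, i % 3 ≠ r % 3 → t i = 0) ∧
      x = ∑ i ∈ Finset.range (a + 1), C (t i) * gs D a i := by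
  have key : ∀ n ≤ a + 1, ∃ (t : ℕ → ℤ) (y : ℤ⟦X⟧), (∀ i, i % 3 ≠ r % 3 → t i = 0) ∧
      x = ∑ i ∈ Finset.range n, C (t i) * gs D a i + y ∧ Su r y ∧ (∀ m < n, coeff m y = 0) ∧
      ∃ F, Sp (PowerSeries.map (Int.castRingHom ℂ) y) F ∧ Fx (4 * a) F := by
    intro n
    induction n with
    | zero => exact fun _ => ⟨0, x, fun _ _ => rfl, by simp, hx, by simp, hF⟩
    | succ n ih =>
      intro hn
      obtain ⟨t, y, h1, h2, h3, h4, F, h5, h6⟩ := ih (by omega)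
      obtain ⟨G, -, k2, k3⟩ := gs_form h (show n ≤ a by omega)
      refine ⟨Function.update t n (coeff n y), y - C (coeff n y) * gs D a n, fun i hi => ?_, ?_,
        fun m hm => ?_, fun m hm => ?_, F + (-((coeff n y : ℤ) : ℂ)) • G, ?_, h6.add (k3.smul _)⟩
      · rcases eq_or_ne i n with rfl | e
        · rw [Function.update_self, h3 i hi]
        · rw [Function.update_of_ne e, h1 i hi]
      · rw [Finset.sum_range_succ, Function.update_self, Finset.sum_congr rfl fun i hi => by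
          rw [Function.update_of_ne (Finset.mem_range.1 hi).ne]]
        linear_combination h2
      · rw [map_sub, coeff_C_mul, h3 m hm]
        by_cases e : n % 3 = r % 3
        · rw [gs_su h a n m (by omega)]
          simp
        · rw [h3 n e]
          simp
      · rw [map_sub, coeff_C_mul]
        rcases Nat.lt_succ_iff_lt_or_eq.1 hm with e | rfl
        · rw [h4 m e, gs_lt h a e]
          simp
        · rw [gs_top h]
          simp
      · have := h5.add (k2.smul (-((coeff n y : ℤ) : ℂ)))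
        convert this using 1
        rw [map_sub, map_mul, map_C, smul_eq_C_mul, map_neg]
        simp [sub_eq_add_neg]
  obtain ⟨t, y, h1, h2, h3, h4, F, h5, h6⟩ := key _ le_rfl
  refine ⟨t, h1, ?_⟩
  obtain ⟨s, hs⟩ : ∃ s, (r + s) % 3 = 0 := ⟨2 * r, by omega⟩
  obtain ⟨G, -, k2, k3⟩ := gs_form h (le_refl s)
  obtain ⟨u, hu, -⟩ := gs_eq h s s
  obtain ⟨v, hv⟩ := X_pow_dvd_iff.2 h4
  have k4 := vanish (b := a + s) (h5.mul k2) (by
      have := h6.mul k3
      rwa [← mul_add, ← Nat.cast_add] at this) (fun n hn => by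
      rw [← map_mul, coeff_map, h3.mul (gs_su h s s) n (by omega), map_zero]) fun n hn => by
      rw [← map_mul, coeff_map, X_pow_dvd_iff.1 (⟨v * u, by rw [hv, hu]; ring⟩ :
        X ^ (a + 1 + s) ∣ y * gs D s s) n (by omega), map_zero]
  rw [← map_mul, map_eq_zero_iff _ map_inj] at k4
  have k5 : gs D s s ≠ 0 := fun e => by
    have := gs_top h s s
    rw [e] at this
    simp at this
  rw [h2, (mul_eq_zero.1 k4).resolve_right k5, add_zero]

/-- **STAB** -/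
theorem stab (h : Eta D) {l a j : ℕ} (hl : l.Prime) (h3 : l ≠ 3) (ha : a ≠ 0) (hj : j ≤ a) :
    ∃ t : ℕ → ℤ, (∀ i, i % 3 ≠ (l * j) % 3 → t i = 0) ∧
      Hat2.Tl l ((l : ℤ) ^ (4 * a - 1)) (gs D a j) =
        ∑ i ∈ Finset.range (a + 1), C (t i) * gs D a i := by
  obtain ⟨F, h1, h2, h4⟩ := gs_form h hj
  have h5 : l % 3 = 1 ∨ l % 3 = 2 := by
    have : l % 3 ≠ 0 := fun e => h3 ((Nat.prime_dvd_prime_iff_eq Nat.prime_three hl).1
      (Nat.dvd_of_mod_eq_zero e)).symm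
    omega
  refine span h (fun n hn => ?_) ⟨_, fun τ => hs_congr ((sm_Ul h2 (4 * a) hl.ne_zero τ).add
    (sm_Vl h2 (4 * a) hl.ne_zero τ)) fun n => ?_, h4.hecke h1.slash hl h3⟩
  · rw [Hat2.Tl, coeff_mk, gs_su h a j (l * n) fun e => hn ?_]
    · split_ifs with hd
      · obtain ⟨m, rfl⟩ := hd
        rw [Nat.mul_div_cancel_left _ hl.pos, gs_su h a j m fun e => hn (by
          rw [Nat.mul_mod, e, ← Nat.mul_mod])]
        simp
      · simp
    · rw [Nat.mul_mod, ← e, Nat.mul_mod l n]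
      rcases h5 with e' | e' <;> rw [e'] <;> omega
  · beta_reduce
    rw [coeff_map, Hat2.Tl, coeff_mk, ← add_smul, coeff_map,
      show (4 * a : ℤ) - 1 = (4 * a - 1 : ℕ) by omega, zpow_natCast]
    split_ifs <;> simp

end Vale.Agent.P022K.UC.Sb
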