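import Vale.Agent.P022K.UC.Fam

/-!
# P022K, block UC: depletion at six; a non zero minor with columns prime to six
-/

set_option autoImplicit false
set_option linter.all false

open PowerSeries UpperHalfPlane CongruenceSubgroup
open scoped MatrixGroups ModularForm Real

noncomputable section

namespace Vale.Agent.P022K.UC.Hd

open Vale.Agent.P022.H218.L3 Hm

theorem SM.up {N M a : ℕ} {x : ℂ⟦X⟧} (h : x ∈ SM (Gamma0 N) a) : x ∈ SM (Gamma0 (M * N)) a := by
  obtain ⟨F, h1, h2⟩ := h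
  refine ⟨F, h1.mono fun γ hγ => ?_, h2⟩
  rw [Gamma0_mem, ZMod.intCast_zmod_eq_zero_iff_dvd] at hγ ⊢
  exact dvd_trans (by push_cast; exact dvd_mul_left _ _) hγ

/-- translation by a third -/
theorem tr_mem {N a : ℕ} [NeZero N] {x : ℂ⟦X⟧} (h : x ∈ SM (Gamma0 N) a) (b : ℕ) :
    (PowerSeries.mk fun n => Complex.exp (2 * π * Complex.I / (3 : ℕ)) ^ (n * b) * coeff n x) ∈
      SM (Gamma0 (9 * N)) a := by
  obtain ⟨A, hA⟩ := growth h
  obtain ⟨F, h1, h2⟩ := h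
  have hp : ∀ τ : ℍ, 0 < ((τ : ℂ) + b / 3).im := fun τ => by simpa using τ.im_pos
  let G : ℍ → ℂ := fun τ => F (ofComplex (τ + b / 3))
  have h3 : Sp (PowerSeries.mk fun n => Complex.exp (2 * π * Complex.I / (3 : ℕ)) ^ (n * b) *
      coeff n x) G := fun τ => by
    have e : Rm.qq (ofComplex (τ + b / 3)) =
        Complex.exp (2 * π * Complex.I / (3 : ℕ)) ^ b * Rm.qq τ := by
      rw [Rm.qq, Ab.coe_of (hp τ), Function.Periodic.qParam, Rm.qq, Function.Periodic.qParam,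
        ← Complex.exp_nat_mul, ← Complex.exp_add]
      congr 1
      push_cast
      ring
    refine Rm.hs_congr (h2 (ofComplex (τ + b / 3))) fun n => ?_
    change coeff n _ • Rm.qq τ ^ n = coeff n x • Rm.qq _ ^ n
    rw [e, coeff_mk, smul_eq_mul, smul_eq_mul]
    ring
  refine ⟨G, isMF_of (A := A) h3 (fun n => ?_) fun γ hγ => ?_, h3⟩
  · rw [coeff_mk, norm_mul, norm_pow, (Complex.isPrimitiveRoot_exp 3 (by norm_num)).norm'_eq_one
      (by norm_num), one_pow, one_mul]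
    exact hA n
  · rw [Gamma0_mem, ZMod.intCast_zmod_eq_zero_iff_dvd] at hγ
    obtain ⟨c, hc⟩ := hγ
    push_cast at hc
    have hd := Ab.det_eq γ
    obtain ⟨e, he⟩ : 3 ∣ γ 1 1 - γ 0 0 := by
      have k : ∀ s t : ZMod 3, s * t = 1 → t - s = 0 := by decide
      refine (ZMod.intCast_zmod_eq_zero_iff_dvd _ 3).1 ?_
      have := congrArg (Int.cast : ℤ → ZMod 3) hd
      rw [hc] at this
      push_cast at this ⊢
      exact k _ _ (by rwa [show (9 : ZMod 3) = 0 from rfl, zero_mul, zero_mul, mul_zero,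
        sub_zero] at this)
    let δ := Ab.sl (γ 0 0 + 3 * b * N * c) (γ 0 1 + b * e - b * b * N * c) (γ 1 0)
      (γ 1 1 - 3 * b * N * c) (by
        rw [hc] at hd ⊢
        linear_combination hd + (3 * b * N * c) * he)
    have hδ : δ ∈ Ab.stab (2 * (a : ℤ)) F := h1.slash δ (by
      rw [Gamma0_mem, ZMod.intCast_zmod_eq_zero_iff_dvd]
      exact ⟨9 * c, hc.trans (by ring)⟩)
    refine Ab.mem_stab.2 fun τ => ?_
    have k1 := Ab.mem_stab.1 hδ (ofComplex (τ + b / 3))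
    have k2 := Ab.coe_smul_mul γ τ
    have c1 : ((γ 1 0 : ℤ) : ℂ) = 9 * N * c := by exact_mod_cast hc
    have c2 : ((γ 1 1 : ℤ) : ℂ) - γ 0 0 = 3 * e := by exact_mod_cast he
    obtain ⟨d1, d2, d3, d4⟩ : δ 0 0 = γ 0 0 + 3 * b * N * c ∧
      δ 0 1 = γ 0 1 + b * e - b * b * N * c ∧ δ 1 0 = γ 1 0 ∧ δ 1 1 = γ 1 1 - 3 * b * N * c :=
      ⟨rfl, rfl, rfl, rfl⟩
    rw [Ab.smul_eq δ _ (hp (γ • τ)) (by
      rw [d1, d2, d3, d4, Ab.coe_of (hp τ)]
      push_cast
      rw [c1] at k2 ⊢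
      linear_combination k2 + (b / 3) * c2), d3, d4, Ab.coe_of (hp τ)] at k1
    refine k1.trans ?_
    congr 2
    push_cast
    rw [c1]
    ring

/-- the part prime to six -/
def d6 {R : Type*} [CommRing R] (x : R⟦X⟧) : R⟦X⟧ :=
  PowerSeries.mk fun n => if n.Coprime 6 then coeff n x else 0

theorem cop6 (n : ℕ) : n.Coprime 6 ↔ Odd n ∧ ¬ 3 ∣ n := by
  rw [show 6 = 2 * 3 from rfl, Nat.coprime_mul_iff_right, Nat.coprime_two_right, Nat.coprime_comm,
    Nat.prime_three.coprime_iff_not_dvd]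

theorem d6_mem {N a : ℕ} [NeZero N] {x : ℂ⟦X⟧} (h : x ∈ SM (Gamma0 N) a) :
    d6 x ∈ SM (Gamma0 (9 * (4 * N))) a := by
  have h1 := od_mem h
  have hζ := Complex.isPrimitiveRoot_exp 3 (by norm_num)
  convert Submodule.smul_mem _ (3 : ℂ)⁻¹ (sub_mem (sub_mem (Submodule.smul_mem _ (2 : ℂ)
    (SM.up (M := 9) h1)) (tr_mem h1 1)) (tr_mem h1 2)) using 1
  ext n
  simp only [d6, od, map_smul, map_sub, coeff_mk, smul_eq_mul, cop6, pow_mul]
  generalize Complex.exp (2 * π * Complex.I / (3 : ℕ)) = ζ at hζ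
  by_cases h3 : 3 ∣ n
  · rw [(hζ.pow_eq_one_iff_dvd n).2 h3, if_neg fun k => k.2 h3]
    ring
  · have k : 1 + ζ ^ n + (ζ ^ n) ^ 2 = 0 := by
      simpa [Finset.sum_range_succ] using (hζ.pow_of_coprime n
        (Nat.prime_three.coprime_iff_not_dvd.2 h3).symm).geom_sum_eq_zero (by norm_num)
    simp only [h3, not_false_iff, and_true]
    linear_combination (3⁻¹ * if Odd n then coeff n x else 0) * k

/-- **HADI**, with the hypotheses written out -/
theorem hadi' (N : ℕ) [NeZero N] (C : ℕ) : ∃ C', ∀ (A : ℕ) (d : ℕ → ℕ)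
    (g : ∀ a, Fin (d a) → ℤ⟦X⟧) (o : ∀ a, Fin (d a) → ℕ),
    (∀ a i, map (Int.castRingHom ℂ) (g a i) ∈ SM (Gamma0 N) (2 * a + 1 + 1)) →
    (∀ a i, coeff (o a i) (g a i) ≠ 0 ∧ ∀ k < o a i, coeff k (g a i) = 0) →
    (∀ a, ∀ k ≤ a + 1, k.Coprime 6 → ∃ i, o a i = k) →
    (∀ a i k, |coeff k (g a i)| ≤ (k + 2) ^ (C * (a + 1))) →
    ∃ (r : ℕ) (e : Fin r → Σ a, Fin (d a)) (ν : Fin r → ℕ) (E : Matrix (Fin r) (Fin r) ℤ),
      (∀ i, (e i).1 ≤ A) ∧ (∀ k, (ν k).Coprime 6) ∧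
      (∀ i k, E i k = (ν k : ℤ) ^ (2 * (A - (e i).1)) * coeff (ν k) (g (e i).1 (e i).2)) ∧
      (A + 1) ^ 2 ≤ C' * r ∧ E.det ≠ 0 ∧ |E.det| ≤ (A + 2) ^ (C' * r * (A + 1)) := by
  refine ⟨4 * ((Sb (Gamma0 (9 * (4 * N))) + 6) * (C + 1) + 2) + 49,
    fun A d g o sm ld big gr => ?_⟩
  obtain ⟨L, hL⟩ : ∃ L, L = A / 7 + 1 := ⟨_, rfl⟩
  have hb : ∀ i : Fin (L * L), (i : ℕ) / L < L ∧ (i : ℕ) % L < L := fun i =>
    ⟨Nat.div_lt_of_lt_mul i.2, Nat.mod_lt _ (by omega)⟩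
  choose s hs using fun i : Fin (L * L) => big (i / L + 6 * (i % L)) (6 * (i % L) + 1)
    (Nat.add_le_add_right (Nat.le_add_left _ _) 1) ((cop6 _).2 ⟨⟨3 * (i % L), by ring⟩, by omega⟩)
  let e : Fin (L * L) → Σ a, Fin (d a) := fun i => ⟨_, s i⟩
  have e1 : ∀ i, (e i).1 = i / L + 6 * (i % L) := fun _ => rfl
  have e2 : ∀ i, o (e i).1 (e i).2 = 6 * (i % L) + 1 := hs
  have hA : ∀ i, (e i).1 ≤ A := fun i => by
    have := hb i
    rw [e1]
    omega
  have em : ∀ x : ℤ⟦X⟧, PowerSeries.map (Int.castRingHom ℂ) (d6 x) =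
      d6 (PowerSeries.map (Int.castRingHom ℂ) x) := fun x => by
    ext n
    simp only [d6, coeff_map, coeff_mk]
    split_ifs <;> simp
  obtain ⟨ν, -, k2, k3⟩ := had (Γ := Gamma0 (9 * (4 * N))) (W := 2 * A + 1)
    (A := C * (2 * A + 1 + 1)) (fun i => 2 * (e i).1 + 1) (fun i => by have := hA i; omega)
    (fun i => d6 (g (e i).1 (e i).2)) (fun i => em _ ▸ d6_mem (sm _ _))
    (fun m => tri _ (fun j => o (e j.1).1 (e j.1).2) (fun j j' k => by
        have a1 := j.2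
        have a2 := j'.2
        simp only [e1, e2] at a1 a2 k
        refine Subtype.ext (Fin.ext ?_)
        rw [← Nat.div_add_mod j.1 L, ← Nat.div_add_mod j'.1 L,
          show (j.1 : ℕ) / L = j'.1 / L by omega, show (j.1 : ℕ) % L = j'.1 % L by omega])
      (fun j => by
        rw [coeff_map, d6, coeff_mk, if_pos (e2 j.1 ▸ (cop6 _).2 ⟨⟨3 * (j.1 % L), by ring⟩,
          by omega⟩), eq_intCast, Int.cast_ne_zero]
        exact (ld _ _).1)
      fun j n hn => by rw [coeff_map, d6, coeff_mk, (ld _ _).2 n hn, ite_self, map_zero])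
    fun j n => by
      rw [d6, coeff_mk]
      split_ifs
      · exact (gr _ _ n).trans (pow_le_pow_right₀ (by omega)
          (Nat.mul_le_mul_left _ (by have := hA j; omega)))
      · rw [abs_zero]
        positivity
  have k5 : ∀ k, (ν k).Coprime 6 := fun k => by
    by_contra k5
    exact k2 (Matrix.det_eq_zero_of_row_eq_zero k fun j => by
      rw [Matrix.of_apply, d6, coeff_mk, if_neg k5, mul_zero])
  rw [← Matrix.det_transpose] at k2 k3
  refine ⟨L * L, e, ν, _, hA, k5, fun i k => ?_, ?_, k2, k3.trans ?_⟩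
  · rw [Matrix.transpose_apply, Matrix.of_apply, d6, coeff_mk, if_pos (k5 k),
      show 2 * A + 1 - (2 * (e i).1 + 1) = 2 * (A - (e i).1) by omega]
  · exact ((Nat.pow_le_pow_left (by omega : A + 1 ≤ 7 * L) 2).trans_eq (by ring)).trans
      (Nat.mul_le_mul_right _ (Nat.le_add_left 49 _))
  · rw [Fintype.card_fin]
    have k6 := num (S := Sb (Gamma0 (9 * (4 * N)))) (A := C) (W := 2 * A + 1) (d := L * L)
      ((sq L).ge.trans (Nat.pow_le_pow_left (by omega) 2))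
    have k7 := k6.trans (Nat.pow_le_pow_left (show 2 * A + 1 + 2 ≤ (A + 2) ^ 2 by nlinarith) _)
    rw [← pow_mul] at k7
    exact_mod_cast k7.trans (Nat.pow_le_pow_right (by omega) (by
      nlinarith [Nat.zero_le (L * L * (A + 1))]))

end Vale.Agent.P022K.UC.Hd
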