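import Vale.Agent.P022K.UC.UcB
import Vale.Agent.P022K.CH.Defs

/-!
# P022K, block UC: the classicality theorem in the words of the chain
-/

set_option autoImplicit false
set_option linter.all false

open NumberField

noncomputable section

namespace Vale.Agent.P022K.UC.Hm

open Vale.Agent.P022 Vale.Agent.P022.C Vale.Agent.P022K.CH

/-- **UC** -/
theorem uc (N : ℕ) [NeZero N] (h2 : 2 ∣ N) {S' S : Finset ℕ} (hs : S' ⊆ S)
    (hS : ∀ l : ℕ, l.Prime → (l ∈ S ↔ l ∣ N)) (ι : Qb →+* Cp 2) {a : ℕ → Qb} (ha : Alg S' a)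
    (h : UCN N fun l => ι (a l)) : Cl S a := by
  obtain ⟨K, _, C, hK⟩ := ha
  replace hK := fun l (h1 : l.Prime) (h3 : ¬ l ∣ N) => hK l (fun e => h3 ((hS l h1).1 (hs e))) h1
  haveI : NumberField K := ⟨⟩
  have h3 : ∀ l : ℕ, ∃ t : 𝓞 K, l.Prime → ¬ l ∣ N → algebraMap K Qb t = (l : Qb) ^ C * a l :=
    fun l => by
      by_cases e : l.Prime ∧ ¬ l ∣ N
      · obtain ⟨k1, k2, -⟩ := hK l e.1 e.2
        exact ⟨⟨⟨_, mul_mem (pow_mem (natCast_mem K l) C) k1⟩, (isIntegral_algHom_iff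
          (algebraMap K Qb).toIntAlgHom (algebraMap K Qb).injective).1 k2⟩, fun _ _ => rfl⟩
      · exact ⟨0, fun e1 e2 => (e ⟨e1, e2⟩).elim⟩
  choose t ht using h3
  let φ : Qb →+* ℂ := (IsAlgClosed.lift (R := ℚ) (S := Qb) (M := ℂ)).toRingHom
  obtain ⟨m, s, M, _, f, r0, r1, r2, r3, r4⟩ := core N h2 (ι.comp (algebraMap K Qb)) (by
      rw [← map_ofNat (algebraMap ℚ_[2] (Cp 2)), norm_algebraMap']
      exact Padic.norm_p_lt_one) C t (fun l k1 k2 ψ => by
      rw [← ComplexEmbedding.lift_algebraMap_apply Qb ψ, ht l k1 k2, map_mul, map_pow,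
        map_natCast, norm_mul, norm_pow, Complex.norm_natCast, two_mul, pow_add]
      exact mul_le_mul_of_nonneg_left ((hK l k1 k2).2.2 _) (by positivity))
    (fun l k1 k2 => by rw [RingHom.comp_apply, ht l k1 k2, map_mul, map_pow, map_natCast]) h
    (φ.comp (algebraMap K Qb))
  refine ⟨m, M, inferInstance, f, φ, r1, fun l k1 k2 => (hS l k1).2 (r2 l k1 k2), fun l hl =>
    ⟨(St.hecke_eq0 _ l f (St.hecke_ex _ l f)).trans ?_,
      (St.dia_eq0 _ l f (St.dia_ex _ l f)).trans (r3 l)⟩⟩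
  have k2 := mt (hS _ l.2.1).2 hl
  rw [r4 l k2, RingHom.comp_apply, ht _ l.2.1 k2, ← r0, pow_add, mul_right_comm, map_mul, map_pow,
    map_natCast, mul_div_cancel_right₀ _ (pow_ne_zero s (Nat.cast_ne_zero.2 l.2.1.ne_zero))]
  rfl

end Vale.Agent.P022K.UC.Hm
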