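import Mathlib

/-!
# P022K, block UC, row HOM: homogenisation

A series `f` with odd exponents such that `θ ^ B f` is congruent modulo `2 ^ j` to a form of pure
weight is, after multiplication with a power of `e = E₂`, congruent to a form of pure weight; the
weight needed for a product of `D` such series grows like a function of `j + D`.
-/

set_option autoImplicit false
set_option linter.all false

open PowerSeries

noncomputable section

namespace Vale.Agent.P022K.UC.Hm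

section abs

variable {R : Type*} [CommRing R]

/-- a graded family -/
structure Fam (L : ℕ → AddSubgroup R) (e : R) (d : ℕ) : Prop where
  one : (1 : R) ∈ L 0
  mul : ∀ {a b : ℕ} {x y : R}, x ∈ L a → y ∈ L b → x * y ∈ L (a + b)
  em : e ∈ L d

/-- `e ^ N * F` is congruent to an element of pure degree -/
def Nr (L : ℕ → AddSubgroup R) (p e : R) (d j N k : ℕ) (F : R) : Prop :=
  ∃ G ∈ L (k + d * N), p ^ j ∣ e ^ N * F - G

/-- approximation with rate `ρ` -/
def Ap (L : ℕ → AddSubgroup R) (p e : R) (d : ℕ) (ρ : ℕ → ℕ) (t k : ℕ) (F : R) : Prop :=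
  ∀ j, Nr L p e d j (ρ (j + t)) k F

variable {L : ℕ → AddSubgroup R} {p e : R} {d : ℕ} {ρ : ℕ → ℕ}

theorem Fam.cast {a b : ℕ} {x : R} (hx : x ∈ L a) (h : a = b) : x ∈ L b := h ▸ hx

theorem Fam.pow (h : Fam L e d) {a : ℕ} {x : R} (hx : x ∈ L a) (n : ℕ) : x ^ n ∈ L (a * n) := by
  induction n with
  | zero => simpa using h.one
  | succ n ih => rw [pow_succ]; exact h.mul ih hx

theorem Nr.up (h : Fam L e d) {j N N' k : ℕ} {F : R} (hF : Nr L p e d j N k F) (hN : N ≤ N') :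
    Nr L p e d j N' k F := by
  obtain ⟨r, rfl⟩ := Nat.exists_eq_add_of_le hN
  obtain ⟨G, h1, h2⟩ := hF
  refine ⟨e ^ r * G, Fam.cast (h.mul (h.pow h.em r) h1) (by ring), ?_⟩
  have := h2.mul_left (e ^ r)
  rwa [show e ^ r * (e ^ N * F - G) = e ^ (N + r) * F - e ^ r * G by ring] at this

theorem sup_mono (hρ : ∀ x y, ρ x + ρ y ≤ ρ (x + y)) {x y : ℕ} (h : x ≤ y) : ρ x ≤ ρ y := by
  obtain ⟨r, rfl⟩ := Nat.exists_eq_add_of_le h
  exact le_trans (Nat.le_add_right _ _) (hρ x r)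

theorem Ap.up (h : Fam L e d) (hρ : ∀ x y, ρ x + ρ y ≤ ρ (x + y)) {t t' k : ℕ} {F : R}
    (hF : Ap L p e d ρ t k F) (ht : t ≤ t') : Ap L p e d ρ t' k F := fun j =>
  (hF j).up h (sup_mono hρ (by omega))

theorem ap_of_mem (h : Fam L e d) {t k : ℕ} {F : R} (hF : F ∈ L k) : Ap L p e d ρ t k F :=
  fun j => Nr.up h (N := 0) ⟨F, hF, by simp⟩ (Nat.zero_le _)

theorem Ap.add {t k : ℕ} {F F' : R} (hF : Ap L p e d ρ t k F) (hF' : Ap L p e d ρ t k F') :
    Ap L p e d ρ t k (F + F') := fun j => by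
  obtain ⟨G, h1, h2⟩ := hF j
  obtain ⟨G', h3, h4⟩ := hF' j
  refine ⟨G + G', add_mem h1 h3, ?_⟩
  have := h2.add h4
  rwa [show e ^ ρ (j + t) * F - G + (e ^ ρ (j + t) * F' - G') =
    e ^ ρ (j + t) * (F + F') - (G + G') by ring] at this

theorem Ap.zsmul {t k : ℕ} {F : R} (hF : Ap L p e d ρ t k F) (c : ℤ) :
    Ap L p e d ρ t k (c * F) := fun j => by
  obtain ⟨G, h1, h2⟩ := hF j
  refine ⟨c • G, zsmul_mem h1 c, ?_⟩
  have := h2.mul_left (c : R)
  rwa [show (c : R) * (e ^ ρ (j + t) * F - G) = e ^ ρ (j + t) * (c * F) - c • G by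
    rw [zsmul_eq_mul]; ring] at this

/-- telescoping -/
theorem Ap.mul (h : Fam L e d) (hρ : ∀ x y, ρ x + ρ y ≤ ρ (x + y)) {t t' k k' : ℕ} {F F' : R}
    (hF : Ap L p e d ρ t k F) (hF' : Ap L p e d ρ t' k' F') :
    Ap L p e d ρ (t + t' + 1) (k + k') (F * F') := by
  intro j
  obtain ⟨N, hN⟩ : ∃ N, N = ρ (j + (t + t' + 1)) := ⟨_, rfl⟩
  have key : ∀ i, i ≤ j → ∀ (G : R) (s : ℕ), G ∈ L (k + d * ρ (i + t)) →
      p ^ i ∣ e ^ ρ (i + t) * F - G → s + ρ (i + t) = N →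
      ∃ G' ∈ L (k + k' + d * N), p ^ j ∣ e ^ s * G * F' - G' := by
    intro i
    induction i with
    | zero =>
      intro _ G s h1 _ h3
      have h4 := hρ (0 + t) (j + t')
      have h5 : ρ (0 + t + (j + t')) ≤ N := hN ▸ sup_mono hρ (by omega)
      obtain ⟨G', h6, h7⟩ := (hF' j).up h (show _ ≤ s by omega)
      refine ⟨G * G', Fam.cast (h.mul h1 h6) (by rw [← h3]; ring), ?_⟩
      have := h7.mul_left G
      rwa [show G * (e ^ s * F' - G') = e ^ s * G * F' - G * G' by ring] at this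
    | succ i ih =>
      intro hi G s h1 h2 h3
      obtain ⟨G0, k1, k2⟩ := hF i
      obtain ⟨r, hr⟩ := Nat.exists_eq_add_of_le (sup_mono hρ (show i + t ≤ i + 1 + t by omega))
      obtain ⟨H, hH⟩ : p ^ i ∣ G - e ^ r * G0 := by
        have := (k2.mul_left (e ^ r)).sub ((pow_dvd_pow p i.le_succ).trans h2)
        rwa [hr, show e ^ r * (e ^ ρ (i + t) * F - G0) - (e ^ (ρ (i + t) + r) * F - G) =
          G - e ^ r * G0 by ring] at this
      have k3 : p ^ i * H ∈ L (k + d * ρ (i + 1 + t)) :=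
        hH ▸ sub_mem h1 (Fam.cast (h.mul (h.pow h.em r) k1) (by rw [hr]; ring))
      obtain ⟨G1, k4, k5⟩ := ih (by omega) G0 (s + r) k1 k2 (by omega)
      obtain ⟨m, hm⟩ := Nat.exists_eq_add_of_le (show i ≤ j by omega)
      have h4 := hρ (i + 1 + t) (m + t')
      have h5 : ρ (i + 1 + t + (m + t')) ≤ N := hN ▸ sup_mono hρ (by omega)
      obtain ⟨G', h6, h7⟩ := (hF' m).up h (show _ ≤ s by omega)
      refine ⟨G1 + p ^ i * H * G', add_mem k4 (Fam.cast (h.mul k3 h6) (by rw [← h3]; ring)), ?_⟩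
      have k6 : p ^ j ∣ p ^ i * (H * (e ^ s * F' - G')) := by
        rw [hm, pow_add]
        exact mul_dvd_mul_left _ (h7.mul_left H)
      have := k5.add k6
      rwa [show e ^ (s + r) * G0 * F' - G1 + p ^ i * (H * (e ^ s * F' - G')) =
        e ^ s * (e ^ r * G0 + p ^ i * H) * F' - (G1 + p ^ i * H * G') by ring,
        show e ^ r * G0 + p ^ i * H = G by rw [← hH]; ring] at this
  obtain ⟨G, h1, h2⟩ := hF j
  obtain ⟨s, hs⟩ := Nat.exists_eq_add_of_le (sup_mono hρ (show j + t ≤ j + (t + t' + 1) by omega))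
  obtain ⟨G', h3, h4⟩ := key j le_rfl G s h1 h2 (by omega)
  refine ⟨G', hN ▸ h3, ?_⟩
  have := (h2.mul_left (e ^ s * F')).add h4
  rwa [show e ^ s * F' * (e ^ ρ (j + t) * F - G) + (e ^ s * G * F' - G') =
    e ^ (ρ (j + t) + s) * (F * F') - G' by ring, ← hs] at this

theorem Ap.mul_pow (h : Fam L e d) (hρ : ∀ x y, ρ x + ρ y ≤ ρ (x + y)) {t k k' : ℕ} {F F' : R}
    (hF : Ap L p e d ρ t k F) (hF' : Ap L p e d ρ 1 k' F') (n : ℕ) :
    Ap L p e d ρ (t + 2 * n) (k + n * k') (F * F' ^ n) := by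
  induction n with
  | zero => simpa using hF
  | succ n ih =>
    have := ih.mul h hρ hF'
    rwa [mul_assoc, ← pow_succ, add_assoc k, ← Nat.succ_mul] at this

/-- homogeneous polynomials in approximable elements -/
theorem ap_aeval [Algebra ℤ R] (h : Fam L e d) (hρ : ∀ x y, ρ x + ρ y ≤ ρ (x + y)) {σ : Type*}
    {g : σ → R} {w : σ → ℕ} (hw : ∀ i, w i ≠ 0) (hg : ∀ i, Ap L p e d ρ 1 (w i) (g i)) {D : ℕ}
    {P : MvPolynomial σ ℤ} (hP : P.IsWeightedHomogeneous w D) :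
    Ap L p e d ρ (2 * D) D (MvPolynomial.aeval g P) := by
  have h1 : ∀ s : σ →₀ ℕ, Ap L p e d ρ (2 * Finsupp.weight w s) (Finsupp.weight w s)
      (s.prod fun i n => g i ^ n) := fun s => by
    induction s using Finsupp.induction with
    | zero => simpa using ap_of_mem h h.one
    | single_add a b f ha hb ih =>
      rw [Finsupp.prod_add_index' (by simp) (fun i m n => pow_add _ _ _),
        Finsupp.prod_single_index (by simp), map_add, Finsupp.weight_single, mul_comm (g a ^ b),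
        add_comm (b • w a), smul_eq_mul]
      have := Nat.le_mul_of_pos_right b (Nat.pos_of_ne_zero (hw a))
      exact (ih.mul_pow h hρ (hg a) b).up h hρ (by omega)
  rw [P.as_sum, map_sum]
  refine Finset.sum_induction _ (Ap L p e d ρ (2 * D) D) (fun _ _ => Ap.add)
    (ap_of_mem h (zero_mem _)) fun s hs => ?_
  rw [MvPolynomial.aeval_monomial, eq_intCast, ← hP (MvPolynomial.mem_support_iff.1 hs)]
  exact (h1 s).zsmul _

end abs

section theta

variable {O : Type*} [CommRing O]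

/-- the operator `θ = q d/dq` -/
def th : O⟦X⟧ →+ O⟦X⟧ where
  toFun F := PowerSeries.mk fun n => (n : O) * coeff n F
  map_zero' := by ext n; simp
  map_add' F G := by ext n; simp [mul_add]

theorem coeff_th (F : O⟦X⟧) (n : ℕ) : coeff n (th F) = (n : O) * coeff n F :=
  coeff_mk n fun n => (n : O) * coeff n F

theorem coeff_th_iter (F : O⟦X⟧) (B n : ℕ) : coeff n (th^[B] F) = (n : O) ^ B * coeff n F := by
  induction B with
  | zero => simp
  | succ B ih => rw [Function.iterate_succ_apply', coeff_th, ih, pow_succ', mul_assoc]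

/-- only odd exponents -/
def Od (F : O⟦X⟧) : Prop := ∀ n, Even n → coeff n F = 0

theorem Od.half {F : O⟦X⟧} (h : Od F) : ∃ H, Od H ∧ th F = F + (H + H) := by
  refine ⟨PowerSeries.mk fun n => ((n / 2 : ℕ) : O) * coeff n F, fun n hn => by simp [h n hn], ?_⟩
  ext n
  rw [coeff_th, map_add, map_add, coeff_mk]
  rcases n.even_or_odd with hn | hn
  · simp [h n hn]
  · have : (n : O) = 1 + ((n / 2 : ℕ) + (n / 2 : ℕ)) := by
      exact_mod_cast congrArg (Nat.cast : ℕ → O)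
        (show n = 1 + (n / 2 + n / 2) by have := Nat.odd_iff.1 hn; omega)
    rw [this]
    ring

/-- the normally ordered action of polynomials in `θ` -/
def ev (F : O⟦X⟧) : Polynomial O⟦X⟧ →ₗ[O⟦X⟧] O⟦X⟧ :=
  (Polynomial.basisMonomials O⟦X⟧).constr O⟦X⟧ fun n => th^[n] F

theorem ev_mon (F : O⟦X⟧) (n : ℕ) (r : O⟦X⟧) : ev F (Polynomial.monomial n r) = r * th^[n] F := by
  rw [show Polynomial.monomial n r = r • Polynomial.basisMonomials O⟦X⟧ n by
    simp [Polynomial.smul_monomial], map_smul, ev, Module.Basis.constr_basis, smul_eq_mul]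

theorem ev_C_mul (F r : O⟦X⟧) (Φ : Polynomial O⟦X⟧) : ev F (Polynomial.C r * Φ) = r * ev F Φ := by
  rw [← Polynomial.smul_eq_C_mul, map_smul, smul_eq_mul]

theorem ev_one (F : O⟦X⟧) : ev F 1 = F := by
  simpa using ev_mon F 0 1

theorem ev_mul_X (F : O⟦X⟧) (Φ : Polynomial O⟦X⟧) : ev F (Φ * Polynomial.X) = ev (th F) Φ := by
  induction Φ using Polynomial.induction_on' with
  | add a b ha hb => rw [add_mul, map_add, map_add, ha, hb]
  | monomial n r => rw [Polynomial.monomial_mul_X, ev_mon, ev_mon, Function.iterate_succ_apply]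

theorem ev_mul_pow (Φ : Polynomial O⟦X⟧) (B : ℕ) :
    ∀ F : O⟦X⟧, ev F (Φ * Polynomial.X ^ B) = ev (th^[B] F) Φ := by
  induction B with
  | zero => simp
  | succ B ih => intro F; rw [pow_succ, ← mul_assoc, ev_mul_X, ih, Function.iterate_succ_apply]

/-- `ev` as an additive function of the series -/
def evA (Φ : Polynomial O⟦X⟧) : O⟦X⟧ →+ O⟦X⟧ :=
  AddMonoidHom.mk' (fun F => ev F Φ) fun F G => by
    induction Φ using Polynomial.induction_on' with
    | add a b ha hb => simp only [map_add, ha, hb]; ring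
    | monomial n r => simp only [ev_mon, iterate_map_add, mul_add]

theorem ev_add (F G : O⟦X⟧) (Φ : Polynomial O⟦X⟧) : ev (F + G) Φ = ev F Φ + ev G Φ :=
  map_add (evA Φ) F G

theorem ev_dvd {F G : O⟦X⟧} {j : ℕ} (h : 2 ^ j ∣ F - G) (Φ : Polynomial O⟦X⟧) :
    2 ^ j ∣ ev F Φ - ev G Φ := by
  obtain ⟨H, hH⟩ := h
  refine ⟨ev H Φ, ?_⟩
  have h1 := map_nsmul (evA Φ) (2 ^ j) H
  rw [nsmul_eq_mul, nsmul_eq_mul, Nat.cast_pow, Nat.cast_ofNat, ← hH, map_sub] at h1
  exact h1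

theorem ev_two {e : O⟦X⟧} (he : 2 ∣ e - 1) (Φ : Polynomial O⟦X⟧) (i : ℕ) :
    ∀ F : O⟦X⟧, Od F → 2 ^ i ∣ ev F ((Polynomial.X - Polynomial.C e) ^ i * Φ) := by
  obtain ⟨c, hc⟩ := he
  induction i with
  | zero => simp
  | succ i ih =>
    intro F hF
    obtain ⟨H, h1, h2⟩ := hF.half
    obtain ⟨Ψ, hΨ⟩ : ∃ Ψ, Ψ = (Polynomial.X - Polynomial.C e) ^ i * Φ := ⟨_, rfl⟩
    rw [← hΨ] at ih
    rw [show (Polynomial.X - Polynomial.C e) ^ (i + 1) * Φ =
      Ψ * Polynomial.X - Polynomial.C e * Ψ by rw [hΨ]; ring, map_sub, ev_mul_X, ev_C_mul, h2,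
      ev_add, ev_add, show e = 1 + 2 * c by rw [← hc]; ring,
      show ev F Ψ + (ev H Ψ + ev H Ψ) - (1 + 2 * c) * ev F Ψ = (ev H Ψ - c * ev F Ψ) * 2 by ring,
      pow_succ]
    exact mul_dvd_mul_right ((ih H h1).sub ((ih F hF).mul_left c)) 2

theorem ex_inv (B j : ℕ) : ∃ P S : Polynomial ℤ, P.natDegree ≤ j ∧
    P * (1 + Polynomial.X) ^ B - 1 = Polynomial.X ^ j * S := by
  induction j with
  | zero => exact ⟨0, -1, by simp, by simp⟩
  | succ j ih =>
    obtain ⟨P, S, h1, h2⟩ := ih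
    obtain ⟨S', h3⟩ : Polynomial.X ∣ S - Polynomial.C (S.coeff 0) * (1 + Polynomial.X) ^ B := by
      rw [Polynomial.X_dvd_iff]
      simp [Polynomial.coeff_zero_eq_eval_zero]
    refine ⟨P - Polynomial.C (S.coeff 0) * Polynomial.X ^ j, S', ?_, ?_⟩
    · refine (Polynomial.natDegree_sub_le _ _).trans (max_le (by omega) ?_)
      exact (Polynomial.natDegree_C_mul_X_pow_le _ _).trans j.le_succ
    · rw [pow_succ, mul_assoc, ← h3, mul_sub, ← h2]
      ring

variable {L : ℕ → AddSubgroup O⟦X⟧} {e : O⟦X⟧} {d : ℕ}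

theorem ev_deg (h : Fam L e d) (ht : ∀ {a : ℕ} {x}, x ∈ L a → th x ∈ L (a + d)) (i : ℕ) :
    ∀ {k : ℕ} {G : O⟦X⟧}, G ∈ L k →
      ev G ((Polynomial.X - Polynomial.C e) ^ i) ∈ L (k + d * i) := by
  induction i with
  | zero => intro k G hG; simpa [ev_one] using hG
  | succ i ih =>
    intro k G hG
    rw [pow_succ, mul_sub, map_sub, ev_mul_X, mul_comm _ (Polynomial.C e), ev_C_mul]
    exact sub_mem (Fam.cast (ih (ht hG)) (by ring)) (Fam.cast (h.mul h.em (ih hG)) (by ring))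

/-- inversion of `θ` -/
theorem nr_of_th (h : Fam L e d) (ht : ∀ {a : ℕ} {x}, x ∈ L a → th x ∈ L (a + d))
    (he : 2 ∣ e - 1) (hu : IsUnit e) {f G : O⟦X⟧} (hf : Od f) {j B k : ℕ} (hG : G ∈ L (k + d * B))
    (hc : 2 ^ j ∣ th^[B] f - G) : Nr L 2 e d j (j + B) k f := by
  obtain ⟨P, S, h1, h2⟩ := ex_inv B j
  obtain ⟨v, hv⟩ := hu.exists_right_inv
  obtain ⟨t, ht0⟩ : ∃ t, t = Polynomial.X - Polynomial.C e := ⟨_, rfl⟩
  have hv' : Polynomial.C e * Polynomial.C v = 1 := by rw [← map_mul, hv, map_one]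
  have h3 := congrArg (Polynomial.aeval (Polynomial.C v * t)) h2
  simp only [map_sub, map_mul, map_pow, map_add, map_one, Polynomial.aeval_X] at h3
  obtain ⟨Φ, hΦ⟩ : ∃ Φ, Φ = Polynomial.C e ^ j * Polynomial.aeval (Polynomial.C v * t) P :=
    ⟨_, rfl⟩
  have h4 : Φ * Polynomial.X ^ B - Polynomial.C (e ^ (j + B)) * 1 =
      t ^ j * (Polynomial.C e ^ B * Polynomial.aeval (Polynomial.C v * t) S) := by
    have e1 : Polynomial.X = Polynomial.C e * (1 + Polynomial.C v * t) := by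
      rw [mul_add, ← mul_assoc, hv', ht0]; ring
    have e2 : t ^ j = Polynomial.C e ^ j * (Polynomial.C v * t) ^ j := by
      rw [← mul_pow, ← mul_assoc, hv', one_mul]
    rw [e2, hΦ, map_pow]
    nth_rewrite 1 [e1]
    rw [mul_pow (Polynomial.C e)]
    linear_combination (Polynomial.C e ^ (j + B)) * h3
  have h5 : ev G Φ ∈ L (k + d * (j + B)) := by
    rw [hΦ, Polynomial.aeval_eq_sum_range' (Nat.lt_succ_of_le h1), Finset.mul_sum, map_sum]
    refine sum_mem fun i hi => ?_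
    obtain ⟨r, rfl⟩ := Nat.exists_eq_add_of_le (Nat.lt_succ_iff.1 (Finset.mem_range.1 hi))
    rw [Algebra.smul_def, eq_intCast, mul_left_comm, ← zsmul_eq_mul, map_zsmul, show Polynomial.C e ^ (i + r) * (Polynomial.C v * t) ^ i =
      Polynomial.C (e ^ r) * ((Polynomial.C e * Polynomial.C v) ^ i * t ^ i) by
        rw [map_pow]; ring, hv', one_pow, one_mul, ev_C_mul, ht0]
    exact zsmul_mem (Fam.cast (h.mul (h.pow h.em r) (ev_deg h ht i hG)) (by ring)) _
  refine ⟨_, h5, ?_⟩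
  have h6 := ev_two he (Polynomial.C e ^ B * Polynomial.aeval (Polynomial.C v * t) S) j f hf
  rw [← ht0, ← h4, map_sub, ev_mul_pow, ev_C_mul, ev_one] at h6
  have := (ev_dvd hc Φ).sub h6
  rwa [sub_sub_sub_cancel_left] at this

end theta

/-- a superadditive rate -/
theorem ex_rate {a b : ℕ} (hb : b ≠ 0) (hab : b ≤ a) (C d : ℕ) : ∃ (ρ : ℕ → ℕ) (C' : ℕ),
    (∀ x y, ρ x + ρ y ≤ ρ (x + y)) ∧ (∀ j B, B ^ b ≤ C * (j + 1) ^ a → j + B ≤ ρ (j + 1)) ∧
    ∀ j D, (D + d * ρ (j + 2 * D)) ^ b ≤ C' * (j + D + 1) ^ a := by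
  obtain ⟨γ, hγ⟩ : ∃ γ : ℝ, γ = a / b := ⟨_, rfl⟩
  have hb0 : (0 : ℝ) < b := by exact_mod_cast Nat.pos_of_ne_zero hb
  have hγ1 : 1 ≤ γ := by rw [hγ, le_div_iff₀ hb0, one_mul]; exact_mod_cast hab
  have hγa : γ ≤ a := by
    rw [hγ]
    exact div_le_self (Nat.cast_nonneg _) (by exact_mod_cast Nat.pos_of_ne_zero hb)
  have hp : ∀ x : ℝ, 0 ≤ x → (x ^ γ) ^ b = x ^ a := fun x hx => by
    rw [← Real.rpow_natCast, ← Real.rpow_mul hx, hγ, div_mul_cancel₀ _ hb0.ne', Real.rpow_natCast]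
  have hl : ∀ x : ℝ, 1 ≤ x → x ≤ x ^ γ := fun x hx => by
    simpa using Real.rpow_le_rpow_of_exponent_le hx hγ1
  refine ⟨fun x => ⌊((C : ℝ) + 2) * (x : ℝ) ^ γ⌋₊, (1 + d * ((C + 2) * 2 ^ a)) ^ b, fun x y => ?_,
    fun j B h => ?_, fun j D => ?_⟩
  · refine Nat.le_floor ?_
    push_cast
    refine (add_le_add (Nat.floor_le (by positivity)) (Nat.floor_le (by positivity))).trans ?_
    rw [← mul_add]
    exact mul_le_mul_of_nonneg_left
      (Real.add_rpow_le_rpow_add (by positivity) (by positivity) hγ1) (by positivity)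
  · refine Nat.le_floor ?_
    push_cast
    have h1 := hl (j + 1) (by linarith [(Nat.cast_nonneg j : (0 : ℝ) ≤ j)])
    have h2 : (B : ℝ) ≤ (C + 1) * ((j : ℝ) + 1) ^ γ := by
      refine le_of_pow_le_pow_left₀ hb (by positivity) ?_
      rw [mul_pow, hp _ (by positivity)]
      have h3 : (C : ℝ) ≤ (C + 1) ^ b := le_trans (by linarith)
        (le_self_pow₀ (by linarith [(Nat.cast_nonneg C : (0 : ℝ) ≤ C)]) hb)
      calc (B : ℝ) ^ b ≤ C * (j + 1) ^ a := by exact_mod_cast h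
        _ ≤ _ := by gcongr
    linarith
  · have h0 : (0 : ℝ) ≤ j := Nat.cast_nonneg j
    have h0' : (0 : ℝ) ≤ D := Nat.cast_nonneg D
    have h1 := hl (j + D + 1) (by linarith)
    have h2 : ((j + 2 * D : ℕ) : ℝ) ^ γ ≤ 2 ^ a * ((j : ℝ) + D + 1) ^ γ := by
      refine le_trans (Real.rpow_le_rpow (by positivity)
        (show _ ≤ 2 * ((j : ℝ) + D + 1) by push_cast; linarith) (by linarith)) ?_
      rw [Real.mul_rpow (by positivity) (by positivity), ← Real.rpow_natCast]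
      gcongr
      exact one_le_two
    have h3 := Nat.floor_le (show 0 ≤ ((C : ℝ) + 2) * ((j + 2 * D : ℕ) : ℝ) ^ γ by positivity)
    have h4 : ((D + d * ⌊((C : ℝ) + 2) * ((j + 2 * D : ℕ) : ℝ) ^ γ⌋₊ : ℕ) : ℝ) ≤
        (1 + d * ((C + 2) * 2 ^ a)) * ((j : ℝ) + D + 1) ^ γ := by
      rw [Nat.cast_add, Nat.cast_mul, add_mul 1, one_mul, mul_assoc, mul_assoc]
      refine add_le_add (by linarith) (mul_le_mul_of_nonneg_left (h3.trans ?_) (by positivity))
      gcongr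
    have h5 := pow_le_pow_left₀ (by positivity) h4 b
    rw [mul_pow, hp _ (by positivity)] at h5
    exact_mod_cast h5

/-- the integral elements of a family of spaces of series -/
def Lam {O E : Type*} [CommRing O] [CommRing E] [Algebra O E] (Q : ℕ → Submodule E E⟦X⟧) (a : ℕ) :
    AddSubgroup O⟦X⟧ :=
  (Q a).toAddSubgroup.comap (PowerSeries.map (algebraMap O E)).toAddMonoidHom

theorem map_th {O E : Type*} [CommRing O] [CommRing E] (φ : O →+* E) (x : O⟦X⟧) :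
    PowerSeries.map φ (th x) = th (PowerSeries.map φ x) := by
  ext n
  simp [coeff_th]

theorem dvd_iff {O : Type*} [CommRing O] (c : O) (x : O⟦X⟧) :
    PowerSeries.C c ∣ x ↔ ∀ n, c ∣ coeff n x := by
  refine ⟨fun ⟨y, hy⟩ n => ⟨coeff n y, by rw [hy, coeff_C_mul]⟩, fun h => ?_⟩
  choose y hy using h
  exact ⟨PowerSeries.mk y, PowerSeries.ext fun n => by rw [coeff_C_mul, coeff_mk, hy]⟩

theorem two_dvd_iff {O : Type*} [CommRing O] (j : ℕ) (x : O⟦X⟧) :
    2 ^ j ∣ x ↔ ∀ n, (2 : O) ^ j ∣ coeff n x := by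
  rw [← dvd_iff, map_pow, map_ofNat]

theorem map_aeval_int {S T σ : Type*} [CommRing S] [CommRing T] [Algebra ℤ S] [Algebra ℤ T]
    (φ : S →+* T) (g : σ → S) (P : MvPolynomial σ ℤ) :
    φ (MvPolynomial.aeval g P) = MvPolynomial.aeval (fun i => φ (g i)) P := by
  induction P using MvPolynomial.induction_on with
  | C a => simp
  | add a b ha hb => simp [ha, hb]
  | mul_X a i ha => simp [ha]

/-- **HOM** -/
theorem hom {A O E σ : Type*} [CommRing A] [CommRing O] [CommRing E] [Algebra O E]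
    (ι : A →+* O) (Q : ℕ → Submodule E E⟦X⟧) {d : ℕ} (e : O⟦X⟧) (h1 : 1 ∈ Q 0)
    (hm : ∀ a b x y, x ∈ Q a → y ∈ Q b → x * y ∈ Q (a + b))
    (ht : ∀ a x, x ∈ Q a → th x ∈ Q (a + d)) (he : PowerSeries.map (algebraMap O E) e ∈ Q d)
    (he2 : ∀ n, 2 ∣ coeff n (e - 1)) (hu : IsUnit e) (g : σ → A⟦X⟧) (w : σ → ℕ) (hw : ∀ i, w i ≠ 0)
    {a b C : ℕ} (hb : b ≠ 0) (hab : b ≤ a)
    (hg : ∀ i, PowerSeries.map (algebraMap O E) (PowerSeries.map ι (g i)) ∈ Q (w i) ∨
      ((∀ n, Even n → coeff n (g i) = 0) ∧ ∀ j, ∃ (B : ℕ) (G : O⟦X⟧), B ^ b ≤ C * (j + 1) ^ a ∧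
        PowerSeries.map (algebraMap O E) G ∈ Q (w i + d * B) ∧
        ∀ n : ℕ, (2 : O) ^ j ∣ (n : O) ^ B * ι (coeff n (g i)) - coeff n G)) :
    ∃ C' : ℕ, ∀ D j, ∃ (W : ℕ) (u : O⟦X⟧), IsUnit u ∧ W ^ b ≤ C' * (j + D + 1) ^ a ∧
      ∀ P : MvPolynomial σ ℤ, P.IsWeightedHomogeneous w D → ∃ H : O⟦X⟧,
        PowerSeries.map (algebraMap O E) H ∈ Q W ∧
        ∀ n, (2 : O) ^ j ∣ coeff n (u * PowerSeries.map ι (MvPolynomial.aeval g P) - H) := by
  obtain ⟨ρ, C', r1, r2, r3⟩ := ex_rate hb hab C d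
  have hL : Fam (Lam Q : ℕ → AddSubgroup O⟦X⟧) e d :=
    ⟨show PowerSeries.map _ 1 ∈ Q 0 by rwa [map_one], fun {a b x y} hx hy =>
      show PowerSeries.map _ (x * y) ∈ Q _ by rw [map_mul]; exact hm _ _ _ _ hx hy, he⟩
  have hT : ∀ {a : ℕ} {x : O⟦X⟧}, x ∈ Lam Q a → th x ∈ Lam Q (a + d) := fun {a x} hx =>
    show PowerSeries.map _ (th x) ∈ Q _ by rw [map_th]; exact ht _ _ hx
  have h2 : 2 ∣ e - 1 := by simpa using (two_dvd_iff 1 (e - 1)).2 (by simpa using he2)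
  have hA : ∀ i, Ap (Lam Q) 2 e d ρ 1 (w i) (PowerSeries.map ι (g i)) := fun i => by
    rcases hg i with h | ⟨h3, h4⟩
    · exact ap_of_mem hL h
    · intro j
      obtain ⟨B, G, k1, k2, k3⟩ := h4 j
      refine (nr_of_th hL hT h2 hu (fun n hn => by simp [h3 n hn]) k2 ?_).up hL (r2 j B k1)
      refine (two_dvd_iff _ _).2 fun n => ?_
      simpa [coeff_th_iter] using k3 n
  refine ⟨C', fun D j => ⟨_, e ^ ρ (j + 2 * D), hu.pow _, r3 j D, fun P hP => ?_⟩⟩
  obtain ⟨H, k1, k2⟩ := ap_aeval hL r1 hw hA hP j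
  refine ⟨H, k1, (two_dvd_iff _ _).1 ?_⟩
  rwa [map_aeval_int]

end Vale.Agent.P022K.UC.Hm
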