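import Vale.Agent.P022K.UC.Ram
import Vale.Agent.P022K.UC.Hom
import Vale.Agent.P022.H29.L3.Sturm
import Vale.Agent.P022.H218.L3.Deg

/-!
# P022K, block UC: the spaces of quasi-modular expansions

`QE E Γ a` is the `E`-span of the rational series among the expansions of the quasi-modular forms
of weight `2 a` for `Γ`.
-/

set_option autoImplicit false
set_option linter.all false

open PowerSeries UpperHalfPlane ModularForm Derivative
open scoped MatrixGroups ModularForm Real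

noncomputable section

namespace Vale.Agent.P022K.UC.Hm

open Vale.Agent.P022.H218.L3

theorem th_eq {R : Type*} [CommRing R] (x : R⟦X⟧) : th x = Rm.th R x := by
  ext n
  rw [coeff_th, Rm.coeff_th]

theorem bdd_D {F : ℍ → ℂ} (h1 : F ∈ Hol) (h2 : IsBoundedAtImInfty F) :
    IsBoundedAtImInfty (D F) := by
  rw [UpperHalfPlane.isBoundedAtImInfty_iff] at h2 ⊢
  obtain ⟨M, A, hM⟩ := h2
  refine ⟨‖(2 * π * Complex.I : ℂ)⁻¹‖ * (M / 1), max A 0 + 2, fun τ hτ => ?_⟩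
  have hb : ∀ z ∈ Metric.closedBall (τ : ℂ) 1, max A 0 + 1 ≤ z.im := fun z hz => by
    have k := (Complex.abs_im_le_norm (z - τ)).trans (mem_closedBall_iff_norm.1 hz)
    rw [Complex.sub_im, UpperHalfPlane.coe_im] at k
    linarith [(abs_le.1 k).1]
  have hp : ∀ z ∈ Metric.closedBall (τ : ℂ) 1, 0 < z.im := fun z hz => by
    linarith [hb z hz, le_max_right A 0]
  have k := Complex.norm_deriv_le_of_forall_mem_sphere_norm_le (c := (τ : ℂ)) one_pos
    ((UpperHalfPlane.mdifferentiable_iff.1 h1).diffContOnCl_ball hp) (C := M) fun z hz => by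
      have h3 := Metric.sphere_subset_closedBall hz
      rw [Function.comp_apply, ofComplex_apply_of_im_pos (hp z h3)]
      refine hM _ ?_
      show A ≤ z.im
      linarith [hb z h3, le_max_left A 0]
  rw [normalizedDerivOfComplex, norm_mul]
  exact mul_le_mul_of_nonneg_left k (norm_nonneg _)

theorem isMF_serre {Γ : Subgroup SL(2, ℤ)} {k : ℤ} {F : ℍ → ℂ} (h : IsMF Γ k F) :
    IsMF Γ (k + 2) (serreDerivative k F) where
  hol := serreDerivative_mdifferentiable _ h.hol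
  slash γ hγ := serreDerivative_slash_invariant h.hol (h.slash γ hγ)
  bdd γ := by
    rw [serreDerivative_slash_equivariant h.hol]
    have h1 := bdd_D (slash_mem h.hol k γ) (h.bdd γ)
    have h2 := (EisensteinSeries.isBoundedAtImInfty_E2.mul (h.bdd γ)).const_mul_left
      ((k : ℂ) * 12⁻¹)
    refine (h1.sub h2).congr_left fun τ => ?_
    rw [serreDerivative_apply, Pi.mul_apply, mul_assoc ((k : ℂ) * 12⁻¹)]

variable (Γ : Subgroup SL(2, ℤ))

/-- the expansions of the modular forms of weight `2 a` -/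
def SM (a : ℕ) : Submodule ℂ ℂ⟦X⟧ where
  carrier := {x | ∃ F, IsMF Γ (2 * (a : ℤ)) F ∧ Sp x F}
  zero_mem' := ⟨0, IsMF.zero, Sp.zero⟩
  add_mem' := fun ⟨F, h1, h2⟩ ⟨G, h3, h4⟩ => ⟨F + G, h1.add h3, h2.add h4⟩
  smul_mem' := fun c _ ⟨F, h1, h2⟩ => ⟨c • F, h1.smul c, h2.smul c⟩

/-- the expansions of the quasi-modular forms of weight `2 a` -/
def QC (a : ℕ) : Submodule ℂ ℂ⟦X⟧ :=
  Submodule.span ℂ {y | ∃ i b x, i + b = a ∧ x ∈ SM Γ b ∧ y = Rm.E2 ℂ ^ i * x}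

/-- the span of the rational series -/
def Rt (E : Type*) [Field E] [CharZero E] (V : Submodule ℂ ℂ⟦X⟧) : Submodule E E⟦X⟧ :=
  Submodule.span E (PowerSeries.map (algebraMap ℚ E) ''
    {y | PowerSeries.map (algebraMap ℚ ℂ) y ∈ V})

/-- the same over `E` -/
def QE (E : Type*) [Field E] [CharZero E] (Γ : Subgroup SL(2, ℤ)) (a : ℕ) : Submodule E E⟦X⟧ :=
  Rt E (QC Γ a)

variable {Γ}

theorem SM.mul {a b : ℕ} {x y : ℂ⟦X⟧} (hx : x ∈ SM Γ a) (hy : y ∈ SM Γ b) :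
    x * y ∈ SM Γ (a + b) := by
  obtain ⟨F, h1, h2⟩ := hx
  obtain ⟨G, h3, h4⟩ := hy
  exact ⟨F * G, by rw [Nat.cast_add, mul_add]; exact h1.mul h3, h2.mul h4⟩

theorem SM.one : (1 : ℂ⟦X⟧) ∈ SM Γ 0 := ⟨1, IsMF.const 1, Sp.one⟩

theorem SM.e4 : Rm.E4 ℂ ∈ SM Γ 2 := ⟨E₄, (isMF_top E₄).mono le_top, Rm.sp_E4⟩

theorem SM.e6 : Rm.E6 ℂ ∈ SM Γ 3 := ⟨E₆, (isMF_top E₆).mono le_top, Rm.sp_E6⟩

theorem SM.serre {a : ℕ} {x : ℂ⟦X⟧} (hx : x ∈ SM Γ a) :
    Rm.th ℂ x - (((2 * (a : ℤ) : ℤ) : ℂ) * 12⁻¹) • (Rm.E2 ℂ * x) ∈ SM Γ (a + 1) := by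
  obtain ⟨F, h1, h2⟩ := hx
  exact ⟨_, by rw [Nat.cast_add, mul_add]; exact isMF_serre h1, Rm.sp_serre h2 _⟩

theorem SM.dim [Γ.FiniteIndex] (a : ℕ) : FiniteDimensional ℂ (SM Γ a) ∧
    Module.finrank ℂ (SM Γ a) ≤ a * Γ.index + 1 := by
  let φ : SM Γ a →ₗ[ℂ] (Fin (a * Γ.index + 1) → ℂ) :=
    LinearMap.pi fun i => (coeff i.1).comp (SM Γ a).subtype
  have hφ : Function.Injective φ := by
    refine (injective_iff_map_eq_zero φ).2 fun ⟨x, F, h1, h2⟩ h => Subtype.ext ?_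
    refine h2.eq_zero_iff.2 (P022.H29.L3.sturm h1 (a := fun n => coeff n x) h2
      (m := a * Γ.index + 1) (fun n hn => congrFun h ⟨n, hn⟩) ?_)
    push_cast
    nlinarith [mul_nonneg (Int.natCast_nonneg a) (Int.natCast_nonneg Γ.index)]
  exact ⟨Module.Finite.of_injective φ hφ, by
    simpa using LinearMap.finrank_le_finrank_of_injective hφ⟩

theorem QC.of {a : ℕ} {x : ℂ⟦X⟧} (hx : x ∈ SM Γ a) : x ∈ QC Γ a :=
  Submodule.subset_span ⟨0, a, x, zero_add a, hx, by simp⟩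

theorem QC.e2 : Rm.E2 ℂ ∈ QC Γ 1 := Submodule.subset_span ⟨1, 0, 1, rfl, SM.one, by simp⟩

theorem span_mul {K : Type*} [Field K] {S T : Set K⟦X⟧} {W : Submodule K K⟦X⟧}
    (h : ∀ x ∈ S, ∀ y ∈ T, x * y ∈ W) {x y : K⟦X⟧} (hx : x ∈ Submodule.span K S)
    (hy : y ∈ Submodule.span K T) : x * y ∈ W := by
  have h1 := Submodule.mul_mem_mul hx hy
  rw [Submodule.span_mul_span] at h1
  refine Submodule.span_le.2 ?_ h1
  rintro _ ⟨a, ha, b, hb, rfl⟩
  exact h a ha b hb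

theorem QC.mul {a b : ℕ} {x y : ℂ⟦X⟧} (hx : x ∈ QC Γ a) (hy : y ∈ QC Γ b) :
    x * y ∈ QC Γ (a + b) := by
  refine span_mul ?_ hx hy
  rintro _ ⟨i, c, x, rfl, h1, rfl⟩ _ ⟨i', c', y, rfl, h2, rfl⟩
  exact Submodule.subset_span ⟨i + i', c + c', x * y, by ring, SM.mul h1 h2, by ring⟩

theorem span_th {K : Type*} [Field K] {S : Set K⟦X⟧} {W : Submodule K K⟦X⟧}
    (h : ∀ x ∈ S, th x ∈ W) {x : K⟦X⟧} (hx : x ∈ Submodule.span K S) : th x ∈ W := by
  induction hx using Submodule.span_induction with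
  | mem y hy => exact h y hy
  | zero => simp
  | add y z _ _ hy hz => rw [map_add]; exact add_mem hy hz
  | smul c y _ hy =>
    rw [th_eq, Derivation.map_smul, ← th_eq]
    exact W.smul_mem c hy

theorem QC.th {a : ℕ} {x : ℂ⟦X⟧} (hx : x ∈ QC Γ a) : th x ∈ QC Γ (a + 1) := by
  refine span_th ?_ hx
  rintro _ ⟨i, b, x, rfl, h1, rfl⟩
  have h2 : Rm.th ℂ (Rm.E2 ℂ) ∈ QC Γ 2 := by
    have h3 := Submodule.smul_mem _ (12 : ℂ)⁻¹
      (sub_mem (QC.mul (Γ := Γ) QC.e2 QC.e2) (QC.of SM.e4))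
    rwa [← pow_two, ← Rm.th_E2, show (12 : ℂ⟦X⟧) * Rm.th ℂ (Rm.E2 ℂ) =
      (12 : ℂ) • Rm.th ℂ (Rm.E2 ℂ) by rw [smul_eq_C_mul, map_ofNat],
      inv_smul_smul₀ (by norm_num)] at h3
  rw [th_eq]
  clear hx
  induction i with
  | zero =>
    have h3 := add_mem (QC.of (SM.serre h1)) (Submodule.smul_mem _
      (((2 * (b : ℤ) : ℤ) : ℂ) * 12⁻¹) (add_comm 1 b ▸ QC.mul QC.e2 (QC.of h1)))
    rw [sub_add_cancel] at h3
    simpa using h3
  | succ i ih =>
    have h3 : Rm.E2 ℂ ^ i * x ∈ QC Γ (i + b) := Submodule.subset_span ⟨i, b, x, rfl, h1, rfl⟩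
    rw [pow_succ', mul_assoc, Rm.th_mul]
    refine add_mem ?_ ?_
    · rw [show i + 1 + b + 1 = 1 + (i + b + 1) by ring]
      exact QC.mul QC.e2 ih
    · rw [show i + 1 + b + 1 = 2 + (i + b) by ring]
      exact QC.mul h2 h3

theorem QC.dim [Γ.FiniteIndex] (a : ℕ) : FiniteDimensional ℂ (QC Γ a) ∧
    Module.finrank ℂ (QC Γ a) ≤ (a + 1) * (a * Γ.index + 1) := by
  induction a with
  | zero =>
    have h1 : QC Γ 0 ≤ SM Γ 0 := Submodule.span_le.2 (by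
      rintro _ ⟨i, b, x, h, hx, rfl⟩
      obtain ⟨rfl, rfl⟩ : i = 0 ∧ b = 0 := by omega
      simpa using hx)
    obtain ⟨h2, h3⟩ := SM.dim (Γ := Γ) 0
    exact ⟨Submodule.finiteDimensional_of_le h1, (Submodule.finrank_mono h1).trans (by omega)⟩
  | succ a ih =>
    obtain ⟨h2, h3⟩ := SM.dim (Γ := Γ) (a + 1)
    obtain ⟨h4, h5⟩ := ih
    have h1 : QC Γ (a + 1) ≤ (QC Γ a).map (LinearMap.mulLeft ℂ (Rm.E2 ℂ)) ⊔ SM Γ (a + 1) :=
      Submodule.span_le.2 (by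
        rintro _ ⟨i, b, x, h, hx, rfl⟩
        rcases i with _ | i
        · obtain rfl : b = a + 1 := by omega
          exact Submodule.mem_sup_right (by simpa using hx)
        · exact Submodule.mem_sup_left ⟨Rm.E2 ℂ ^ i * x,
            Submodule.subset_span ⟨i, b, x, by omega, hx, rfl⟩, by
              rw [LinearMap.mulLeft_apply]; ring⟩)
    refine ⟨Submodule.finiteDimensional_of_le h1, (Submodule.finrank_mono h1).trans
      ((Submodule.finrank_add_le_finrank_add_finrank _ _).trans ?_)⟩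
    have h6 := Submodule.finrank_map_le (LinearMap.mulLeft ℂ (Rm.E2 ℂ)) (QC Γ a)
    nlinarith [Nat.zero_le (a * Γ.index), Nat.zero_le Γ.index]

variable {E : Type*} [Field E] [CharZero E]

theorem Rt.of {V : Submodule ℂ ℂ⟦X⟧} {y : ℚ⟦X⟧} (h : PowerSeries.map (algebraMap ℚ ℂ) y ∈ V) :
    PowerSeries.map (algebraMap ℚ E) y ∈ Rt E V := Submodule.subset_span ⟨y, h, rfl⟩

theorem Rt.dim (V : Submodule ℂ ℂ⟦X⟧) [FiniteDimensional ℂ V] : FiniteDimensional E (Rt E V) ∧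
    Module.finrank E (Rt E V) ≤ Module.finrank ℂ V := by
  obtain ⟨κ, a, -, h2, h3⟩ := exists_linearIndependent' E
    (fun y : {y : ℚ⟦X⟧ | PowerSeries.map (algebraMap ℚ ℂ) y ∈ V} =>
      PowerSeries.map (algebraMap ℚ E) y.1)
  have h4 : LinearIndependent ℂ fun k => (⟨_, (a k).2⟩ : V) := by
    refine linearIndependent_iff'.2 fun s g hg i hi => ?_
    refine (Module.forall_dual_apply_eq_zero_iff ℚ _).1 fun l => ?_
    refine (algebraMap ℚ E).injective ((linearIndependent_iff'.1 h3 s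
      (fun k => algebraMap ℚ E (l (g k))) (PowerSeries.ext fun n => ?_) i hi).trans
      (map_zero _).symm)
    have h5 := congrArg (fun v : V => l (coeff n v.1)) hg
    simp only [Submodule.coe_sum, Submodule.coe_smul, map_sum, map_smul, coeff_map, smul_eq_mul,
      Submodule.coe_zero, map_zero] at h5
    simp only [Function.comp_apply, map_sum, map_smul, coeff_map, smul_eq_mul, map_zero,
      ← map_mul]
    rw [← map_sum, ← map_zero (algebraMap ℚ E), ← h5]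
    refine congrArg _ (Finset.sum_congr rfl fun k _ => ?_)
    rw [mul_comm (g k), ← Algebra.smul_def, map_smul, smul_eq_mul, mul_comm]
  have := h4.finite
  have := Fintype.ofFinite κ
  rw [Rt, Set.image_eq_range, ← h2]
  exact ⟨FiniteDimensional.span_of_finite E (Set.finite_range _),
    (finrank_range_le_card _).trans h4.fintype_card_le_finrank⟩

theorem QE.one : (1 : E⟦X⟧) ∈ QE E Γ 0 := by
  simpa [QE] using Rt.of (E := E) (y := 1) (by simpa using QC.of (Γ := Γ) SM.one)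

theorem QE.mul {a b : ℕ} {x y : E⟦X⟧} (hx : x ∈ QE E Γ a) (hy : y ∈ QE E Γ b) :
    x * y ∈ QE E Γ (a + b) := by
  refine span_mul ?_ hx hy
  rintro _ ⟨x, h1, rfl⟩ _ ⟨y, h2, rfl⟩
  rw [← map_mul]
  exact Rt.of (by rw [map_mul]; exact QC.mul h1 h2)

theorem QE.th {a : ℕ} {x : E⟦X⟧} (hx : x ∈ QE E Γ a) : th x ∈ QE E Γ (a + 1) := by
  refine span_th ?_ hx
  rintro _ ⟨x, h1, rfl⟩
  rw [← map_th]
  exact Rt.of (by rw [map_th]; exact QC.th h1)

theorem QE.es {a : ℕ} {c : ℤ} {r : ℕ} (h : Rm.Es ℂ c r ∈ QC Γ a) : Rm.Es E c r ∈ QE E Γ a := by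
  simpa [Rm.map_Es, QE] using Rt.of (E := E) (y := Rm.Es ℚ c r) (by rwa [Rm.map_Es])

theorem QE.e2 : Rm.E2 E ∈ QE E Γ 1 := QE.es QC.e2

theorem QE.e4 : Rm.E4 E ∈ QE E Γ 2 := QE.es (QC.of SM.e4)

theorem QE.e6 : Rm.E6 E ∈ QE E Γ 3 := QE.es (QC.of SM.e6)

/-- **DIM** -/
theorem QE.dim [Γ.FiniteIndex] (a : ℕ) : FiniteDimensional E (QE E Γ a) ∧
    Module.finrank E (QE E Γ a) ≤ (Γ.index + 1) * (a + 1) ^ 2 := by
  obtain ⟨h1, h2⟩ := QC.dim (Γ := Γ) a
  obtain ⟨h3, h4⟩ := Rt.dim (E := E) (QC Γ a)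
  refine ⟨h3, h4.trans (h2.trans ?_)⟩
  nlinarith [Nat.zero_le (a * Γ.index), Nat.zero_le Γ.index, Nat.zero_le (a * a)]

end Vale.Agent.P022K.UC.Hm
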