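import Vale.Agent.P022K.UC.Stab
import Vale.Agent.P022K.UC.Qm

/-!
# P022K, block UC, row STAB: the lattice form
-/

set_option autoImplicit false

open CongruenceSubgroup PowerSeries

noncomputable section

namespace Vale.Agent.P022K.UC.Sb

open Rm

variable {D : ℤ⟦X⟧}

/-- the lattice of weight `4 a + 4` -/
def Lt (D u : ℤ⟦X⟧) (a : ℕ) : Submodule ℤ ℤ⟦X⟧ :=
  Submodule.span ℤ {x | ∃ i, i ≤ a + 1 ∧ ¬ 3 ∣ i ∧ x = u ^ (a + 1 - i) * D ^ i}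

theorem Tl_add {O : Type*} [CommRing O] (l : ℕ) (lam : O) (x y : O⟦X⟧) :
    Hat2.Tl l lam (x + y) = Hat2.Tl l lam x + Hat2.Tl l lam y := by
  ext n
  simp only [Hat2.Tl, coeff_mk, map_add]
  split_ifs <;> ring

theorem Tl_C {O : Type*} [CommRing O] (l : ℕ) (lam c : O) (x : O⟦X⟧) :
    Hat2.Tl l lam (C c * x) = C c * Hat2.Tl l lam x := by
  ext n
  simp only [Hat2.Tl, coeff_mk, coeff_C_mul]
  split_ifs <;> ring

theorem zs (c : ℤ) (x : ℤ⟦X⟧) : c • x = C c * x := by rw [zsmul_eq_mul, eq_intCast]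

theorem Tl_smul (l : ℕ) (lam c : ℤ) (x : ℤ⟦X⟧) :
    Hat2.Tl l lam (c • x) = c • Hat2.Tl l lam x := by rw [zs, zs, Tl_C]

/-- the expansion with exponents prime to three only -/
theorem stab3 (h : Eta D) {l a j : ℕ} (hl : l.Prime) (h3 : l ≠ 3) (hj : j ≤ a + 1)
    (hj3 : ¬ 3 ∣ j) : ∃ t : ℕ → ℤ, (∀ i, i % 3 ≠ (l * j) % 3 → t i = 0) ∧
      Hat2.Tl l ((l : ℤ) ^ (4 * a + 3)) (gs D (a + 1) j) =
        ∑ i ∈ (Finset.range (a + 2)).filter (¬ 3 ∣ ·), t i • gs D (a + 1) i := by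
  obtain ⟨t, h1, h2⟩ := stab h hl h3 a.succ_ne_zero hj
  refine ⟨t, h1, ?_⟩
  rw [show 4 * a + 3 = 4 * (a + 1) - 1 by omega, h2, Finset.sum_filter]
  refine Finset.sum_congr rfl fun i _ => ?_
  split_ifs with e
  · rw [h1 i fun e' => ?_]
    · simp
    · rcases Nat.prime_three.dvd_mul.1 (Nat.dvd_of_mod_eq_zero
        (e'.symm.trans (Nat.mod_eq_zero_of_dvd e))) with k | k
      · exact h3 ((Nat.prime_dvd_prime_iff_eq Nat.prime_three hl).1 k).symm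
      · exact hj3 k
  · rw [zs]

/-- **STAB**, the lattice form -/
theorem lt_stab (h : Eta D) (a l : ℕ) (hl : l.Prime) (h3 : l ≠ 3) :
    ∀ x ∈ Lt D (V3 (E4 ℤ)) a, Hat2.Tl l ((l : ℤ) ^ (4 * a + 3)) x ∈ Lt D (V3 (E4 ℤ)) a := by
  intro x hx
  induction hx using Submodule.span_induction with
  | mem x hx =>
    obtain ⟨j, hj, hj3, rfl⟩ := hx
    obtain ⟨t, -, h2⟩ := stab3 h hl h3 hj hj3
    rw [← gs, h2]
    refine Submodule.sum_mem _ fun i hi => Submodule.smul_mem _ _ (Submodule.subset_span ?_)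
    obtain ⟨k1, k2⟩ := Finset.mem_filter.1 hi
    exact ⟨i, Nat.lt_succ_iff.1 (Finset.mem_range.1 k1), k2, rfl⟩
  | zero =>
    rw [← zero_smul ℤ (0 : ℤ⟦X⟧), Tl_smul, zero_smul]
    exact zero_mem _
  | add x y _ _ e e' => rw [Tl_add]; exact add_mem e e'
  | smul c x _ e => rw [Tl_smul]; exact Submodule.smul_mem _ _ e

theorem gs_sm (h : Eta D) {a i : ℕ} (hi : i ≤ a + 1) :
    PowerSeries.map (Int.castRingHom ℂ) (gs D (a + 1) i) ∈ Hm.SM (Gamma0 9) (2 * a + 1 + 1) := by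
  obtain ⟨F, h1, h2, -⟩ := gs_form h hi
  refine ⟨F, ?_, h2⟩
  convert h1 using 1
  push_cast
  ring

theorem D_sm (h : Eta D) : PowerSeries.map (Int.castRingHom ℂ) D ∈ Hm.SM (Gamma0 9) 2 :=
  let ⟨F, h1, h2, _⟩ := h.1
  ⟨F, h1, h2⟩

theorem u_sm : PowerSeries.map (Int.castRingHom ℂ) (V3 (E4 ℤ)) ∈ Hm.SM (Gamma0 9) 2 :=
  let ⟨F, h1, h2, _⟩ := e4_form
  ⟨F, h1, h2⟩

end Vale.Agent.P022K.UC.Sb
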