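import Vale.Agent.P022K.UC.AmSt
import Vale.Agent.P022.H368.Dis

/-!
# P022K, block UC, step (4B): expansions, the Hecke relation between functions, and the only
relation between the roots of unity of large prime order
-/

set_option linter.all false

open UpperHalfPlane ModularForm Polynomial
open Function.Periodic (qParam)
open scoped MatrixGroups ModularForm Real

noncomputable section

namespace Vale.Agent.P022K.UC.Ab

/-- `G` is the sum of the series `∑ a n q ^ (n / h)` -/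
def Ex (h : ℝ) (a : ℕ → ℂ) (G : ℍ → ℂ) : Prop :=
  ∀ τ : ℍ, HasSum (fun n : ℕ => a n • qParam h (τ : ℂ) ^ n) (G τ)

theorem coe_of {z : ℂ} (hz : 0 < z.im) : ((ofComplex z : ℍ) : ℂ) = z := by
  rw [ofComplex_apply_of_im_pos hz]

theorem im_sb (τ : ℍ) (x : ℝ) {l : ℕ} (hl : l ≠ 0) : 0 < (((τ : ℂ) + x) / l).im := by
  rw [Complex.div_natCast_im]
  exact div_pos (by simpa using τ.im_pos) (by positivity)

theorem im_up (τ : ℍ) {l : ℕ} (hl : l ≠ 0) : 0 < ((l : ℂ) * τ).im := by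
  simpa using mul_pos (Nat.cast_pos.2 (Nat.pos_of_ne_zero hl)) τ.im_pos

/-- the coefficients spread out -/
def spr (l : ℕ) (a : ℕ → ℂ) (n : ℕ) : ℂ := if l ∣ n then a (n / l) else 0

theorem hasSum_spr {l : ℕ} (hl : l ≠ 0) {a : ℕ → ℂ} {x s : ℂ}
    (h : HasSum (fun n => a n • (x ^ l) ^ n) s) : HasSum (fun n => spr l a n • x ^ n) s := by
  refine ((mul_right_injective₀ hl).hasSum_iff fun n hn => ?_).1 ?_
  · rw [spr, if_neg fun ⟨m, hm⟩ => hn ⟨m, hm.symm⟩, zero_smul]
  · convert h using 2 with n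
    simp [spr, Nat.mul_div_cancel_left _ (Nat.pos_of_ne_zero hl), pow_mul]

namespace Ex

variable {h : ℝ} {a b : ℕ → ℂ} {G G' : ℍ → ℂ}

theorem eq (h1 : Ex h a G) (h2 : Ex h a G') : G = G' := funext fun τ => (h1 τ).unique (h2 τ)

theorem sub (h1 : Ex h a G) (h2 : Ex h b G') : Ex h (a - b) (G - G') := fun τ => by
  simpa [sub_mul] using (h1 τ).sub (h2 τ)

theorem smul (c : ℂ) (h1 : Ex h a G) : Ex h (c • a) (c • G) := fun τ => by
  simpa [mul_assoc] using (h1 τ).mul_left c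

theorem sum {ι : Type*} [Fintype ι] {a : ι → ℕ → ℂ} {G : ι → ℍ → ℂ} (h1 : ∀ i, Ex h (a i) (G i)) :
    Ex h (∑ i, a i) (∑ i, G i) := fun τ => by
  simpa [Finset.sum_mul] using hasSum_sum (s := Finset.univ) fun i _ => h1 i τ

theorem unique (hh : 0 < h) (h1 : Ex h a G) (h2 : Ex h b G) : a = b := by
  have h3 := h1.sub h2
  rw [sub_self] at h3
  have h4 : AnalyticAt ℂ (cuspFunction h (0 : ℍ → ℂ)) 0 := analyticAt_cuspFunction_zero hh
    (fun _ => rfl) mdifferentiable_const (Filter.const_boundedAtFilter _ (0 : ℂ))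
  have h5 := (hasFPowerSeriesOnBall_cuspFunction hh h4 h3).hasFPowerSeriesAt
  have h6 := (hasFPowerSeriesOnBall_cuspFunction (c := 0) hh h4 fun τ => by
    simpa using hasSum_zero).hasFPowerSeriesAt
  funext n
  have h7 := congr_arg (FormalMultilinearSeries.coeff · n) (h5.eq_formalMultilinearSeries h6)
  simpa only [FormalMultilinearSeries.coeff_ofScalars, Pi.sub_apply, Pi.zero_apply,
    sub_eq_zero] using h7

theorem spread (h1 : Ex h a G) {l : ℕ} (hl : l ≠ 0) : Ex (h * l) (spr l a) G := fun τ => by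
  refine hasSum_spr hl ?_
  have h2 : (l : ℂ) ≠ 0 := Nat.cast_ne_zero.2 hl
  convert h1 τ using 4
  rw [qParam, qParam, ← Complex.exp_nat_mul]
  congr 1
  push_cast
  rw [← div_div, mul_div_cancel₀ _ h2]

theorem up (h1 : Ex h a G) {l : ℕ} (hl : l ≠ 0) :
    Ex h (spr l a) fun τ => G (ofComplex (l * τ)) := fun τ => by
  refine hasSum_spr hl ?_
  convert h1 (ofComplex (l * τ)) using 4
  rw [coe_of (im_up τ hl), qParam, qParam, ← Complex.exp_nat_mul]
  congr 1
  ring

theorem sb (hh : h ≠ 0) (h1 : Ex h a G) (l : ℕ) [NeZero l] (β : ℤ) :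
    Ex (h * l) (fun n => a n * ZMod.stdAddChar ((β : ZMod l) * (n : ZMod l)))
      fun τ => G (ofComplex ((τ + (h * β : ℝ)) / l)) := fun τ => by
  convert h1 (ofComplex ((τ + (h * β : ℝ)) / l)) using 2 with n
  have h2 : (l : ℂ) ≠ 0 := Nat.cast_ne_zero.2 (NeZero.ne l)
  have h3 : (h : ℂ) ≠ 0 := Complex.ofReal_ne_zero.2 hh
  have h4 : (β : ZMod l) * (n : ZMod l) = ((β * n : ℤ) : ZMod l) := by push_cast; rfl
  beta_reduce
  rw [coe_of (im_sb τ _ (NeZero.ne l)), h4, ZMod.stdAddChar_coe,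
    smul_eq_mul, smul_eq_mul, mul_assoc, qParam, qParam, ← Complex.exp_nat_mul,
    ← Complex.exp_nat_mul, ← Complex.exp_add]
  congr 2
  push_cast
  field_simp
  ring

end Ex

/-- **the Hecke relation** -/
theorem hecke_fun {S₀ : Finset ℕ} {k : ℤ} {c : ℕ → ℂ} {F : ℍ → ℂ} (hc : Eig S₀ k c)
    (hF : Sm c F) {l : ℕ} [hl : Fact l.Prime] (h2 : l ∉ S₀) (β : ZMod l → ℤ) (e : ZMod l ≃ ZMod l)
    (hβ : ∀ r, (β r : ZMod l) = e r) (τ : ℍ) :
    ∑ r, F (ofComplex ((τ + β r) / l)) =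
      l * (c l * F τ - (l : ℂ) ^ (k - 1) * F (ofComplex (l * τ))) := by
  have h0 := hl.out.ne_zero
  have hF' : Ex 1 c F := hF
  have h1 := Ex.sum fun r => hF'.sb one_ne_zero l (β r)
  have h3 := (((hF'.smul (c l)).sub ((hF'.up h0).smul ((l : ℂ) ^ (k - 1)))).smul l).spread h0
  have h4 : (∑ r, fun n : ℕ => c n * ZMod.stdAddChar ((β r : ZMod l) * (n : ZMod l))) =
      spr l ((l : ℂ) • (c l • c - (l : ℂ) ^ (k - 1) • spr l c)) := by
    funext n
    simp only [Finset.sum_apply, hβ, ← Finset.mul_sum]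
    rw [Equiv.sum_comp e fun r => ZMod.stdAddChar (r * (n : ZMod l)),
      AddChar.sum_mulShift _ (ZMod.isPrimitive_stdAddChar l), ZMod.card, spr]
    simp only [ZMod.natCast_eq_zero_iff]
    split_ifs with h
    · obtain ⟨m, rfl⟩ := h
      have h5 := hc.hecke l m hl.out h2
      simp only [Nat.mul_div_cancel_left _ hl.out.pos, Pi.smul_apply, Pi.sub_apply, smul_eq_mul, spr]
      rw [← h5]
      ring
    · simp
  rw [h4] at h1
  simpa using congrFun (h1.eq h3) τ

/-- **the relations between the roots of unity of large prime order** -/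
theorem cyc {s : Set ℂ} (hs : s.Finite) : ∃ l₀ : ℕ, ∀ (l : ℕ) [Fact l.Prime], l₀ < l →
    ∀ x : ZMod l → ℂ, (∀ r, x r ∈ s) → ∀ u : ZMod l, u ≠ 0 →
      ∑ r, x r * ZMod.stdAddChar (r * u) = 0 → ∀ r, x r = x 0 := by
  classical
  let A := algebraicClosure ℚ ℂ
  have h1 : ∀ y z : ℂ, ∃ φ : Module.Dual A ℂ, φ y = φ z → y = z := fun y z => by
    by_cases h : y = z
    · exact ⟨0, fun _ => h⟩
    · obtain ⟨φ, hφ⟩ := Module.Projective.exists_dual_ne_zero A (sub_ne_zero.2 h)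
      exact ⟨φ, fun h' => absurd (by rw [map_sub, h', sub_self]) hφ⟩
  choose φ hφ using h1
  let t : Set ℂ := (fun p : ℂ × ℂ × ℂ => (φ p.1 p.2.1 p.2.2 : ℂ)) '' s ×ˢ s ×ˢ s
  have : Finite t := (hs.prod (hs.prod hs)).image _
  let K := IntermediateField.adjoin ℚ t
  have : FiniteDimensional ℚ K := IntermediateField.finiteDimensional_adjoin (by
    rintro _ ⟨p, -, rfl⟩
    exact (mem_algebraicClosure_iff'.1 (φ p.1 p.2.1 p.2.2).2))
  have : NumberField K := NumberField.mk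
  refine ⟨(NumberField.discr K).natAbs, fun l hl h x hx u hu h0 r => hφ _ _ ?_⟩
  have h2 : IsPrimitiveRoot (ZMod.stdAddChar u) l := by
    have h3 := (ZMod.isPrimitive_stdAddChar l).zmod_char_eq_one_iff l
    refine ⟨by rw [← AddChar.map_nsmul_eq_pow, nsmul_eq_mul, ZMod.natCast_self, zero_mul,
      AddChar.map_zero_eq_one], fun m hm => ?_⟩
    rw [← AddChar.map_nsmul_eq_pow, h3, nsmul_eq_mul, mul_eq_zero, ZMod.natCast_eq_zero_iff] at hm
    exact hm.resolve_right hu
  have h3 : ∀ r : ZMod l, ZMod.stdAddChar (r * u) = ZMod.stdAddChar u ^ r.val := fun r => by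
    rw [← AddChar.map_nsmul_eq_pow, nsmul_eq_mul, ZMod.natCast_zmod_val]
  let ζ : A := ⟨ZMod.stdAddChar u, mem_algebraicClosure_iff'.2
    ((h2.isIntegral hl.out.pos).tower_top)⟩
  let y : ZMod l → K := fun i => ⟨φ (x r) (x 0) (x i),
    IntermediateField.subset_adjoin _ _ ⟨(x r, x 0, x i), ⟨hx _, hx _, hx _⟩, rfl⟩⟩
  let P : K[X] := ∑ i : ZMod l, monomial i.val (y i)
  have h4 : aeval (ZMod.stdAddChar u) P = 0 := by
    have h5 : ∑ i : ZMod l, ζ ^ i.val • x i = 0 := by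
      rw [← h0]
      exact Finset.sum_congr rfl fun i _ => by rw [h3, mul_comm]; rfl
    have h6 := congrArg (fun z => ((φ (x r) (x 0) z : A) : ℂ)) h5
    simp only [map_sum, map_smul, smul_eq_mul, map_zero] at h6
    simp only [P, map_sum, aeval_monomial]
    push_cast at h6
    rw [← h6]
    exact Finset.sum_congr rfl fun i _ => mul_comm _ _
  have h5 : ∀ i : ZMod l, P.coeff i.val = y i := fun i => by
    simp [P, finset_sum_coeff, coeff_monomial, (ZMod.val_injective l).eq_iff]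
  have h6 : cyclotomic l K ∣ P := by
    rw [h2.minpoly_eq_cyclotomic_of_irreducible (Vale.Agent.P022.H368.Dis.irr K ?_)]
    · exact minpoly.dvd _ _ h4
    · rw [Int.isCoprime_iff_nat_coprime, Int.natAbs_natCast]
      exact (Nat.coprime_of_lt_prime (Int.natAbs_ne_zero.2 (NumberField.discr_ne_zero K)) h
        hl.out)
  obtain ⟨Q, hQ⟩ := h6
  have h7 : Q.natDegree = 0 := by
    by_cases h8 : Q = 0
    · rw [h8, natDegree_zero]
    have h9 : P.natDegree ≤ l - 1 := natDegree_sum_le_of_forall_le _ _ fun i _ =>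
      (natDegree_monomial_le _).trans (Nat.le_sub_one_of_lt i.val_lt)
    rw [hQ, natDegree_mul (cyclotomic_ne_zero _ _) h8, natDegree_cyclotomic,
      Nat.totient_prime hl.out] at h9
    omega
  have h8 : ∀ i : ZMod l, y i = Q.coeff 0 := fun i => by
    rw [← h5, hQ, eq_C_of_natDegree_eq_zero h7, coeff_mul_C, cyclotomic_prime, finset_sum_coeff]
    simp [coeff_X_pow, i.val_lt]
  exact Subtype.ext (congrArg (fun z : K => (z : ℂ)) ((h8 r).trans (h8 0).symm))

end Vale.Agent.P022K.UC.Ab
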