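import Vale.Agent.P022K.UC.Alg1

/-!
# P022K, block UC, step (4B): a series with coefficients of polynomial growth which is fixed by a
subgroup of finite index is a modular form
-/

set_option linter.all false

open UpperHalfPlane ModularForm Filter Asymptotics
open Function.Periodic (qParam invQParam)
open scoped MatrixGroups ModularForm Real Topology Manifold

noncomputable section

namespace Vale.Agent.P022K.UC.Ab

open Vale.Agent.P022.H218.L3

theorem slash_at (F : ℍ → ℂ) (k : ℤ) (γ : SL(2, ℤ)) (τ : ℍ) :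
    F (γ • τ) = ((γ 1 0 : ℂ) * τ + γ 1 1) ^ k * (F ∣[k] γ) τ := by
  have h := denom_ne_zero γ τ
  rw [SL_slash_apply, ← ModularGroup.denom_apply, zpow_neg, mul_left_comm,
    mul_inv_cancel₀ (zpow_ne_zero _ h), mul_one]

theorem smul_eq (γ : SL(2, ℤ)) (τ : ℍ) {z : ℂ} (hz : 0 < z.im)
    (h : z * ((γ 1 0 : ℂ) * τ + γ 1 1) = γ 0 0 * τ + γ 0 1) : γ • τ = ofComplex z := by
  have h1 := denom_ne_zero γ τ
  rw [ModularGroup.denom_apply] at h1
  refine UpperHalfPlane.ext ?_
  rw [coe_of hz, coe_specialLinearGroup_apply]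
  simpa using (eq_div_of_mul_eq h1 h).symm

theorem coe_smul_mul (γ : SL(2, ℤ)) (τ : ℍ) :
    ((γ • τ : ℍ) : ℂ) * ((γ 1 0 : ℂ) * τ + γ 1 1) = γ 0 0 * τ + γ 0 1 := by
  have h1 := denom_ne_zero γ τ
  rw [ModularGroup.denom_apply] at h1
  rw [coe_specialLinearGroup_apply]
  simpa using div_mul_cancel₀ _ h1

theorem per_of_T {G : ℍ → ℂ} {k : ℤ} {M : ℕ} (h : G ∣[k] (ModularGroup.T ^ (M : ℤ)) = G) :
    Function.Periodic (G ∘ ofComplex) ((M : ℝ) : ℂ) := fun z => by
  by_cases hz : 0 < z.im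
  · have h1 := slash_at G k (ModularGroup.T ^ (M : ℤ)) (ofComplex z)
    rw [h, smul_eq _ _ (z := z + (M : ℝ)) (by simpa using hz)
      (by rw [ModularGroup.coe_T_zpow]; simp [coe_of hz]), ModularGroup.coe_T_zpow] at h1
    simpa using h1
  · exact congrArg G (ofComplex_apply_eq_of_im_nonpos (by simpa using hz) (not_lt.1 hz))

theorem bdd_of_poly {G : ℍ → ℂ} {h : ℝ} (hh : 0 < h) (h1 : Function.Periodic (G ∘ ofComplex) h)
    (h2 : G ∈ Hol) {K : ℝ} {B : ℕ} (h3 : ∀ τ : ℍ, 1 ≤ τ.im → ‖G τ‖ ≤ K * (‖(τ : ℂ)‖ + 1) ^ B) :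
    IsBoundedAtImInfty G := by
  have h4 := Function.Periodic.eventually_differentiableAt_cuspFunction_nhds_ne_zero hh h1
    (eventually_comap.2 ((eventually_gt_atTop 0).mono fun y hy z hz =>
      (UpperHalfPlane.mdifferentiable_iff.1 h2).differentiableAt
        (isOpen_upperHalfPlaneSet.mem_nhds (show 0 < z.im from hz ▸ hy))))
  have h5 : Tendsto (fun q => (invQParam h q).im) (𝓝[≠] 0) atTop :=
    tendsto_comap_iff.1 (Function.Periodic.invQParam_tendsto hh)
  have h6 : Tendsto (fun q => Function.Periodic.cuspFunction h (G ∘ ofComplex) q * q)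
      (𝓝[≠] 0) (𝓝 0) := by
    have k1 := (((Real.tendsto_pow_mul_exp_neg_atTop_nhds_zero B).comp
      (h5.const_mul_atTop (show 0 < 2 * π / h by positivity))).const_mul
      (|K| * ((h + 2) * (h / (2 * π))) ^ B))
    rw [mul_zero] at k1
    refine squeeze_zero_norm' ?_ k1
    filter_upwards [h5.eventually_ge_atTop 1, self_mem_nhdsWithin] with q k2 k3
    have k4 : 0 < (invQParam h q).im := by linarith
    have k5 := h3 (ofComplex (invQParam h q)) (by rwa [← coe_im, coe_of k4])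
    have k6 : ‖q‖ = Real.exp (-(2 * π / h * (invQParam h q).im)) := by
      conv_lhs => rw [← Function.Periodic.qParam_right_inv hh.ne' k3, Function.Periodic.norm_qParam]
      congr 1
      ring
    have k7 : |(invQParam h q).re| ≤ h := by
      have k8 : (invQParam h q).re = h / (2 * π) * q.arg := by
        have : invQParam h q = -Complex.I * ((h / (2 * π) : ℝ) * Complex.log q) := by
          rw [invQParam]
          push_cast
          field_simp
          simp
        rw [this]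
        simp only [Complex.mul_re, Complex.neg_re, Complex.I_re, Complex.neg_im, Complex.I_im,
          Complex.im_ofReal_mul, Complex.log_im]
        ring
      rw [k8, abs_mul, abs_of_pos (by positivity)]
      refine (mul_le_mul_of_nonneg_left (Complex.abs_arg_le_pi q) (by positivity)).trans ?_
      field_simp
      norm_num
    have k8 := Complex.norm_le_abs_re_add_abs_im (invQParam h q)
    rw [abs_of_pos k4] at k8
    rw [coe_of k4] at k5
    rw [norm_mul, Function.Periodic.cuspFunction_eq_of_nonzero _ _ k3, Function.comp_apply,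
      Function.comp_apply, ← k6, ← mul_assoc, mul_assoc |K|, ← mul_pow]
    refine mul_le_mul_of_nonneg_right (k5.trans (mul_le_mul (le_abs_self K)
      (pow_le_pow_left₀ (by positivity) ?_ _) (by positivity) (abs_nonneg _))) (norm_nonneg _)
    rw [show (h + 2) * (h / (2 * π)) * (2 * π / h * (invQParam h q).im) =
      (h + 2) * (invQParam h q).im by field_simp]
    nlinarith
  have h7 := Complex.tendsto_limUnder_of_differentiable_on_punctured_nhds_of_isLittleO h4 (by
    simp only [sub_zero]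
    refine (isLittleO_iff_tendsto' ?_).2 ?_
    · filter_upwards [self_mem_nhdsWithin] with q k1 k2
      exact absurd (inv_eq_zero.1 k2) k1
    · have k1 : Tendsto (fun q : ℂ => Function.Periodic.cuspFunction h (G ∘ ofComplex) 0 * q)
          (𝓝[≠] 0) (𝓝 0) := by
        simpa using ((continuous_id.tendsto (0 : ℂ)).mono_left
          (nhdsWithin_le_nhds (s := {0}ᶜ))).const_mul
          (Function.Periodic.cuspFunction h (G ∘ ofComplex) 0)
      simpa [sub_mul] using h6.sub k1)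
  have h8 := (h7.comp ((Function.Periodic.qParam_tendsto hh).comp tendsto_coe_atImInfty)).congr
    fun τ => eq_cuspFunction τ hh.ne' h1
  exact h8.isBigO_one ℝ

variable {c : ℕ → ℂ} {F : ℍ → ℂ} {A : ℕ}

theorem hasSum_bd (A : ℕ) {r : ℝ} (h0 : 0 ≤ r) (h1 : r < 1) : ∃ u : ℕ → ℝ,
    HasSum u (2 ^ A * A.factorial * (1 / (1 - r) ^ (A + 1))) ∧
      ∀ n : ℕ, ((n : ℝ) + 2) ^ A * r ^ n ≤ u n := by
  refine ⟨_, (hasSum_choose_mul_geometric_of_norm_lt_one A (r := r)
    (by rwa [Real.norm_of_nonneg h0])).mul_left ((2 : ℝ) ^ A * A.factorial), fun n => ?_⟩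
  rw [← mul_assoc]
  refine mul_le_mul_of_nonneg_right ?_ (pow_nonneg h0 _)
  have h2 := (Nat.pow_succ_le_ascFactorial (n + 1) A).trans_eq
    (Nat.ascFactorial_eq_factorial_mul_choose n A)
  have h3 : (n + 2) ^ A ≤ 2 ^ A * A.factorial * (n + A).choose A := by
    rw [mul_assoc]
    refine le_trans ?_ (Nat.mul_le_mul_left _ h2)
    rw [← mul_pow]
    exact Nat.pow_le_pow_left (by omega) _
  exact_mod_cast h3

theorem hol_of (hF : Sm c F) (hc : ∀ n, ‖c n‖ ≤ ((n : ℝ) + 2) ^ A) : F ∈ Hol := by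
  refine UpperHalfPlane.mdifferentiable_iff.2 fun z hz => DifferentiableAt.differentiableWithinAt ?_
  obtain ⟨r, h1, h2⟩ := exists_between (Function.Periodic.norm_qParam_lt_one one_pos hz)
  obtain ⟨u, h3, h4⟩ := hasSum_bd A ((norm_nonneg _).trans h1.le) h2
  have h5 := Complex.differentiableOn_tsum_of_summable_norm (U := Metric.ball 0 r)
    (F := fun n q => c n • q ^ n) h3.summable (fun n => by fun_prop) Metric.isOpen_ball
    fun n q hq => le_trans (by
      rw [norm_smul, norm_pow]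
      exact mul_le_mul (hc n) (pow_le_pow_left₀ (norm_nonneg _) (mem_ball_zero_iff.1 hq).le _)
        (by positivity) (by positivity)) (h4 n)
  refine ((h5.differentiableAt (Metric.isOpen_ball.mem_nhds (mem_ball_zero_iff.2 h1))).comp z
    (Function.Periodic.differentiable_qParam z)).congr_of_eventuallyEq ?_
  filter_upwards [isOpen_upperHalfPlaneSet.mem_nhds hz] with w hw
  have h6 := (hF (ofComplex w)).tsum_eq
  rw [coe_of hw] at h6
  exact h6.symm

theorem bound_of (hF : Sm c F) (hc : ∀ n, ‖c n‖ ≤ ((n : ℝ) + 2) ^ A) (τ : ℍ) :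
    ‖F τ‖ ≤ 2 ^ A * A.factorial * (1 + 1 / τ.im) ^ (A + 1) := by
  have h1 := Function.Periodic.norm_qParam_lt_one one_pos τ.im_pos
  obtain ⟨u, h3, h4⟩ := hasSum_bd A (norm_nonneg _) h1
  refine ((hF τ).norm_le_of_bounded h3 fun n => le_trans ?_ (h4 n)).trans ?_
  · rw [norm_smul, norm_pow]
    exact mul_le_mul_of_nonneg_right (hc n) (by positivity)
  · rw [← one_div_pow]
    have h5 := τ.im_pos
    have h6 : ‖qParam 1 (τ : ℂ)‖ * (τ.im + 1) ≤ 1 := by
      rw [Function.Periodic.norm_qParam]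
      refine (mul_le_mul_of_nonneg_left (Real.add_one_le_exp _) (by positivity)).trans ?_
      rw [← Real.exp_add, Real.exp_le_one_iff, coe_im]
      nlinarith [Real.pi_gt_three]
    refine mul_le_mul_of_nonneg_left (pow_le_pow_left₀ (div_nonneg zero_le_one (by linarith)) ?_ _)
      (by positivity)
    rw [div_le_iff₀ (by linarith), one_add_div h5.ne', div_mul_eq_mul_div, le_div_iff₀ h5]
    nlinarith

theorem bdd_of (hF : Sm c F) (hc : ∀ n, ‖c n‖ ≤ ((n : ℝ) + 2) ^ A) {k : ℤ} (γ : SL(2, ℤ)) {M : ℕ}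
    (hM : M ≠ 0) (h : (F ∣[k] γ) ∣[k] (ModularGroup.T ^ (M : ℤ)) = F ∣[k] γ) :
    IsBoundedAtImInfty (F ∣[k] γ) := by
  obtain ⟨a, ha⟩ : ∃ a : ℝ, a = |(γ 1 0 : ℝ)| + |(γ 1 1 : ℝ)| := ⟨_, rfl⟩
  refine bdd_of_poly (by positivity) (per_of_T h) (slash_mem (hol_of hF hc) k γ)
    (K := 2 ^ A * A.factorial * 2 ^ (A + 1) * a ^ (2 * (A + 1) + k.natAbs))
    (B := 2 * (A + 1) + k.natAbs) fun τ hτ => ?_
  obtain ⟨D, hD⟩ : ∃ D, D = ‖denom γ τ‖ := ⟨_, rfl⟩
  have h1 : 1 ≤ D := by
    rw [hD, ModularGroup.denom_apply]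
    by_cases h2 : γ 1 0 = 0
    · have h3 := γ.det_coe
      rw [Matrix.det_fin_two, h2, mul_zero, sub_zero] at h3
      have h4 : (1 : ℝ) ≤ |(γ 1 1 : ℝ)| := by
        exact_mod_cast Int.one_le_abs (right_ne_zero_of_mul_eq_one h3)
      simpa [h2] using h4
    · have h4 : (1 : ℝ) ≤ |(γ 1 0 : ℝ)| := by exact_mod_cast Int.one_le_abs h2
      refine le_trans ?_ (Complex.abs_im_le_norm _)
      simpa [abs_mul, abs_of_pos τ.im_pos] using one_le_mul_of_one_le_of_one_le h4 hτ
  have h2 : D ≤ a * (‖(τ : ℂ)‖ + 1) := by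
    rw [hD, ModularGroup.denom_apply, ha]
    refine (norm_add_le _ _).trans ?_
    rw [norm_mul, Complex.norm_intCast, Complex.norm_intCast]
    nlinarith [abs_nonneg (γ 1 0 : ℝ), abs_nonneg (γ 1 1 : ℝ), norm_nonneg (τ : ℂ)]
  have h3 : 1 + 1 / (γ • τ).im ≤ 2 * D ^ 2 := by
    rw [ModularGroup.im_smul_eq_div_normSq, one_div_div, Complex.normSq_eq_norm_sq]
    have h4 : D ^ 2 / τ.im ≤ D ^ 2 := div_le_self (by positivity) hτ
    rw [hD] at h4 h1 ⊢
    nlinarith
  have h4 : D ^ (-k) ≤ D ^ k.natAbs := by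
    rw [← zpow_natCast]
    exact zpow_le_zpow_right₀ h1 (by omega)
  have h5 := (γ • τ).im_pos
  rw [SL_slash_apply, norm_mul, norm_zpow, ← hD, mul_assoc, ← mul_pow]
  calc _ ≤ 2 ^ A * A.factorial * (2 * D ^ 2) ^ (A + 1) * D ^ k.natAbs :=
        mul_le_mul ((bound_of hF hc _).trans (by gcongr)) h4 (by positivity) (by positivity)
    _ = 2 ^ A * A.factorial * 2 ^ (A + 1) * D ^ (2 * (A + 1) + k.natAbs) := by ring
    _ ≤ _ := by gcongr

end Vale.Agent.P022K.UC.Ab
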