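import Vale.Agent.P022K.UC.AmP

/-!
# P022K, block UC, step (4A): substitutions `X ↦ ξ X ^ N` in Laurent series, Puiseux expansions
-/

set_option autoImplicit false

open Polynomial HahnSeries
open scoped LaurentSeries PowerSeries

noncomputable section

namespace Vale.Agent.P022K.UC.Am

variable {k : Type} [Field k]

/-- `X ↦ X ^ N` -/
def ex (N : ℕ) (hN : N ≠ 0) : k⸨X⸩ →+* k⸨X⸩ :=
  embDomainRingHom (AddMonoidHom.mulLeft (N : ℤ))
    (mul_right_injective₀ (by exact_mod_cast hN))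
    fun _ _ => mul_le_mul_iff_right₀ (by exact_mod_cast Nat.pos_of_ne_zero hN)

theorem coeff_ex {N : ℕ} (hN : N ≠ 0) (z : k⸨X⸩) (n : ℤ) :
    (ex N hN z).coeff (N * n) = z.coeff n :=
  embDomain_coeff (a := n)

theorem coeff_ex' {N : ℕ} (hN : N ≠ 0) (z : k⸨X⸩) {n : ℤ} (h : ¬ (N : ℤ) ∣ n) :
    (ex N hN z).coeff n = 0 :=
  embDomain_of_notMem_range fun ⟨m, hm⟩ => h ⟨m, hm.symm⟩

/-- a coefficient-wise multiplication -/
def cw (c : ℤ → k) (z : k⸨X⸩) : k⸨X⸩ where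
  coeff n := c n * z.coeff n
  isPWO_support' := z.isPWO_support.mono fun n hn h => hn (by simp [h])

theorem coeff_cw (c : ℤ → k) (z : k⸨X⸩) (n : ℤ) : (cw c z).coeff n = c n * z.coeff n := rfl

theorem cw_supp (c : ℤ → k) (z : k⸨X⸩) : (cw c z).support ⊆ z.support :=
  fun n hn h => hn (by simp [coeff_cw, h])

theorem supp_cw {c : ℤ → k} (hc : ∀ n, c n ≠ 0) (z : k⸨X⸩) : (cw c z).support = z.support := by
  ext n
  simp [coeff_cw, hc n]

/-- `X ↦ ξ X` -/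
def rs (ξ : kˣ) : k⸨X⸩ →+* k⸨X⸩ where
  toFun := cw fun n => (ξ : k) ^ n
  map_one' := by
    ext n
    by_cases h : n = 0 <;> simp [coeff_cw, h]
  map_zero' := by
    ext n
    simp [coeff_cw]
  map_add' x y := by
    ext n
    simp [coeff_cw, mul_add]
  map_mul' x y := by
    ext n
    have h := supp_cw (c := fun n : ℤ => (ξ : k) ^ n) fun n => zpow_ne_zero n ξ.ne_zero
    rw [coeff_mul_left' x.isPWO_support (h x).le, coeff_cw,
      coeff_mul_right' (cw (fun n : ℤ => (ξ : k) ^ n) y).isPWO_support (h y).ge, Finset.mul_sum]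
    refine Finset.sum_congr rfl fun ij hij => ?_
    rw [← (Finset.mem_antidiagonal.1 hij).2.2, coeff_cw, coeff_cw, zpow_add₀ ξ.ne_zero]
    ring

theorem coeff_rs (ξ : kˣ) (z : k⸨X⸩) (n : ℤ) : (rs ξ z).coeff n = (ξ : k) ^ n * z.coeff n := rfl

/-- `X ↦ ξ X ^ N` -/
def sb (ξ : kˣ) (N : ℕ) (hN : N ≠ 0) : k⸨X⸩ →+* k⸨X⸩ := (ex N hN).comp (rs ξ)

theorem coeff_sb (ξ : kˣ) {N : ℕ} (hN : N ≠ 0) (z : k⸨X⸩) (n : ℤ) :
    (sb ξ N hN z).coeff (N * n) = (ξ : k) ^ n * z.coeff n := coeff_ex hN _ n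

theorem coeff_sb' (ξ : kˣ) {N : ℕ} (hN : N ≠ 0) (z : k⸨X⸩) {n : ℤ} (h : ¬ (N : ℤ) ∣ n) :
    (sb ξ N hN z).coeff n = 0 := coeff_ex' hN _ h

theorem ex_sb {ξ η : kˣ} {N M : ℕ} (hN : N ≠ 0) (hM : M ≠ 0) (h : η ^ M = ξ) (z : k⸨X⸩) :
    ex M hM (sb ξ N hN z) = sb η N hN (ex M hM z) := by
  ext n
  by_cases h1 : (M : ℤ) ∣ n
  · obtain ⟨a, rfl⟩ := h1
    rw [coeff_ex]
    by_cases h2 : (N : ℤ) ∣ a
    · obtain ⟨b, rfl⟩ := h2
      rw [coeff_sb, mul_left_comm, coeff_sb, coeff_ex, ← h, zpow_mul]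
      simp
    · rw [coeff_sb' _ _ _ h2]
      by_cases h3 : (N : ℤ) ∣ M * a
      · obtain ⟨b, hb⟩ := h3
        rw [hb, coeff_sb, coeff_ex', mul_zero]
        rintro ⟨c, rfl⟩
        refine h2 ⟨c, mul_left_cancel₀ (show (M : ℤ) ≠ 0 by exact_mod_cast hM) ?_⟩
        rw [hb]
        ring
      · rw [coeff_sb' _ _ _ h3]
  · rw [coeff_ex' _ _ h1]
    by_cases h3 : (N : ℤ) ∣ n
    · obtain ⟨b, rfl⟩ := h3
      rw [coeff_sb, coeff_ex' _ _ fun h => h1 (h.mul_left _), mul_zero]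
    · rw [coeff_sb' _ _ _ h3]

theorem lc_eq {z : k⸨X⸩} {n : ℤ} (h : z.coeff n ≠ 0) (h' : ∀ m < n, z.coeff m = 0) :
    z.leadingCoeff = z.coeff n := by
  have h0 : z ≠ 0 := fun e => h (by simp [e])
  rw [leadingCoeff_eq, le_antisymm (order_le_of_coeff_ne_zero h) ((le_order_iff_forall h0).2 h')]

theorem lc_sb (ξ : kˣ) {N : ℕ} (hN : N ≠ 0) (z : k⸨X⸩) :
    (sb ξ N hN z).leadingCoeff = (ξ : k) ^ z.order * z.leadingCoeff := by
  by_cases h0 : z = 0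
  · simp [h0]
  rw [lc_eq (n := N * z.order), coeff_sb, leadingCoeff_eq]
  · rw [coeff_sb]
    exact mul_ne_zero (zpow_ne_zero _ ξ.ne_zero) (coeff_order_eq_zero.not.2 h0)
  · intro m hm
    by_cases h1 : (N : ℤ) ∣ m
    · obtain ⟨a, rfl⟩ := h1
      rw [coeff_sb, coeff_eq_zero_of_lt_order (lt_of_mul_lt_mul_left hm (by positivity)), mul_zero]
    · exact coeff_sb' _ _ _ h1

theorem sb_one {N : ℕ} (hN : N ≠ 0) (z : k⸨X⸩) : sb 1 N hN z = ex N hN z := by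
  rw [sb, RingHom.comp_apply]
  congr 1
  ext n
  simp [coeff_rs]

theorem lc_ex {N : ℕ} (hN : N ≠ 0) (z : k⸨X⸩) : (ex N hN z).leadingCoeff = z.leadingCoeff := by
  rw [← sb_one, lc_sb]
  simp

theorem ex_coe {N : ℕ} (hN : N ≠ 0) (g : k⟦X⟧) :
    ex N hN (ofPowerSeries ℤ k g) = ofPowerSeries ℤ k (PowerSeries.expand N hN g) := by
  ext n
  rw [PowerSeries.coeff_coe]
  by_cases h1 : (N : ℤ) ∣ n
  · obtain ⟨a, rfl⟩ := h1
    have hp : (0 : ℤ) < N := by exact_mod_cast Nat.pos_of_ne_zero hN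
    rw [coeff_ex, PowerSeries.coeff_coe, Int.natAbs_mul, Int.natAbs_natCast,
      PowerSeries.coeff_expand_mul]
    simp only [mul_neg_iff, hp, hp.not_gt, true_and, false_and, or_false]
  · rw [coeff_ex' _ _ h1, PowerSeries.coeff_expand_of_not_dvd, ite_self]
    exact fun h => h1 (Int.natCast_dvd.2 h)

theorem rs_coe (ξ : kˣ) (g : k⟦X⟧) :
    rs ξ (ofPowerSeries ℤ k g) = ofPowerSeries ℤ k (PowerSeries.rescale (ξ : k) g) := by
  ext n
  rw [coeff_rs, PowerSeries.coeff_coe, PowerSeries.coeff_coe]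
  split_ifs with h
  · rw [mul_zero]
  · obtain ⟨m, rfl⟩ := Int.eq_ofNat_of_zero_le (not_lt.1 h)
    simp

theorem ex_single {N : ℕ} (hN : N ≠ 0) (n : ℤ) (c : k) :
    ex N hN (single n c) = single (N * n) c := embDomain_single

/-- **Puiseux**: every polynomial over `k((X))` splits in some `k((X ^ (1 / N)))` -/
theorem pui [IsAlgClosed k] [CharZero k] (p : k⸨X⸩[X]) :
    ∃ (N : ℕ) (hN : N ≠ 0), (p.map (ex N hN)).Splits := by
  obtain ⟨b, hb, hq⟩ := IsLocalization.integerNormalization_spec (nonZeroDivisors k⟦X⟧) p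
  set q := IsLocalization.integerNormalization (nonZeroDivisors k⟦X⟧) p
  have inj := IsFractionRing.injective k⟦X⟧ k⸨X⸩
  have hb0 : algebraMap k⟦X⟧ k⸨X⸩ b ≠ 0 :=
    (map_ne_zero_iff _ inj).2 (nonZeroDivisors.ne_zero hb)
  have hp : p = Polynomial.C (algebraMap k⟦X⟧ k⸨X⸩ b)⁻¹ * q.map (algebraMap k⟦X⟧ k⸨X⸩) := by
    rw [hq, ← algebraMap_smul k⸨X⸩ b p, smul_eq_C_mul, ← mul_assoc, ← Polynomial.C_mul,
      inv_mul_cancel₀ hb0, Polynomial.C_1, one_mul]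
  by_cases h0 : q = 0
  · exact ⟨1, one_ne_zero, by simp [hp, h0]⟩
  obtain ⟨N, hN, β, h⟩ := exists_puiseux _ (monic_integralNormalization h0)
  refine ⟨N, hN, ?_⟩
  set φ : k⟦X⟧ →+* k⸨X⸩ := (ex N hN).comp (algebraMap k⟦X⟧ k⸨X⸩) with hφ
  have e : φ = (algebraMap k⟦X⟧ k⸨X⸩).comp
      (PowerSeries.expand N hN : k⟦X⟧ →ₐ[k] k⟦X⟧).toRingHom := RingHom.ext fun g => ex_coe hN g
  have h1 : (q.integralNormalization.map φ).Splits := by
    rw [e, ← Polynomial.map_map, h]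
    refine Splits.map (Splits.multisetProd fun f hf => ?_) _
    obtain ⟨a, -, rfl⟩ := Multiset.mem_map.1 hf
    exact Splits.X_sub_C a
  have hc : φ q.leadingCoeff ≠ 0 :=
    (map_ne_zero_iff φ ((ex N hN).injective.comp inj)).2 (Polynomial.leadingCoeff_ne_zero.2 h0)
  have h2 : ((q.map φ).scaleRoots (φ q.leadingCoeff)).Splits := by
    rw [← map_scaleRoots _ _ _ hc, ← integralNormalization_mul_C_leadingCoeff, Polynomial.map_mul,
      Polynomial.map_C]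
    exact h1.mul (Splits.C _)
  have h3 := h2.scaleRoots (φ q.leadingCoeff)⁻¹
  rw [← scaleRoots_mul, mul_inv_cancel₀ hc, scaleRoots_one] at h3
  rw [hp, Polynomial.map_mul, Polynomial.map_C, Polynomial.map_map]
  exact h3.C_mul _

/-- **COP**: the scaled substitutions of a polynomial have no common root -/
theorem cop (p : ℂ⸨X⸩[X]) (h0 : p.eval 0 ≠ 0) : ∃ Z : Finset ℝ, (0 : ℝ) ∉ Z ∧
    ∀ (ξ ξ' : ℂˣ) (N N' : ℕ) (hN : N ≠ 0) (hN' : N' ≠ 0) (u u' : ℂ⸨X⸩), ‖(ξ : ℂ)‖ = 1 →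
      ‖(ξ' : ℂ)‖ = 1 → u ≠ 0 → u' ≠ 0 →
      (∀ a ∈ Z, ∀ b ∈ Z, a * ‖u'.leadingCoeff‖ ≠ b * ‖u.leadingCoeff‖) →
      IsCoprime ((p.map (sb ξ N hN)).comp (Polynomial.C u * X))
        ((p.map (sb ξ' N' hN')).comp (Polynomial.C u' * X)) := by
  classical
  obtain ⟨M, hM, hs⟩ := pui p
  have hp0 : p ≠ 0 := fun e => h0 (by simp [e])
  have hq0 : p.map (ex M hM) ≠ 0 := Polynomial.map_ne_zero hp0
  refine ⟨((p.map (ex M hM)).roots.map fun ρ => ‖ρ.leadingCoeff‖).toFinset, fun h => ?_, ?_⟩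
  · obtain ⟨ρ, h1, h2⟩ := Multiset.mem_map.1 (Multiset.mem_toFinset.1 h)
    rw [norm_eq_zero, HahnSeries.leadingCoeff_eq_zero] at h2
    have h3 := (mem_roots hq0).1 h1
    rw [h2, IsRoot.def, ← map_zero (ex M hM), eval_map, eval₂_at_apply] at h3
    exact h0 (RingHom.injective _ h3)
  have key : ∀ (ξ : ℂˣ) (N : ℕ) (hN : N ≠ 0) (u : ℂ⸨X⸩), ‖(ξ : ℂ)‖ = 1 → u ≠ 0 →
      ∃ q : ℂ⸨X⸩[X], q = ((p.map (sb ξ N hN)).comp (Polynomial.C u * X)).map (ex M hM) ∧ q ≠ 0 ∧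
      q.Splits ∧ ∀ y, q.eval y = 0 → ∃ ρ ∈ (p.map (ex M hM)).roots,
        ‖ρ.leadingCoeff‖ = ‖u.leadingCoeff‖ * ‖y.leadingCoeff‖ := by
    intro ξ N hN u hξ hu
    obtain ⟨η, hη⟩ := IsAlgClosed.exists_pow_nat_eq (ξ : ℂ) (Nat.pos_of_ne_zero hM)
    have hη0 : η ≠ 0 := fun e => ξ.ne_zero (by rw [← hη, e, zero_pow hM])
    have hη1 : ‖η‖ = 1 := by
      have := congrArg norm hη
      rw [norm_pow, hξ] at this
      exact (pow_eq_one_iff_of_nonneg (norm_nonneg _) hM).1 this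
    have e : (ex M hM).comp (sb ξ N hN) = (sb (Units.mk0 η hη0) N hN).comp (ex M hM) :=
      RingHom.ext fun z => ex_sb hN hM (Units.ext (by simpa using hη)) z
    refine ⟨_, rfl, ?_⟩
    rw [Polynomial.map_comp, Polynomial.map_map, e, ← Polynomial.map_map, Polynomial.map_mul,
      Polynomial.map_C, map_X]
    refine ⟨fun h => ?_, (hs.map _).comp_of_natDegree_le_one (natDegree_C_mul_le _ _ |>.trans
      natDegree_X_le), fun y hy => ?_⟩
    · have h1 := congrArg (eval 0) h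
      rw [eval_comp, eval_mul, eval_X, mul_zero, eval_zero, Polynomial.map_map,
        ← map_zero ((sb (Units.mk0 η hη0) N hN).comp (ex M hM)), eval_map, eval₂_at_apply] at h1
      exact h0 (RingHom.injective _ h1)
    · rw [eval_comp, eval_mul, eval_C, eval_X] at hy
      have h1 : ex M hM u * y ∈ ((p.map (ex M hM)).map (sb (Units.mk0 η hη0) N hN)).roots :=
        (mem_roots (Polynomial.map_ne_zero hq0)).2 hy
      rw [hs.roots_map] at h1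
      obtain ⟨ρ, h2, h3⟩ := Multiset.mem_map.1 h1
      refine ⟨ρ, h2, ?_⟩
      have h4 := congrArg (fun z : ℂ⸨X⸩ => ‖z.leadingCoeff‖) h3
      simpa [lc_sb, HahnSeries.leadingCoeff_mul, lc_ex, hη1] using h4
  intro ξ ξ' N N' hN hN' u u' hξ hξ' hu hu' hZ
  rw [← isCoprime_map (ex M hM)]
  obtain ⟨q, e, q0, qs, qr⟩ := key ξ N hN u hξ hu
  obtain ⟨q', e', -, -, qr'⟩ := key ξ' N' hN' u' hξ' hu'
  rw [← e, ← e', ← EuclideanDomain.gcd_isUnit_iff]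
  by_contra hg
  have g0 : EuclideanDomain.gcd q q' ≠ 0 := fun h => q0 (EuclideanDomain.gcd_eq_zero_iff.1 h).1
  obtain ⟨y, hy⟩ := (qs.of_dvd q0 (EuclideanDomain.gcd_dvd_left q q')).exists_eval_eq_zero
    fun h => hg (isUnit_iff_degree_eq_zero.2 h)
  obtain ⟨ρ, h1, h2⟩ := qr y (eval_eq_zero_of_dvd_of_eval_eq_zero
    (EuclideanDomain.gcd_dvd_left q q') hy)
  obtain ⟨ρ', h1', h2'⟩ := qr' y (eval_eq_zero_of_dvd_of_eval_eq_zero
    (EuclideanDomain.gcd_dvd_right q q') hy)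
  refine hZ _ (Multiset.mem_toFinset.2 (Multiset.mem_map_of_mem _ h1)) _
    (Multiset.mem_toFinset.2 (Multiset.mem_map_of_mem _ h1')) ?_
  rw [h2, h2']
  ring

end Vale.Agent.P022K.UC.Am
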