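import Vale.Agent.P022K.UC.Am1

/-!
# P022K, block UC, step (4A): an algebraic function whose derivatives are all integral over
`K[t]` is a polynomial
-/

set_option autoImplicit false

open Polynomial HahnSeries
open scoped LaurentSeries PowerSeries IntermediateField

noncomputable section

namespace Vale.Agent.P022K.UC.Am

/-- a derivation -/
structure Der {L : Type} [CommRing L] (δ : L → L) : Prop where
  add : ∀ a b, δ (a + b) = δ a + δ b
  mul : ∀ a b, δ (a * b) = a * δ b + b * δ a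

namespace Der

variable {L : Type} [CommRing L] {δ : L → L} (h : Der δ)
include h

theorem zero : δ 0 = 0 := by simpa using h.mul 0 0

theorem one : δ 1 = 0 := by simpa using h.mul 1 1

theorem pow (a : L) (n : ℕ) : δ (a ^ n) = n * a ^ (n - 1) * δ a := by
  induction n with
  | zero => simp [h.one]
  | succ n ih =>
    rw [pow_succ, h.mul, ih]
    cases n with
    | zero => simp
    | succ n =>
      simp only [Nat.add_sub_cancel]
      push_cast
      ring

theorem cmul (c : L) : Der fun a => c * δ a :=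
  ⟨fun a b => by rw [h.add, mul_add], fun a b => by rw [h.mul]; ring⟩

theorem sum {ι : Type} (s : Finset ι) (f : ι → L) : δ (∑ i ∈ s, f i) = ∑ i ∈ s, δ (f i) := by
  classical
  induction s using Finset.induction_on with
  | empty => simpa using h.zero
  | insert a s ha ih => rw [Finset.sum_insert ha, Finset.sum_insert ha, h.add, ih]

end Der

variable {K : Type} [Field K]

/-- `δ` is `d / dX` on the image of `K[X]` -/
def Cp {L : Type} [CommRing L] (φ : K[X] →+* L) (δ : L → L) : Prop :=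
  Der δ ∧ ∀ a, δ (φ a) = φ (derivative a)

theorem form (m : K[X][X]) : ∃ m₁ : K[X][X], ∀ (L : Type) [CommRing L] (φ : K[X] →+* L)
    (δ : L → L), Cp φ δ → ∀ w, δ (eval₂ φ w m) = eval₂ φ w m₁ + eval₂ φ w (derivative m) * δ w := by
  induction m using Polynomial.induction_on' with
  | add p q hp hq =>
    obtain ⟨p₁, hp⟩ := hp
    obtain ⟨q₁, hq⟩ := hq
    refine ⟨p₁ + q₁, fun L _ φ δ h w => ?_⟩
    rw [eval₂_add, h.1.add, hp L φ δ h, hq L φ δ h, derivative_add, eval₂_add, eval₂_add]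
    ring
  | monomial n a =>
    refine ⟨monomial n (derivative a), fun L _ φ δ h w => ?_⟩
    rw [derivative_monomial, eval₂_monomial, eval₂_monomial, eval₂_monomial, h.1.mul, h.1.pow, h.2,
      map_mul, map_natCast]
    ring

theorem cp_of {L : Type} [CommRing L] {φ : K[X] →+* L} {δ : L → L} (h : Der δ)
    (hC : ∀ c, δ (φ (Polynomial.C c)) = 0) (hX : δ (φ X) = 1) : Cp φ δ := by
  refine ⟨h, fun a => ?_⟩
  induction a using Polynomial.induction_on' with
  | add p q hp hq => rw [map_add, h.add, hp, hq, derivative_add, map_add]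
  | monomial n a =>
    rw [derivative_monomial, ← C_mul_X_pow_eq_monomial, ← C_mul_X_pow_eq_monomial, map_mul, map_pow,
      h.mul, h.pow, hC, hX]
    simp only [map_mul, map_natCast, map_pow]
    ring

variable [CharZero K]

theorem exists_sep {M : Type} [Field M] [Algebra K[X] M] [FaithfulSMul K[X] M] {w : M}
    (hw : IsAlgebraic K[X] w) : ∃ m : K[X][X], aeval w m = 0 ∧ aeval w (derivative m) ≠ 0 := by
  obtain ⟨m, h0, hm⟩ := hw
  induction h : m.natDegree using Nat.strong_induction_on generalizing m with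
  | _ n ih =>
  by_cases h1 : aeval w (derivative m) = 0
  · have h2 : m.natDegree ≠ 0 := fun e => by
      rw [eq_C_of_natDegree_eq_zero e, aeval_C,
        map_eq_zero_iff _ (FaithfulSMul.algebraMap_injective _ _)] at hm
      exact h0 (by rw [eq_C_of_natDegree_eq_zero e, hm, map_zero])
    exact ih _ (h ▸ natDegree_derivative_lt h2) _
      (fun e => h2 (derivative_eq_zero.1 e)) h1 rfl
  · exact ⟨m, hm, h1⟩

/-- the derivative of an algebraic function is canonical -/
theorem can {M : Type} [Field M] [Algebra K[X] M] [FaithfulSMul K[X] M] {w : M}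
    (hw : IsAlgebraic K[X] w) : ∃ (w₁ : M) (P : K[X]), P ≠ 0 ∧
      algebraMap K[X] M P * w₁ ∈ Algebra.adjoin K[X] {w} ∧
      ∀ (L : Type) [Field L] (ι : M →+* L) (δ : L → L), Cp (ι.comp (algebraMap K[X] M)) δ →
        δ (ι w) = ι w₁ := by
  obtain ⟨m, hm, h1⟩ := exists_sep hw
  obtain ⟨m₁, h⟩ := form m
  have hle : Algebra.adjoin K[X] {w} ≤ Subalgebra.algebraicClosure K[X] M :=
    Algebra.adjoin_le (Set.singleton_subset_iff.2 hw)
  have h2 : IsAlgebraic K[X] (aeval w (derivative m)) := hle (aeval_mem_adjoin_singleton _ _)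
  obtain ⟨r, hr, P, hP, e⟩ := h2.exists_nonzero_eq_adjoin_mul (mem_nonZeroDivisors_of_ne_zero h1)
  refine ⟨-aeval w m₁ / aeval w (derivative m), P, hP, ?_, fun L _ ι δ hc => ?_⟩
  · rw [← e, mul_right_comm, mul_div_cancel₀ _ h1]
    exact mul_mem (neg_mem (aeval_mem_adjoin_singleton _ _)) (Algebra.adjoin_le
      (Set.singleton_subset_iff.2 (aeval_mem_adjoin_singleton _ _)) hr)
  · have h3 := h L _ δ hc (ι w)
    rw [← hom_eval₂, ← hom_eval₂, ← hom_eval₂, ← aeval_def, ← aeval_def, ← aeval_def, hm, map_zero,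
      hc.1.zero] at h3
    rw [map_div₀, eq_div_iff ((_root_.map_ne_zero ι).2 h1), map_neg]
    linear_combination -h3

/-! ### the point at infinity -/

section inf

variable {k : Type} [Field k]

theorem der_th : Der (cw (k := k) fun n => (n : k)) := by
  refine ⟨fun x y => ?_, fun x y => ?_⟩
  · ext n
    simp [coeff_cw, mul_add]
  · ext n
    rw [HahnSeries.coeff_add, mul_comm y, coeff_mul_right' y.isPWO_support (cw_supp _ y),
      coeff_mul_left' x.isPWO_support (cw_supp _ x), coeff_cw, HahnSeries.coeff_mul,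
      ← Finset.sum_add_distrib, Finset.mul_sum]
    refine Finset.sum_congr rfl fun ij hij => ?_
    rw [← (Finset.mem_antidiagonal.1 hij).2.2, coeff_cw, coeff_cw]
    push_cast
    ring

/-- `d / dt` for `t = X ^ (-N)` -/
def dI (N : ℕ) (z : k⸨X⸩) : k⸨X⸩ := single (N : ℤ) (-(N : k)⁻¹) * cw (fun n => (n : k)) z

theorem dI_ord {N : ℕ} (hN : N ≠ 0) {z : k⸨X⸩} {b : ℤ} (h : (b : WithTop ℤ) ≤ z.orderTop) :
    ((b + 1 : ℤ) : WithTop ℤ) ≤ (dI N z).orderTop := by
  rw [le_orderTop_iff_forall] at h ⊢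
  intro j hj
  rw [dI, coeff_single_mul, coeff_cw, h, mul_zero, mul_zero]
  have : j < b + 1 := by exact_mod_cast hj
  exact_mod_cast (by omega : j - N < b)

theorem dI_iter {N : ℕ} (hN : N ≠ 0) {z : k⸨X⸩} {b : ℤ} (h : (b : WithTop ℤ) ≤ z.orderTop) (n : ℕ) :
    ((b + n : ℤ) : WithTop ℤ) ≤ ((dI N)^[n] z).orderTop := by
  induction n with
  | zero => simpa using h
  | succ n ih =>
    rw [Function.iterate_succ_apply', Nat.cast_succ, ← add_assoc]
    exact dI_ord hN ih

/-- `t ↦ X ^ (-N)` -/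
def ps (ρ : K →+* k) (N : ℕ) : K[X] →+* k⸨X⸩ :=
  eval₂RingHom (HahnSeries.C.comp ρ) (single (-(N : ℤ)) 1)

omit [CharZero K] in
theorem ps_coeff (ρ : K →+* k) {N : ℕ} (hN : N ≠ 0) (a : K[X]) (n : ℕ) :
    (ps ρ N a).coeff (-(N * n)) = ρ (a.coeff n) := by
  induction a using Polynomial.induction_on' with
  | add p q hp hq => rw [map_add, HahnSeries.coeff_add, hp, hq, Polynomial.coeff_add, map_add]
  | monomial m a =>
    rw [ps, coe_eval₂RingHom, eval₂_monomial, single_pow, RingHom.comp_apply, C_apply,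
      single_mul_single, Polynomial.coeff_monomial, coeff_single]
    have : -((N : ℤ) * n) = 0 + m • (-(N : ℤ)) ↔ m = n := by
      rw [zero_add, nsmul_eq_mul, mul_neg, neg_inj, mul_comm,
        mul_left_inj' (by exact_mod_cast hN), Nat.cast_inj, eq_comm]
    simp only [this]
    split_ifs <;> simp

omit [CharZero K] in
theorem ps_ord (ρ : K →+* k) {N : ℕ} (hN : N ≠ 0) {a : K[X]} (ha : a ≠ 0) :
    (ps ρ N a).orderTop ≤ 0 := by
  have h : (ps ρ N a).coeff (-(N * a.natDegree)) ≠ 0 := by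
    rw [ps_coeff ρ hN]
    exact (_root_.map_ne_zero ρ).2 (Polynomial.leadingCoeff_ne_zero.2 ha)
  refine (orderTop_le_of_coeff_ne_zero h).trans ?_
  exact_mod_cast (neg_nonpos.2 (by positivity) : -((N : ℤ) * a.natDegree) ≤ 0)

omit [CharZero K] in
theorem ps_inj (ρ : K →+* k) {N : ℕ} (hN : N ≠ 0) : Function.Injective (ps ρ N) := by
  rw [injective_iff_map_eq_zero]
  intro a h
  by_contra ha
  have := ps_ord ρ hN ha
  simp [h] at this

omit [CharZero K] in
theorem ps_cp [CharZero k] (ρ : K →+* k) {N : ℕ} (hN : N ≠ 0) : Cp (ps ρ N) (dI N) := by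
  refine cp_of (der_th.cmul _) (fun c => ?_) ?_
  · have : cw (fun n => (n : k)) (ps ρ N (Polynomial.C c)) = 0 := by
      ext n
      by_cases h : n = 0 <;> simp [ps, coeff_cw, h]
    rw [dI, this, mul_zero]
  · have : cw (fun n => (n : k)) (ps ρ N X) = single (-(N : ℤ)) (-(N : k)) := by
      ext n
      by_cases h : n = -N <;> simp [ps, coeff_cw, h]
    have h0 : (N : k) ≠ 0 := by exact_mod_cast hN
    rw [dI, this, single_mul_single]
    simp [h0]

omit [CharZero K] in
theorem ex_ps (ρ : K →+* k) {N : ℕ} (hN : N ≠ 0) : (ex N hN).comp (ps ρ 1) = ps ρ N := by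
  ext1
  · ext1 c
    simp [ps, ex_single]
  · simp [ps, ex_single]

theorem ord_prod {s : Multiset k⸨X⸩} (h : ∀ z ∈ s, (1 : WithTop ℤ) ≤ z.orderTop) :
    ((s.card : ℤ) : WithTop ℤ) ≤ s.prod.orderTop := by
  induction s using Multiset.induction_on with
  | empty => simp
  | cons a s ih =>
    rw [Multiset.prod_cons, orderTop_mul, Multiset.card_cons, Nat.cast_succ, WithTop.coe_add,
      add_comm]
    exact add_le_add (h a (by simp)) (ih fun z hz => h z (by simp [hz]))

end inf

section main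

variable {L F k : Type} [Field L] [Field F] [Field k] [Algebra K[X] L] [Algebra K[X] F]
  [IsFractionRing K[X] F] [Algebra F L] [IsScalarTower K[X] F L] [Algebra F k⸨X⸩]

theorem exists_der {y : L} (hy : IsIntegral F y) : ∃ d : F⟮y⟯ → F⟮y⟯,
    ∀ (L' : Type) [Field L'] (ι : F⟮y⟯ →+* L') (δ' : L' → L'),
      Cp (ι.comp ((algebraMap F F⟮y⟯).comp (algebraMap K[X] F))) δ' →
      ∀ n w, δ'^[n] (ι w) = ι (d^[n] w) := by
  have : Algebra.IsAlgebraic F F⟮y⟯ := IntermediateField.isAlgebraic_adjoin_simple hy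
  have : Algebra.IsAlgebraic K[X] F := IsLocalization.isAlgebraic F (nonZeroDivisors K[X])
  have : Algebra.IsAlgebraic K[X] F⟮y⟯ := Algebra.IsAlgebraic.trans K[X] F F⟮y⟯
  have e := IsScalarTower.algebraMap_eq K[X] F F⟮y⟯
  have : FaithfulSMul K[X] F⟮y⟯ := (faithfulSMul_iff_algebraMap_injective _ _).2 (by
    rw [e]
    exact (algebraMap F F⟮y⟯).injective.comp (IsFractionRing.injective K[X] F))
  choose d _ _ _ hd using fun w : F⟮y⟯ => can (K := K) (Algebra.IsAlgebraic.isAlgebraic w)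
  refine ⟨d, fun L' _ ι δ' hc n => ?_⟩
  rw [← e] at hc
  induction n with
  | zero => exact fun w => rfl
  | succ n ih => intro w; rw [Function.iterate_succ_apply, hd w L' ι δ' hc, ih]; rfl

omit [CharZero K] in
theorem zero_of {ρ : K →+* k} {N : ℕ} (hN : N ≠ 0)
    (hF : (algebraMap F k⸨X⸩).comp (algebraMap K[X] F) = ps ρ N) {z : L} (h : IsIntegral K[X] z)
    (sp : ((minpoly F z).map (algebraMap F k⸨X⸩)).Splits)
    (h2 : ∀ β ∈ ((minpoly F z).map (algebraMap F k⸨X⸩)).roots, (1 : WithTop ℤ) ≤ β.orderTop) :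
    z = 0 := by
  by_contra hz
  have hzF : IsIntegral F z := h.tower_top
  have h1 := sp.coeff_zero_eq_prod_roots_of_monic ((minpoly.monic hzF).map _)
  have h3 := ord_prod h2
  rw [← sp.natDegree_eq_card_roots, natDegree_map] at h3
  have h4 := minpoly.natDegree_pos hzF
  have h5 := minpoly.coeff_zero_ne_zero hzF hz
  have e : (minpoly F z).coeff 0 = algebraMap K[X] F ((minpoly K[X] z).coeff 0) := by
    rw [minpoly.isIntegrallyClosed_eq_field_fractions' F h, coeff_map]
  have h6 := ps_ord ρ hN (a := (minpoly K[X] z).coeff 0) fun e' => h5 (by rw [e, e', map_zero])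
  rw [coeff_map, e, ← RingHom.comp_apply, hF] at h1
  rw [h1, orderTop_mul] at h6
  have h7 : ∀ n : ℕ, ((-1 : k⸨X⸩) ^ n).orderTop = 0 := fun n => by
    rcases neg_one_pow_eq_or k⸨X⸩ n with e | e <;> simp [e]
  rw [h7, zero_add] at h6
  have h9 : ((minpoly F z).natDegree : ℤ) ≤ 0 := by exact_mod_cast h3.trans h6
  omega

theorem exists_bd (s : Multiset k⸨X⸩) : ∃ b : ℕ, ∀ β ∈ s, ((-b : ℤ) : WithTop ℤ) ≤ β.orderTop := by
  classical
  refine ⟨s.toFinset.sup fun β => β.order.natAbs, fun β hβ => ?_⟩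
  have h1 := Finset.le_sup (f := fun β : k⸨X⸩ => β.order.natAbs) (Multiset.mem_toFinset.2 hβ)
  by_cases h0 : β = 0
  · simp [h0]
  · rw [← order_eq_orderTop_of_ne_zero h0, WithTop.coe_le_coe]
    omega

theorem inf_aux [CharZero k] {ρ : K →+* k} {N : ℕ} (hN : N ≠ 0)
    (hF : (algebraMap F k⸨X⸩).comp (algebraMap K[X] F) = ps ρ N) {δ : L → L}
    (hδ : Cp (algebraMap K[X] L) δ) {y : L} (h : ∀ n, IsIntegral K[X] (δ^[n] y))
    (hs : ((minpoly F y).map (algebraMap F k⸨X⸩)).Splits) : ∃ n, δ^[n] y = 0 := by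
  have hy : IsIntegral F y := (h 0).tower_top
  have hS : ∀ x ∈ ({y} : Set L), IsIntegral F x ∧
      ((minpoly F x).map (algebraMap F k⸨X⸩)).Splits := by
    rintro x rfl
    exact ⟨hy, hs⟩
  obtain ⟨d, it⟩ := exists_der (K := K) hy
  obtain ⟨b, hb⟩ := exists_bd ((minpoly F y).map (algebraMap F k⸨X⸩)).roots
  refine ⟨b + 1, ?_⟩
  have e : δ^[b + 1] y = (d^[b + 1] (IntermediateField.AdjoinSimple.gen F y) : F⟮y⟯) := by
    refine it L (algebraMap F⟮y⟯ L) δ ?_ (b + 1) (IntermediateField.AdjoinSimple.gen F y)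
    rwa [← RingHom.comp_assoc, ← IsScalarTower.algebraMap_eq, ← IsScalarTower.algebraMap_eq]
  have hzF : IsIntegral F (δ^[b + 1] y) := (h _).tower_top
  have hm : δ^[b + 1] y ∈ F⟮y⟯ := e ▸ (d^[b + 1] _).2
  refine zero_of hN hF (h _) (IntermediateField.splits_of_mem_adjoin F L hS hm) fun z hz => ?_
  have h3 := (mem_roots (Polynomial.map_ne_zero (minpoly.ne_zero hzF))).1 hz
  rw [IsRoot.def, eval_map_algebraMap] at h3
  obtain ⟨E, hE⟩ := IntermediateField.exists_algHom_adjoin_of_splits_of_aeval hS hm h3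
  have hc : Cp ((E : F⟮y⟯ →+* k⸨X⸩).comp ((algebraMap F F⟮y⟯).comp (algebraMap K[X] F)))
      (dI N) := by
    rw [← RingHom.comp_assoc, E.comp_algebraMap, hF]
    exact ps_cp ρ hN
  have h4 : z = (dI N)^[b + 1] (E (IntermediateField.AdjoinSimple.gen F y)) := by
    rw [← hE]
    exact (congrArg E (Subtype.ext e)).trans (it _ _ _ hc (b + 1) _).symm
  have h5 := dI_iter hN (hb (E (IntermediateField.AdjoinSimple.gen F y))
    ((mem_roots (Polynomial.map_ne_zero (minpoly.ne_zero hy))).2 (by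
      rw [IsRoot.def, eval_map_algebraMap, aeval_algHom_apply, ← IntermediateField.minpoly_gen,
        minpoly.aeval, map_zero]))) (b + 1)
  rw [h4]
  simpa using h5

end main

theorem exists_lift {A Λ : Type} (F : Type) [CommRing A] [Field F] [Algebra A F] [IsFractionRing A F]
    [Field Λ] {φ : A →+* Λ} (h : Function.Injective φ) :
    ∃ ψ : F →+* Λ, ψ.comp (algebraMap A F) = φ :=
  ⟨IsFractionRing.lift h, RingHom.ext fun a => IsFractionRing.lift_algebraMap h a⟩

theorem inf_aux' (F k : Type) [Field F] [Algebra K[X] F] [IsFractionRing K[X] F] [Field k]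
    [IsAlgClosed k] [CharZero k] (ρ : K →+* k) {L : Type} [Field L] [Algebra K[X] L]
    [FaithfulSMul K[X] L] {δ : L → L} (hδ : Cp (algebraMap K[X] L) δ) {y : L}
    (h : ∀ n, IsIntegral K[X] (δ^[n] y)) : ∃ n, δ^[n] y = 0 := by
  have inj := FaithfulSMul.algebraMap_injective K[X] L
  let : Algebra F L := (IsFractionRing.lift (K := F) inj).toAlgebra
  have : IsScalarTower K[X] F L :=
    IsScalarTower.of_algebraMap_eq fun a => (IsFractionRing.lift_algebraMap inj a).symm
  obtain ⟨N, hN, hs⟩ := pui ((minpoly K[X] y).map (ps ρ 1))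
  rw [Polynomial.map_map, ex_ps] at hs
  obtain ⟨ψ, hψ⟩ := exists_lift F (ps_inj ρ hN)
  let : Algebra F k⸨X⸩ := ψ.toAlgebra
  have hF : (algebraMap F k⸨X⸩).comp (algebraMap K[X] F) = ps ρ N := hψ
  have h0 : IsIntegral K[X] y := h 0
  have e : minpoly F y = (minpoly K[X] y).map (algebraMap K[X] F) :=
    minpoly.isIntegrallyClosed_eq_field_fractions' F h0
  have h1 : ((minpoly F y).map (algebraMap F k⸨X⸩)).Splits := by
    rw [e, Polynomial.map_map, hF]
    exact hs
  exact inf_aux (F := F) hN hF hδ h h1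

/-- **INF** -/
theorem inf {L : Type} [Field L] [Algebra K[X] L] [FaithfulSMul K[X] L] {δ : L → L}
    (hδ : Cp (algebraMap K[X] L) δ) {y : L} (h : ∀ n, IsIntegral K[X] (δ^[n] y)) :
    ∃ n, δ^[n] y = 0 :=
  inf_aux' (FractionRing K[X]) (AlgebraicClosure K) (algebraMap K _) hδ h

end Vale.Agent.P022K.UC.Am
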