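import Vale.Agent.P022K.UC.Am2
import Vale.Agent.P297.H927.Der

/-!
# P022K, block UC, step (4A): the abstract argument
-/

set_option autoImplicit false

open Polynomial

noncomputable section

namespace Vale.Agent.P022K.UC.Am

variable {K L : Type} [Field K] [CharZero K] [Field L] [Algebra K[X] L] [FaithfulSMul K[X] L]

/-- the constants -/
abbrev cs (L : Type) [Field L] [Algebra K[X] L] (u : K) : L := algebraMap K[X] L (C u)

/-- `σ` maps `K` to `K` and `t` to `u t + m` -/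
structure Tw (σ : L →+* L) (τ : K[X] →+* K[X]) (u : K) : Prop where
  cm : (algebraMap K[X] L).comp τ = σ.comp (algebraMap K[X] L)
  der : ∀ a, derivative (τ a) = C u * τ (derivative a)
  ne : u ≠ 0

omit [CharZero K] [FaithfulSMul K[X] L] in
theorem exists_tw {σ : L →+* L} (h : ∀ a : K, ∃ b : K, σ (cs L a) = cs L b)
    (inj : Function.Injective (algebraMap K[X] L)) {u m : K} (hu : u ≠ 0)
    (ht : σ (algebraMap K[X] L X) = cs L u * algebraMap K[X] L X + cs L m) :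
    ∃ (ρ : K →+* K), (∀ a, σ (cs L a) = cs L (ρ a)) ∧
      Tw σ (eval₂RingHom (C.comp ρ) (C u * X + C m)) u := by
  choose r hr using h
  have ij : ∀ a b : K, cs L a = cs L b → a = b := fun a b e => C_injective (inj e)
  let ρ : K →+* K :=
    { toFun := r
      map_one' := ij _ _ (by rw [← hr]; simp [cs])
      map_zero' := ij _ _ (by rw [← hr]; simp [cs])
      map_mul' := fun a b => ij _ _ (by simp only [← hr, cs, map_mul])
      map_add' := fun a b => ij _ _ (by simp only [← hr, cs, map_add]) }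
  refine ⟨ρ, hr, ?_, fun a => ?_, hu⟩
  · ext1
    · ext1 a
      have e : cs L (ρ a) = σ (cs L a) := (hr a).symm
      simpa [cs] using e
    · simpa using ht.symm
  · have e : ∀ a : K[X], eval₂RingHom (C.comp ρ) (C u * X + C m) a =
        (a.map ρ).comp (C u * X + C m) := fun a => by
      rw [coe_eval₂RingHom, comp, eval₂_map]
    rw [e, e, derivative_comp, derivative_map]
    simp

variable {δ : L → L} (hδ : Cp (algebraMap K[X] L) δ)
include hδ

omit [CharZero K] [FaithfulSMul K[X] L] in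
theorem der_cs (u : K) (z : L) : δ (cs L u * z) = cs L u * δ z := by
  rw [hδ.1.mul, hδ.2]
  simp

omit [CharZero K] [FaithfulSMul K[X] L] in
theorem iter_sum {ι : Type} (s : Finset ι) (c : ι → K) (z : ι → L) (n : ℕ) :
    δ^[n] (∑ i ∈ s, cs L (c i) * z i) = ∑ i ∈ s, cs L (c i) * δ^[n] (z i) := by
  induction n with
  | zero => rfl
  | succ n ih =>
    rw [Function.iterate_succ_apply', ih, hδ.1.sum]
    exact Finset.sum_congr rfl fun i _ => by rw [der_cs hδ, Function.iterate_succ_apply']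

theorem exists_den {w : L} (hw : IsAlgebraic K[X] w) : ∃ P : K[X], P ≠ 0 ∧
    algebraMap K[X] L P * δ w ∈ Algebra.adjoin K[X] {w} := by
  obtain ⟨w₁, P, h0, h1, h⟩ := can hw
  have e : δ w = w₁ := h L (RingHom.id L) δ hδ
  exact ⟨P, h0, e ▸ h1⟩

theorem alg_iter {w : L} (hw : IsAlgebraic K[X] w) (n : ℕ) : IsAlgebraic K[X] (δ^[n] w) := by
  induction n with
  | zero => exact hw
  | succ n ih =>
    obtain ⟨P, h0, h1⟩ := exists_den hδ ih
    have hle : Algebra.adjoin K[X] {δ^[n] w} ≤ Subalgebra.algebraicClosure K[X] L :=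
      Algebra.adjoin_le (Set.singleton_subset_iff.2 ih)
    have h2 : IsAlgebraic K[X] (P • δ (δ^[n] w)) := by
      rw [Algebra.smul_def]
      exact hle h1
    rw [Function.iterate_succ_apply']
    exact h2.of_smul (mem_nonZeroDivisors_of_ne_zero h0)

theorem Tw.comm {σ : L →+* L} {τ : K[X] →+* K[X]} {u : K} (h : Tw σ τ u) {w : L}
    (hw : IsAlgebraic K[X] w) : δ (σ w) = cs L u * σ (δ w) := by
  obtain ⟨w₁, -, -, -, h1⟩ := can hw
  have e : δ w = w₁ := h1 L (RingHom.id L) δ hδ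
  have h0 : cs L u ≠ 0 :=
    (map_ne_zero_iff _ (FaithfulSMul.algebraMap_injective _ _)).2 (C_ne_zero.2 h.ne)
  have h2 := h1 L σ (fun z => (cs L u)⁻¹ * δ z) ⟨hδ.1.cmul _, fun a => by
    rw [← h.cm, RingHom.comp_apply, RingHom.comp_apply]
    dsimp only
    rw [hδ.2, h.der, map_mul, inv_mul_cancel_left₀ h0]⟩
  rw [e, ← h2, mul_inv_cancel_left₀ h0]

theorem Tw.iter {σ : L →+* L} {τ : K[X] →+* K[X]} {u : K} (h : Tw σ τ u) {w : L}
    (hw : IsAlgebraic K[X] w) (n : ℕ) : δ^[n] (σ w) = cs L (u ^ n) * σ (δ^[n] w) := by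
  induction n with
  | zero => simp [cs]
  | succ n ih =>
    rw [Function.iterate_succ_apply', ih, der_cs hδ, h.comm hδ (alg_iter hδ hw n),
      Function.iterate_succ_apply']
    simp only [cs, pow_succ, map_mul, mul_assoc]

omit hδ [CharZero K] [FaithfulSMul K[X] L] in
theorem int_eq {a b : L} (h : IsIntegral K[X] a) (e : b = a) : IsIntegral K[X] b := e ▸ h

omit hδ in
/-- integral after multiplication by a power of `P` -/
def Lo (L : Type) [Field L] [Algebra K[X] L] (P : K[X]) : Subalgebra K[X] L where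
  carrier := {w | ∃ N : ℕ, IsIntegral K[X] (algebraMap K[X] L P ^ N * w)}
  mul_mem' := by
    rintro a b ⟨N, h⟩ ⟨M, h'⟩
    exact ⟨N + M, int_eq (h.mul h') (by ring)⟩
  add_mem' := by
    rintro a b ⟨N, h⟩ ⟨M, h'⟩
    exact ⟨N + M, int_eq ((((isIntegral_algebraMap (x := P)).pow M).mul h).add
      (((isIntegral_algebraMap (x := P)).pow N).mul h')) (by ring)⟩
  algebraMap_mem' a := ⟨0, by simpa using isIntegral_algebraMap⟩

/-- **BAD** -/
theorem bad {f : L} (hf : IsAlgebraic K[X] f) : ∃ P : K[X], P ≠ 0 ∧ ∀ n, δ^[n] f ∈ Lo L P := by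
  obtain ⟨P₁, h1, h2⟩ := exists_den hδ hf
  obtain ⟨P₂, h3, h4⟩ := hf.exists_integral_multiple
  refine ⟨P₂ * P₁, mul_ne_zero h3 h1, fun n => ?_⟩
  set p := algebraMap K[X] L (P₂ * P₁) with hp
  have h5 : Algebra.adjoin K[X] {f} ≤ Lo L (P₂ * P₁) :=
    Algebra.adjoin_le (Set.singleton_subset_iff.2 ⟨1, int_eq (h4.smul P₁) (by
      rw [pow_one, smul_smul, Algebra.smul_def, mul_comm P₂])⟩)
  have h6 : ∀ g ∈ Algebra.adjoin K[X] {f}, p * δ g ∈ Algebra.adjoin K[X] {f} := by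
    intro g hg
    rw [Algebra.adjoin_singleton_eq_range_aeval] at hg
    obtain ⟨m, rfl⟩ := hg
    obtain ⟨m₁, h⟩ := form m
    have e : p * δ (aeval f m) = p * aeval f m₁ +
        algebraMap K[X] L P₂ * aeval f (derivative m) * (algebraMap K[X] L P₁ * δ f) := by
      rw [aeval_def, h L _ δ hδ, hp, map_mul, aeval_def, aeval_def]
      ring
    exact e ▸ add_mem (mul_mem (Subalgebra.algebraMap_mem _ _) (aeval_mem_adjoin_singleton _ _))
      (mul_mem (mul_mem (Subalgebra.algebraMap_mem _ _) (aeval_mem_adjoin_singleton _ _)) h2)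
  have h7 : ∃ N : ℕ, p ^ N * δ^[n] f ∈ Algebra.adjoin K[X] {f} := by
    induction n with
    | zero => exact ⟨0, by simp⟩
    | succ n ih =>
      obtain ⟨N, h⟩ := ih
      have e : p ^ (N + 1) * δ^[n + 1] f = p * δ (p ^ N * δ^[n] f) -
          N * algebraMap K[X] L (derivative (P₂ * P₁)) * (p ^ N * δ^[n] f) := by
        rw [Function.iterate_succ_apply', hδ.1.mul, hδ.1.pow, hp, hδ.2]
        cases N with
        | zero => simp
        | succ N =>
          simp only [Nat.add_sub_cancel]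
          ring
      exact ⟨N + 1, e ▸ sub_mem (h6 _ h)
        (mul_mem (mul_mem (natCast_mem _ _) (Subalgebra.algebraMap_mem _ _)) h)⟩
  obtain ⟨N, h⟩ := h7
  obtain ⟨M, h'⟩ := h5 h
  exact ⟨M + N, by rwa [pow_add, mul_assoc]⟩

omit hδ [CharZero K] [FaithfulSMul K[X] L] in
theorem Lo_mono {P Q : K[X]} (h : P ∣ Q) : Lo L P ≤ Lo L Q := by
  obtain ⟨R, rfl⟩ := h
  rintro w ⟨N, h⟩
  exact ⟨N, int_eq (((isIntegral_algebraMap (x := R)).pow N).mul h) (by rw [map_mul]; ring)⟩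

omit hδ [CharZero K] [FaithfulSMul K[X] L] in
theorem Tw.lo {σ : L →+* L} {τ : K[X] →+* K[X]} {u : K} (h : Tw σ τ u) {P : K[X]} {w : L}
    (hw : w ∈ Lo L P) : σ w ∈ Lo L (τ P) := by
  obtain ⟨N, h1⟩ := hw
  have h2 := h1.map_of_comp_eq τ σ h.cm
  have e : σ (algebraMap K[X] L P) = algebraMap K[X] L (τ P) := (RingHom.congr_fun h.cm P).symm
  rw [map_mul, map_pow, e] at h2
  exact ⟨N, h2⟩

omit hδ [CharZero K] [FaithfulSMul K[X] L] in
theorem int_of {P Q : K[X]} (h : IsCoprime P Q) {w : L} (h1 : w ∈ Lo L P) (h2 : w ∈ Lo L Q) :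
    IsIntegral K[X] w := by
  obtain ⟨N, h1⟩ := h1
  obtain ⟨M, h2⟩ := h2
  obtain ⟨a, b, e⟩ := h.pow (m := N) (n := M)
  refine int_eq ((h1.smul a).add (h2.smul b)) ?_
  rw [Algebra.smul_def, Algebra.smul_def, ← map_pow, ← map_pow, ← mul_assoc, ← mul_assoc, ← add_mul,
    ← map_mul, ← map_mul, ← map_add, e, map_one, one_mul]

/-- **ABS** -/
theorem abs {f : L} (hf : IsAlgebraic K[X] f) (f0 : f ≠ 0)
    (H : ∀ P : K[X], P ≠ 0 → ∃ (ι : Type) (s : Finset ι) (σ₀ : L →+* L) (τ₀ : K[X] →+* K[X])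
      (u₀ : K) (σ : ι → L →+* L) (τ : ι → K[X] →+* K[X]) (u c : ι → K), Tw σ₀ τ₀ u₀ ∧
      (∀ i ∈ s, Tw (σ i) (τ i) (u i) ∧ IsCoprime (τ₀ P) (τ i P)) ∧
      σ₀ f = ∑ i ∈ s, cs L (c i) * σ i f) :
    ∃ n, δ^[n] f ≠ 0 ∧ δ (δ^[n] f) = 0 := by
  classical
  obtain ⟨P, h0, hP⟩ := bad hδ hf
  obtain ⟨ι, s, σ₀, τ₀, u₀, σ, τ, u, c, h1, h2, h3⟩ := H P h0
  have h4 : ∃ n, δ^[n] f = 0 := by
    obtain ⟨n, hn⟩ := inf hδ (y := σ₀ f) fun n => by
      refine int_of (IsCoprime.prod_right fun i hi => (h2 i hi).2) ?_ ?_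
      · rw [h1.iter hδ hf]
        exact mul_mem (Subalgebra.algebraMap_mem _ _) (h1.lo (hP n))
      · rw [h3, iter_sum hδ]
        refine sum_mem fun i hi => mul_mem (Subalgebra.algebraMap_mem _ _) ?_
        rw [(h2 i hi).1.iter hδ hf]
        exact mul_mem (Subalgebra.algebraMap_mem _ _)
          (Lo_mono (Finset.dvd_prod_of_mem _ hi) ((h2 i hi).1.lo (hP n)))
    rw [h1.iter hδ hf, mul_eq_zero, map_eq_zero σ₀,
      map_eq_zero_iff _ (FaithfulSMul.algebraMap_injective _ _), C_eq_zero] at hn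
    exact ⟨n, hn.resolve_left (pow_ne_zero _ h1.ne)⟩
  have h5 := Nat.find_spec h4
  have h6 : Nat.find h4 ≠ 0 := fun e => f0 (by rwa [e] at h5)
  obtain ⟨n, hn⟩ := Nat.exists_eq_succ_of_ne_zero h6
  refine ⟨n, Nat.find_min h4 (by omega), ?_⟩
  rwa [hn, Function.iterate_succ_apply'] at h5

end Vale.Agent.P022K.UC.Am
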