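import Vale.Agent.P022K.UC.Am3

/-!
# P022K, block UC, step (4A): the argument in a field of Laurent series
-/

set_option autoImplicit false

open Polynomial
open scoped LaurentSeries

noncomputable section

namespace Vale.Agent.P022K.UC.Am

variable {L : Type} [Field L] [Algebra ℂ L]

/-- a substitution operator -/
structure Op (K : IntermediateField ℂ L) (t : L) (Ex : L →+* ℂ⸨X⸩) (σ : L →+* L) (u : L) :
    Prop where
  mem : ∀ x ∈ K, σ x ∈ K
  um : u ∈ K
  u0 : u ≠ 0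
  tm : σ t - u * t ∈ K
  ex : ∃ (ξ : ℂˣ) (N : ℕ) (hN : N ≠ 0), ‖(ξ : ℂ)‖ = 1 ∧ ∀ x, Ex (σ x) = sb ξ N hN (Ex x)

section

variable {K : IntermediateField ℂ L} {t : L} {Ex : L →+* ℂ⸨X⸩} [Algebra K[X] L]
  (ha : ∀ a : K[X], algebraMap K[X] L a = aeval t a)
include ha

theorem cs_eq (a : K) : cs L a = a := by
  rw [cs, ha, aeval_C]
  rfl

theorem Op.tw {σ : L →+* L} {u : L} (h : Op K t Ex σ u)
    (inj : Function.Injective (algebraMap K[X] L)) : ∃ τ, Tw σ τ (⟨u, h.um⟩ : K) ∧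
      ∃ (ξ : ℂˣ) (N : ℕ) (hN : N ≠ 0), ‖(ξ : ℂ)‖ = 1 ∧ ∀ P : K[X],
        ((τ P).map (Ex.comp (algebraMap K L))).comp (X + C (Ex t)) =
        (((P.map (Ex.comp (algebraMap K L))).comp (X + C (Ex t))).map (sb ξ N hN)).comp
          (C (Ex u) * X) := by
  obtain ⟨ρ, h1, h2⟩ := exists_tw (K := K) (σ := σ) (u := ⟨u, h.um⟩) (m := ⟨_, h.tm⟩)
    (fun a => ⟨⟨σ a, h.mem a a.2⟩, by rw [cs_eq ha, cs_eq ha]⟩) inj
    (fun e => h.u0 (congrArg Subtype.val e)) (by rw [cs_eq ha, cs_eq ha, ha, aeval_X]; ring)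
  obtain ⟨ξ, N, hN, h3, h4⟩ := h.ex
  refine ⟨_, h2, ξ, N, hN, h3, fun P => ?_⟩
  have h5 : ∀ a : K, Ex (ρ a) = sb ξ N hN (Ex a) := fun a => by
    rw [← h4, ← cs_eq ha, ← cs_eq ha, h1]
  induction P using Polynomial.induction_on with
  | C a => simp [h5]
  | add p q hp hq => simp only [map_add, Polynomial.map_add, add_comp, hp, hq]
  | monomial n a ih =>
    rw [pow_succ, ← mul_assoc]
    generalize C a * X ^ n = q at ih ⊢
    simp only [map_mul, Polynomial.map_mul, mul_comp, ih]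
    congr 1
    simp [← h4]
    ring

end

/-- **TOP** -/
theorem top {K : IntermediateField ℂ L} (hK : ∀ x, IsAlgebraic K x → x ∈ K) {t f : L} (ht : t ∉ K)
    (f0 : f ≠ 0) {R : K[X][X]} (R0 : R ≠ 0) (hR : eval₂ (aeval t : K[X] →ₐ[K] L).toRingHom f R = 0)
    {Ex : L →+* ℂ⸨X⸩} {I : Type} {σ : I → L →+* L} {u : I → L} (hO : ∀ i, Op K t Ex (σ i) (u i))
    (H : ∀ Z : Finset ℝ, (0 : ℝ) ∉ Z → ∃ (ι : Type) (s : Finset ι) (i₀ : I) (e : ι → I)
      (c : ι → L), (∀ i ∈ s, c i ∈ K ∧ ∀ a ∈ Z, ∀ b ∈ Z,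
        a * ‖(Ex (u (e i))).leadingCoeff‖ ≠ b * ‖(Ex (u i₀)).leadingCoeff‖) ∧
      σ i₀ f = ∑ i ∈ s, c i * σ (e i) f) :
    ∃ (n : ℕ) (h : L), h ∈ K ∧ h ≠ 0 ∧ ∀ (ι : Type) (s : Finset ι) (e : ι → I) (c : ι → L),
      (∀ i ∈ s, c i ∈ K) → ∑ i ∈ s, c i * σ (e i) f = 0 →
      ∑ i ∈ s, c i * (u (e i) ^ n * σ (e i) h) = 0 := by
  classical
  have : CharZero K := charZero_of_injective_algebraMap (algebraMap ℂ K).injective
  have : CharZero L := charZero_of_injective_algebraMap (algebraMap ℂ L).injective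
  have tr : Transcendental K t := fun h => ht (hK t h)
  let : Algebra K[X] L := (aeval t : K[X] →ₐ[K] L).toRingHom.toAlgebra
  have ha : ∀ a : K[X], algebraMap K[X] L a = aeval t a := fun _ => rfl
  have inj : Function.Injective (algebraMap K[X] L) := transcendental_iff_injective.1 tr
  have : FaithfulSMul K[X] L := (faithfulSMul_iff_algebraMap_injective _ _).2 inj
  obtain ⟨D, hD⟩ := P297.H927.exists_derivation tr
  have hδ : Cp (algebraMap K[X] L) D := cp_of ⟨map_add D, fun a b => D.leibniz a b⟩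
    (fun c => by rw [ha, aeval_C, D.map_algebraMap]) (by rw [ha, aeval_X, hD])
  have hf : IsAlgebraic K[X] f := ⟨R, R0, hR⟩
  choose τ hτ ξ N hN hξ hc using fun i => (hO i).tw ha inj
  let g : L → K := fun x => if h : x ∈ K then ⟨x, h⟩ else 0
  have hg : ∀ x ∈ K, cs L (g x) = x := fun x hx => by rw [cs_eq ha]; simp [g, hx]
  obtain ⟨n, h1, h2⟩ := abs hδ hf f0 fun P hP => by
    obtain ⟨Z, z0, hZ⟩ := cop ((P.map (Ex.comp (algebraMap K L))).comp (X + C (Ex t))) (by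
      rw [eval_comp, eval_add, eval_X, eval_C, zero_add, eval_map, ← hom_eval₂, ← aeval_def, ← ha]
      exact (_root_.map_ne_zero Ex).2 ((map_ne_zero_iff _ inj).2 hP))
    obtain ⟨ι, s, i₀, e, c, h3, h4⟩ := H Z z0
    refine ⟨ι, s, σ i₀, τ i₀, _, fun i => σ (e i), fun i => τ (e i), fun i => ⟨_, (hO (e i)).um⟩,
      fun i => g (c i), hτ i₀, fun i hi => ⟨hτ _, ?_⟩, ?_⟩
    · have h5 := hZ _ _ _ _ (hN i₀) (hN (e i)) _ _ (hξ i₀) (hξ (e i))
        ((_root_.map_ne_zero Ex).2 (hO i₀).u0) ((_root_.map_ne_zero Ex).2 (hO (e i)).u0) (h3 i hi).2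
      rw [← hc, ← hc] at h5
      have h6 := h5.map (compRingHom (X - C (Ex t)))
      simp only [coe_compRingHom_apply, comp_assoc, add_comp, X_comp, C_comp, sub_add_cancel,
        comp_X] at h6
      exact (isCoprime_map _).1 h6
    · rw [h4]
      exact Finset.sum_congr rfl fun i hi => by rw [hg _ (h3 i hi).1]
  refine ⟨n, _, hK _ (P297.H927.isAlgebraic_of_der_eq_zero (D := D) (y := t) (by simp [hD]) ?_ h2),
    h1, fun ι s e c h3 h4 => ?_⟩
  · obtain ⟨m, m0, hm⟩ := alg_iter hδ hf n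
    let φ : K[X] →+* IntermediateField.adjoin K {t} := (algebraMap K[X] L).codRestrict _ fun a =>
      IntermediateField.algebra_adjoin_le_adjoin K {t} (aeval_mem_adjoin_singleton K t)
    refine ⟨m.map φ, (Polynomial.map_ne_zero_iff fun a b e => inj (congrArg Subtype.val e)).2 m0, ?_⟩
    rw [aeval_def, eval₂_map]
    exact hm
  · have h5 := iter_sum hδ s (fun i => g (c i)) (fun i => σ (e i) f) n
    rw [Finset.sum_congr rfl fun i hi => by rw [hg _ (h3 i hi)], h4,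
      Function.iterate_fixed (map_zero D)] at h5
    rw [h5]
    refine Finset.sum_congr rfl fun i hi => ?_
    rw [hg _ (h3 i hi), (hτ (e i)).iter hδ hf, cs_eq ha]
    rfl

/-- **REL**: a homogeneous relation in weight zero -/
theorem rel {K : IntermediateField ℂ L} {ω t f : L} {j : K} (hj : Transcendental ℂ j) (h0 : ω ≠ 0)
    {κ D : ℕ} {P : MvPolynomial (Fin 4) ℂ} (P0 : P ≠ 0)
    (hP : P.IsWeightedHomogeneous ![2, 4, 6, 2 * κ] D)
    (h : MvPolynomial.aeval ![ω * t, ω ^ 2 * j, ω ^ 3 * j, ω ^ κ * f] P = 0) :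
    ∃ R : K[X][X], R ≠ 0 ∧ eval₂ (aeval t : K[X] →ₐ[K] L).toRingHom f R = 0 := by
  classical
  have hw : ∀ d ∈ P.support, d 0 + 2 * d 1 + 3 * d 2 + κ * d 3 = D / 2 := fun d hd => by
    have h1 := hP (MvPolynomial.mem_support_iff.1 hd)
    rw [Finsupp.weight_apply, Finsupp.sum_fintype _ _ (by simp), Fin.sum_univ_four] at h1
    simp only [smul_eq_mul, Matrix.cons_val] at h1
    rw [← h1, show d 0 * 2 + d 1 * 4 + d 2 * 6 + d 3 * (2 * κ) =
      2 * (d 0 + 2 * d 1 + 3 * d 2 + κ * d 3) by ring, Nat.mul_div_cancel_left _ two_pos]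
  refine ⟨∑ d ∈ P.support, monomial (d 3) (monomial (d 0)
    (aeval j (monomial (d 1 + d 2) (P.coeff d)))), fun e => ?_, ?_⟩
  · obtain ⟨d₀, hd₀⟩ := MvPolynomial.support_nonempty.2 P0
    have h1 := congrArg (fun R : K[X][X] => (R.coeff (d₀ 3)).coeff (d₀ 0)) e
    have h2 : aeval j (∑ d ∈ P.support, if d 3 = d₀ 3 ∧ d 0 = d₀ 0 then
        monomial (d 1 + d 2) (P.coeff d) else 0) = 0 := by
      simp only [finsetSum_coeff, coeff_zero] at h1
      rw [map_sum, ← h1]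
      refine Finset.sum_congr rfl fun d _ => ?_
      by_cases a : d 3 = d₀ 3 <;> by_cases b : d 0 = d₀ 0 <;> simp [a, b, coeff_monomial]
    have h3 := congrArg (coeff · (d₀ 1 + d₀ 2)) (transcendental_iff.1 hj _ h2)
    simp only [finsetSum_coeff, coeff_zero] at h3
    rw [Finset.sum_eq_single_of_mem d₀ hd₀] at h3
    · exact MvPolynomial.mem_support_iff.1 hd₀ (by simpa using h3)
    · intro d hd hne
      split_ifs with a
      · rw [coeff_monomial, if_neg fun b => hne ?_]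
        have h4 := hw d hd
        have h5 := hw d₀ hd₀
        rw [a.1, a.2] at h4
        ext i
        fin_cases i <;> simp <;> omega
      · rfl
  · refine mul_left_cancel₀ (pow_ne_zero (D / 2) h0) ?_
    rw [mul_zero, ← h, MvPolynomial.aeval_def, MvPolynomial.eval₂_eq', eval₂_finsetSum,
      Finset.mul_sum]
    refine Finset.sum_congr rfl fun d hd => ?_
    rw [← hw d hd, Fin.prod_univ_four]
    simp [aeval_monomial]
    ring

end Vale.Agent.P022K.UC.Am
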