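import Vale.Agent.P022K.UC.Am1
import Vale.Agent.P022K.UC.AmSt

/-!
# P022K, block UC, step (4A): the Hecke relations for Laurent series
-/

set_option autoImplicit false

open HahnSeries
open scoped LaurentSeries PowerSeries Real

noncomputable section

namespace Vale.Agent.P022K.UC.Am

/-- `exp (2 π i r)` -/
def ze (r : ℚ) : ℂˣ := Units.mk0 (Complex.exp (2 * π * Complex.I * r)) (Complex.exp_ne_zero _)

theorem ze_val (r : ℚ) : (ze r : ℂ) = Complex.exp (2 * π * Complex.I * r) := rfl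

theorem ze_zero : ze 0 = 1 := Units.ext (by simp [ze_val])

theorem norm_ze (r : ℚ) : ‖(ze r : ℂ)‖ = 1 := by
  rw [ze_val, Complex.norm_exp]
  simp

theorem sum_ze {l : ℕ} (hl : l ≠ 0) (n : ℤ) :
    ∑ b ∈ Finset.range l, (ze (b / l) : ℂ) ^ n = if (l : ℤ) ∣ n then (l : ℂ) else 0 := by
  have h := Complex.isPrimitiveRoot_exp l hl
  set ζ := Complex.exp (2 * π * Complex.I / l)
  have e : ∀ b : ℕ, (ze (b / l) : ℂ) ^ n = (ζ ^ n) ^ b := fun b => by
    rw [← zpow_natCast, ← zpow_mul, mul_comm n, zpow_mul, zpow_natCast, ← Complex.exp_nat_mul,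
      ze_val]
    congr 2
    push_cast
    ring
  simp only [e]
  split_ifs with h1
  · simp [(h.zpow_eq_one_iff_dvd n).2 h1]
  · rw [geom_sum_eq (mt (h.zpow_eq_one_iff_dvd n).1 h1), ← zpow_natCast, ← zpow_mul, mul_comm,
      zpow_mul, zpow_natCast, h.pow_eq_one]
    simp

/-- the substitution `q ↦ e(r) q ^ N` -/
def sq (i : ℚ × ℕ+) : ℂ⸨X⸩ →+* ℂ⸨X⸩ := sb (ze i.1) i.2 i.2.ne_zero

theorem coeff_C_mul (c : ℂ) (z : ℂ⸨X⸩) (n : ℤ) : (C c * z).coeff n = c * z.coeff n :=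
  coeff_single_zero_mul

theorem coeff_avg {l : ℕ} (hl : l ≠ 0) (c : ℂ) (z : ℂ⸨X⸩) (n : ℤ) :
    (∑ b ∈ Finset.range l, C c * sq (b / l, 1) z).coeff n =
      c * (if (l : ℤ) ∣ n then (l : ℂ) else 0) * z.coeff n := by
  rw [coeff_sum, ← sum_ze hl, Finset.mul_sum, Finset.sum_mul]
  refine Finset.sum_congr rfl fun b _ => ?_
  have := coeff_sb (ze (b / l)) one_ne_zero z n
  rw [Nat.cast_one, one_mul] at this
  rw [coeff_C_mul, mul_assoc, ← this]
  rfl

/-- depleted at `p` -/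
def Dp (p : ℕ) (z : ℂ⸨X⸩) : Prop := ∀ n : ℤ, (p : ℤ) ∣ n → z.coeff n = 0

/-- the Hecke relation -/
def Hk (l : ℕ) (α β : ℂ) (z : ℂ⸨X⸩) : Prop :=
  ∀ n : ℤ, z.coeff (l * n) + β * (if (l : ℤ) ∣ n then z.coeff (n / l) else 0) = α * z.coeff n

theorem dp_iff {p : ℕ} (hp : p ≠ 0) {z : ℂ⸨X⸩} :
    Dp p z ↔ ∑ b ∈ Finset.range p, C 1 * sq (b / p, 1) z = 0 := by
  refine ⟨fun h => ?_, fun h n hn => ?_⟩
  · ext n
    rw [coeff_avg hp]
    split_ifs with h1
    · simp [h n h1]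
    · simp
  · have := coeff_avg hp 1 z n
    rw [h, if_pos hn] at this
    simpa [hp] using this

theorem hk_iff (l : ℕ+) {α β : ℂ} {z : ℂ⸨X⸩} :
    Hk l α β z ↔ C β * sq (0, l * l) z + (C (-α) * sq (0, l) z +
      ∑ b ∈ Finset.range l, C (l : ℂ)⁻¹ * sq (b / (l : ℕ), 1) z) = 0 := by
  have l0 : ((l : ℕ) : ℤ) ≠ 0 := by exact_mod_cast l.ne_zero
  have l1 : ((l : ℕ) : ℂ) ≠ 0 := by exact_mod_cast l.ne_zero
  have key : ∀ n : ℤ, (C β * sq (0, l * l) z + (C (-α) * sq (0, l) z +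
      ∑ b ∈ Finset.range l, C (l : ℂ)⁻¹ * sq (b / (l : ℕ), 1) z)).coeff ((l : ℕ) * n) =
      z.coeff ((l : ℕ) * n) + β * (if ((l : ℕ) : ℤ) ∣ n then z.coeff (n / (l : ℕ)) else 0) -
        α * z.coeff n := fun n => by
    have h1 : (sq (0, l) z).coeff ((l : ℕ) * n) = z.coeff n := by
      rw [sq, coeff_sb]
      simp [ze_zero]
    have h2 : (sq (0, l * l) z).coeff ((l : ℕ) * n) =
        if ((l : ℕ) : ℤ) ∣ n then z.coeff (n / (l : ℕ)) else 0 := by
      split_ifs with h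
      · obtain ⟨m, rfl⟩ := h
        rw [← mul_assoc, ← Nat.cast_mul, ← PNat.mul_coe, sq, coeff_sb, Int.mul_ediv_cancel_left _ l0]
        simp [ze_zero]
      · refine coeff_sb' _ _ _ fun h' => h ?_
        rw [PNat.mul_coe, Nat.cast_mul] at h'
        exact (mul_dvd_mul_iff_left l0).1 h'
    rw [coeff_add, coeff_add, coeff_avg l.ne_zero, coeff_C_mul, coeff_C_mul, h1, h2,
      if_pos (dvd_mul_right _ _), inv_mul_cancel₀ l1]
    ring
  refine ⟨fun h => ?_, fun h n => ?_⟩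
  · ext m
    by_cases h1 : ((l : ℕ) : ℤ) ∣ m
    · obtain ⟨n, rfl⟩ := h1
      rw [key, h n, sub_self, coeff_zero]
    · rw [coeff_add, coeff_add, coeff_avg l.ne_zero, coeff_C_mul, coeff_C_mul, if_neg h1, sq, sq,
        coeff_sb' _ _ _ h1, coeff_sb' _ _ _ fun h' => h1 ?_]
      · simp
      · rw [PNat.mul_coe, Nat.cast_mul] at h'
        exact (dvd_mul_right _ _).trans h'
  · have := key n
    rw [h, coeff_zero] at this
    exact sub_eq_zero.1 this.symm

theorem coe_nat (c : ℕ → ℂ) (n : ℕ) :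
    (ofPowerSeries ℤ ℂ (PowerSeries.mk c)).coeff n = c n := by
  rw [ofPowerSeries_apply_coeff, PowerSeries.coeff_mk]

theorem coe_neg (c : ℕ → ℂ) {n : ℤ} (h : n < 0) :
    (ofPowerSeries ℤ ℂ (PowerSeries.mk c)).coeff n = 0 := by
  rw [PowerSeries.coeff_coe, if_pos h]

variable {S : Finset ℕ} {k : ℤ} {c : ℕ → ℂ}

theorem eig_dp (h : Eig S k c) {p : ℕ} (hp : p ∈ S) (hp' : p.Prime) :
    Dp p (ofPowerSeries ℤ ℂ (PowerSeries.mk c)) := fun n hn => by
  rcases lt_or_ge n 0 with h1 | h1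
  · exact coe_neg c h1
  · obtain ⟨m, rfl⟩ := Int.eq_ofNat_of_zero_le h1
    rw [coe_nat, h.dep p hp hp' m (by exact_mod_cast hn)]

theorem eig_hk (h : Eig S k c) {l : ℕ} (hl : l.Prime) (hl' : l ∉ S) :
    Hk l (c l) ((l : ℂ) ^ (k - 1)) (ofPowerSeries ℤ ℂ (PowerSeries.mk c)) := fun n => by
  have l0 : (0 : ℤ) < l := by exact_mod_cast hl.pos
  rcases lt_or_ge n 0 with h1 | h1
  · rw [coe_neg c h1, coe_neg c (mul_neg_of_pos_of_neg l0 h1),
      coe_neg c (Int.ediv_neg_of_neg_of_pos h1 l0)]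
    simp
  · obtain ⟨m, rfl⟩ := Int.eq_ofNat_of_zero_le h1
    rw [← Nat.cast_mul, ← Int.natCast_div, coe_nat, coe_nat, coe_nat, ← h.hecke l m hl hl']
    simp only [Int.natCast_dvd_natCast]

/-- **UNI**: multiplicity one -/
theorem uni (h : Eig S k c) {z : ℂ⸨X⸩} (hd : ∀ p ∈ S, p.Prime → Dp p z)
    (hk : ∀ l : ℕ, l.Prime → l ∉ S → Hk l (c l) ((l : ℂ) ^ (k - 1)) z) :
    z = C (z.coeff 1) * ofPowerSeries ℤ ℂ (PowerSeries.mk c) := by
  have neg : ∀ n < 0, z.coeff n = 0 := by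
    by_contra hc
    push Not at hc
    obtain ⟨n, h1, h2⟩ := hc
    have z0 : z ≠ 0 := fun e => h2 (by simp [e])
    have h3 : z.order < 0 := (order_le_of_coeff_ne_zero h2).trans_lt h1
    obtain ⟨l, h4, hl⟩ := Nat.exists_infinite_primes (S.sup id + 1)
    have h5 : l ∉ S := fun h => by
      have := Finset.le_sup (f := id) h
      simp only [id] at this
      omega
    have l1 : (1 : ℤ) < l := by exact_mod_cast hl.one_lt
    have h6 := hk l hl h5 (l * z.order)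
    have h7 : l * z.order < z.order := by nlinarith
    have h8 : l * (l * z.order) < z.order := by nlinarith
    rw [if_pos (dvd_mul_right _ _), Int.mul_ediv_cancel_left _ (by omega),
      coeff_eq_zero_of_lt_order h7, coeff_eq_zero_of_lt_order h8, zero_add, mul_zero, mul_eq_zero, coeff_order_eq_zero] at h6
    exact h6.elim (zpow_ne_zero _ (by exact_mod_cast hl.ne_zero)) z0
  have pos : ∀ n : ℕ, z.coeff n = z.coeff 1 * c n := fun n => by
    induction n using Nat.strong_induction_on with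
    | _ n ih =>
    by_cases h1 : n = 1
    · simp [h1, h.one]
    obtain ⟨l, hl, m, rfl⟩ := Nat.exists_prime_and_dvd h1
    by_cases h2 : l ∈ S
    · rw [hd l h2 hl _ (by exact_mod_cast dvd_mul_right _ _), h.dep l h2 hl _ (dvd_mul_right _ _),
        mul_zero]
    rcases Nat.eq_zero_or_pos m with rfl | hm
    · rw [mul_zero, h.zero, mul_zero, hd 2 h.two Nat.prime_two _ (by simp)]
    have h3 : m < l * m := by nlinarith [hl.one_lt]
    have h4 := hk l hl h2 m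
    have h5 := h.hecke l m hl h2
    rw [← Int.natCast_div, ih m h3, ih _ ((Nat.div_le_self _ _).trans_lt h3), ← Nat.cast_mul] at h4
    simp only [Int.natCast_dvd_natCast] at h4
    split_ifs at h4 h5 <;> linear_combination h4 - z.coeff 1 * h5
  ext n
  rw [coeff_C_mul]
  rcases lt_or_ge n 0 with h1 | h1
  · rw [neg n h1, coe_neg c h1, mul_zero]
  · obtain ⟨m, rfl⟩ := Int.eq_ofNat_of_zero_le h1
    rw [coe_nat, pos]

end Vale.Agent.P022K.UC.Am
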