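import Vale.Agent.P022K.UC.Ram

/-!
# P022K, block UC, step (4A): meromorphic functions with a finite orbit under `SL(2, ℤ)`
-/

set_option autoImplicit false

open UpperHalfPlane ModularForm CongruenceSubgroup Matrix EisensteinSeries
open scoped MatrixGroups ModularForm Real Pointwise

noncomputable section

namespace Vale.Agent.P022K.UC.Am

open Vale.Agent.P022.H218.L3

/-- the matrix `[N, r; 0, 1]` -/
def gq (i : ℚ × ℕ+) : GL (Fin 2) ℚ :=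
  GeneralLinearGroup.mkOfDetNeZero !![((i.2 : ℕ) : ℚ), i.1; 0, 1] (by simp [det_fin_two])

/-- the same over `ℝ` -/
def gr (i : ℚ × ℕ+) : GL (Fin 2) ℝ := (gq i).map (Rat.castHom ℝ)

theorem gr_val (i : ℚ × ℕ+) :
    (gr i : Matrix (Fin 2) (Fin 2) ℝ) = !![((i.2 : ℕ) : ℝ), (i.1 : ℝ); 0, 1] := by
  ext a b
  fin_cases a <;> fin_cases b <;> simp [gr, gq]

theorem gr_det (i : ℚ × ℕ+) : 0 < (gr i).det.val := by
  simp [gr_val, det_fin_two]

theorem coe_gr (i : ℚ × ℕ+) (τ : ℍ) : ((gr i • τ : ℍ) : ℂ) = (i.2 : ℕ) * τ + i.1 := by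
  simp [coe_smul_of_det_pos (gr_det i), num, denom, gr_val]

theorem fin_cj (Γ : Subgroup SL(2, ℤ)) [Γ.FiniteIndex] (i : ℚ × ℕ+) :
    (conjGL Γ (gr i)).FiniteIndex := by
  have h := Subgroup.IsArithmetic.conj (Γ.map (SpecialLinearGroup.mapGL ℝ)) (gq i)⁻¹
  rw [map_inv] at h
  exact @Subgroup.IsArithmetic.finiteIndex_comap _ h

theorem cj {i : ℚ × ℕ+} {γ γ' : SL(2, ℤ)}
    (h : (γ' : GL (Fin 2) ℝ) = gr i * γ * (gr i)⁻¹) (τ : ℍ) :
    gr i • γ • τ = γ' • gr i • τ ∧ denom γ' (gr i • τ : ℍ) = denom γ τ ∧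
      ((i.2 : ℕ) : ℂ) * (γ' 1 0 : ℤ) = (γ 1 0 : ℤ) := by
  have e : (γ' : GL (Fin 2) ℝ) * gr i = gr i * γ := by rw [h, inv_mul_cancel_right]
  have e1 := congrArg (fun g : GL (Fin 2) ℝ => ((g 1 0 : ℝ) : ℂ)) e
  have e2 := congrArg (fun g : GL (Fin 2) ℝ => ((g 1 1 : ℝ) : ℂ)) e
  simp [Matrix.mul_apply, gr_val] at e1 e2
  refine ⟨?_, ?_, by rw [← e1, mul_comm]⟩
  · rw [ModularGroup.sl_moeb, ModularGroup.sl_moeb, ← mul_smul, ← mul_smul, e]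
  · rw [ModularGroup.denom_apply, ModularGroup.denom_apply, coe_gr, ← e1, ← e2]
    ring

/-- fixed in weight `k` by a subgroup of finite index -/
def Wt (k : ℤ) (F : ℍ → ℂ) : Prop :=
  ∃ Γ : Subgroup SL(2, ℤ), Γ.FiniteIndex ∧ ∀ γ ∈ Γ, F ∣[k] γ = F

theorem Wt.mul {k l m : ℤ} {F G : ℍ → ℂ} (h : Wt k F) (h' : Wt l G) (e : m = k + l) :
    Wt m (F * G) := by
  obtain ⟨Γ, _, h⟩ := h
  obtain ⟨Γ', _, h'⟩ := h'
  exact ⟨Γ ⊓ Γ', inferInstance, fun γ hγ => by rw [e, mul_slash_SL2, h γ hγ.1, h' γ hγ.2]⟩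

theorem Wt.pow {k : ℤ} {F : ℍ → ℂ} (h : Wt k F) (n : ℕ) : Wt (n * k) (F ^ n) := by
  induction n with
  | zero => exact ⟨⊤, inferInstance, fun γ _ => by simp [is_invariant_one]⟩
  | succ n ih =>
    rw [pow_succ]
    exact ih.mul h (by push_cast; ring)

theorem Wt.cancel {k l m : ℤ} {F G : ℍ → ℂ} (h : Wt m (F * G)) (h' : Wt l G) (e : m = k + l)
    (hF : F ∈ Hol) (hG : G ∈ Hol) (h0 : G ≠ 0) : Wt k F := by
  obtain ⟨Γ, _, h⟩ := h
  obtain ⟨Γ', _, h'⟩ := h'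
  refine ⟨Γ ⊓ Γ', inferInstance, fun γ hγ => ?_⟩
  have h1 := h γ hγ.1
  rw [e, mul_slash_SL2, h' γ hγ.2, ← sub_eq_zero, ← sub_mul] at h1
  exact sub_eq_zero.1 (((UpperHalfPlane.mul_eq_zero_iff (Hol.sub_mem (slash_mem hF k γ) hF)
    hG).1 h1).resolve_right h0)

theorem Wt.comp {k : ℤ} {F : ℍ → ℂ} (h : Wt k F) (i : ℚ × ℕ+) : Wt k fun τ => F (gr i • τ) := by
  obtain ⟨Γ, _, h⟩ := h
  refine ⟨_, fin_cj Γ i, fun γ hγ => funext fun τ => ?_⟩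
  obtain ⟨γ', h1, h2⟩ := mem_conjGL.1 hγ
  obtain ⟨h3, h4, -⟩ := cj h2 τ
  rw [SL_slash_apply, h3, ← h4, ← SL_slash_apply, h γ' h1]

theorem wt_E4 : Wt 4 E₄ := ⟨⊤, inferInstance, fun γ _ => Rm.E4_slash γ⟩

theorem wt_E6 : Wt 6 E₆ := ⟨⊤, inferInstance, fun γ _ => Rm.E6_slash γ⟩

theorem wt_E2 (i : ℚ × ℕ+) : Wt 2 (((i.2 : ℕ) : ℂ) • (fun τ => E2 (gr i • τ)) - E2) := by
  refine ⟨_, fin_cj ⊤ i, fun γ hγ => funext fun τ => ?_⟩
  obtain ⟨γ', -, h2⟩ := mem_conjGL.1 hγ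
  obtain ⟨h3, h4, h5⟩ := cj h2 τ
  have e1 := congrFun (E2_slash_action γ) τ
  have e2 := congrFun (E2_slash_action γ') (gr i • τ)
  simp only [SL_slash_apply, Pi.sub_apply, Pi.smul_apply, smul_eq_mul, D2] at e1 e2 ⊢
  rw [h3, sub_mul, mul_assoc, e1, ← h4, e2, h4, ← h5]
  ring

theorem not_wt_E2 : ¬ Wt 2 E2 := by
  rintro ⟨Γ, hΓ, h⟩
  let U : SL(2, ℤ) := ⟨!![1, 0; 1, 1], by simp [det_fin_two]⟩
  obtain ⟨n, h1, -, h2⟩ := Subgroup.exists_pow_mem_of_index_ne_zero hΓ.index_ne_zero U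
  have e := congrFun ((h _ h2).symm.trans (E2_slash_action _)) UpperHalfPlane.I
  have e1 : ∀ n : ℕ, (U ^ n) 1 0 = n ∧ (U ^ n) 1 1 = 1 := fun n => by
    induction n with
    | zero => simp
    | succ n ih =>
      have e2 : ∀ j, (U ^ (n + 1)) 1 j = (U ^ n) 1 0 * U 0 j + (U ^ n) 1 1 * U 1 j := fun j => by
        rw [pow_succ]
        exact (Matrix.mul_apply (M := (U ^ n).1) (N := U.1)).trans (Fin.sum_univ_two _)
      rw [e2, e2, ih.1, ih.2]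
      simp [U]
  have h6 := (e1 n).1
  generalize U ^ n = γ at e h6
  have h3 := denom_ne_zero γ UpperHalfPlane.I
  have h4 := riemannZeta_ne_zero_of_one_le_re (s := 2) (by simp)
  have h5 : (n : ℂ) ≠ 0 := by exact_mod_cast h1.ne'
  rw [Pi.sub_apply, Pi.smul_apply, smul_eq_mul, D2, h6, eq_comm, sub_eq_self] at e
  exact mul_ne_zero (by simpa using h4) (div_ne_zero (by simpa using h5) h3) e

/-- the functions fixed by a subgroup of finite index -/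
def Fo : IntermediateField ℂ Mer where
  carrier := {y | ∃ Γ : Subgroup SL(2, ℤ), Γ.FiniteIndex ∧ ∀ γ ∈ Γ, act γ y = y}
  mul_mem' := by
    rintro a b ⟨Γ, _, h⟩ ⟨Γ', _, h'⟩
    exact ⟨Γ ⊓ Γ', inferInstance, fun γ hγ => by rw [map_mul, h γ hγ.1, h' γ hγ.2]⟩
  add_mem' := by
    rintro a b ⟨Γ, _, h⟩ ⟨Γ', _, h'⟩
    exact ⟨Γ ⊓ Γ', inferInstance, fun γ hγ => by rw [map_add, h γ hγ.1, h' γ hγ.2]⟩
  algebraMap_mem' c := ⟨⊤, inferInstance, fun γ _ => (act γ).commutes c⟩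
  inv_mem' := by
    rintro a ⟨Γ, _, h⟩
    exact ⟨Γ, inferInstance, fun γ hγ => by rw [map_inv₀, h γ hγ]⟩

theorem fo_iff {k : ℤ} {F G : ℍ → ℂ} (hF : F ∈ Hol) (hG : G ∈ Hol) (h0 : G ≠ 0) (h : Wt k G) :
    inc F hF / inc G hG ∈ Fo ↔ Wt k F := by
  obtain ⟨Γ', _, h'⟩ := h
  have key : ∀ γ ∈ Γ', act γ⁻¹ (inc F hF / inc G hG) = inc F hF / inc G hG ↔ F ∣[k] γ = F := by
    intro γ hγ
    rw [act_div γ⁻¹ k hF hG h0, inc_congr (slash_mem hG k _) (by rw [inv_inv, h' γ hγ]),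
      div_left_inj' fun e => h0 ((inc_eq_zero hG).1 e)]
    simp only [inv_inv]
    exact ⟨inc_injective _ _, fun e => inc_congr _ e⟩
  constructor
  · rintro ⟨Γ, _, h⟩
    exact ⟨Γ ⊓ Γ', inferInstance, fun γ hγ => (key γ hγ.2).1 (h _ (Γ.inv_mem hγ.1))⟩
  · rintro ⟨Γ, _, h⟩
    refine ⟨Γ ⊓ Γ', inferInstance, fun γ hγ => ?_⟩
    simpa using (key γ⁻¹ (Γ'.inv_mem hγ.2)).2 (h _ (Γ.inv_mem hγ.1))

theorem fo_alg {y : Mer} {p : Polynomial Mer} (p0 : p ≠ 0) (hp : ∀ n, p.coeff n ∈ Fo)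
    (h : p.eval y = 0) : y ∈ Fo := by
  classical
  choose G hG hp using hp
  let Γ : Subgroup SL(2, ℤ) := ⨅ n : p.support, G n
  have : Γ.FiniteIndex := Subgroup.finiteIndex_iInf fun n : p.support => hG n
  let : MulAction SL(2, ℤ) Mer := MulAction.compHom Mer act
  have h1 : (MulAction.orbit Γ y).Finite := by
    refine (p.roots.toFinset.finite_toSet).subset ?_
    rintro _ ⟨γ, rfl⟩
    have e : p.map (act γ.1 : Mer →+* Mer) = p := by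
      ext n
      rw [Polynomial.coeff_map]
      by_cases hn : n ∈ p.support
      · exact hp n γ (Subgroup.mem_iInf.1 γ.2 ⟨n, hn⟩)
      · simp [Polynomial.notMem_support_iff.1 hn]
    have h2 : p.eval ((act γ.1 : Mer →+* Mer) y) = 0 := by
      rw [← e, Polynomial.eval_map, Polynomial.eval₂_at_apply, h, map_zero]
    exact Finset.mem_coe.2 (Multiset.mem_toFinset.2 ((Polynomial.mem_roots p0).2 h2))
  have h2 : (MulAction.stabilizer Γ y).index ≠ 0 := by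
    rw [MulAction.index_stabilizer]
    exact Set.ncard_ne_zero_of_mem (MulAction.mem_orbit_self y) h1
  refine ⟨(MulAction.stabilizer Γ y).map Γ.subtype, ⟨?_⟩, ?_⟩
  · rw [Subgroup.index_map_subtype]
    exact mul_ne_zero h2 Subgroup.FiniteIndex.index_ne_zero
  · rintro _ ⟨γ, hγ, rfl⟩
    exact hγ

/-- composition with `gr i` -/
def cmH (i : ℚ × ℕ+) : Hol →+* Hol where
  toFun f := ⟨fun τ => (f : ℍ → ℂ) (gr i • τ),
    (mem_Hol.1 f.2).comp (UpperHalfPlane.mdifferentiable_smul (gr_det i))⟩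
  map_one' := rfl
  map_zero' := rfl
  map_mul' _ _ := rfl
  map_add' _ _ := rfl

theorem cmH_inj (i : ℚ × ℕ+) : Function.Injective ((algebraMap Hol Mer).comp (cmH i)) := by
  refine (IsFractionRing.injective Hol Mer).comp fun f g e => Subtype.ext (funext fun τ => ?_)
  simpa [cmH] using congrFun (congrArg Subtype.val e) ((gr i)⁻¹ • τ)

/-- composition with `gr i` -/
def cm (i : ℚ × ℕ+) : Mer →+* Mer := IsFractionRing.lift (cmH_inj i)

theorem cm_alg (i : ℚ × ℕ+) (f : Hol) :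
    cm i (algebraMap Hol Mer f) = algebraMap Hol Mer (cmH i f) :=
  IsFractionRing.lift_algebraMap _ _

theorem fo_cm (i : ℚ × ℕ+) {y : Mer} (h : y ∈ Fo) : cm i y ∈ Fo := by
  obtain ⟨Γ, _, h⟩ := h
  refine ⟨_, fin_cj Γ i, fun γ hγ => ?_⟩
  obtain ⟨γ', h1, h2⟩ := mem_conjGL.1 (Subgroup.inv_mem _ hγ)
  have e : (act γ : Mer →+* Mer).comp (cm i) = (cm i).comp (act γ'⁻¹ : Mer →+* Mer) := by
    refine IsLocalization.ringHom_ext (nonZeroDivisors Hol) (RingHom.ext fun f => ?_)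
    simp only [RingHom.comp_apply, RingHom.coe_coe, cm_alg, act_algebraMap]
    congr 1
    refine Subtype.ext (funext fun τ => ?_)
    change (f : ℍ → ℂ) (gr i • γ⁻¹ • τ) = (f : ℍ → ℂ) (γ'⁻¹⁻¹ • gr i • τ)
    rw [(cj h2 τ).1, inv_inv]
  have := RingHom.congr_fun e y
  simp only [RingHom.comp_apply, RingHom.coe_coe] at this
  rw [this, h _ (Γ.inv_mem h1)]

end Vale.Agent.P022K.UC.Am
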