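import Vale.Agent.P022K.UC.Am4
import Vale.Agent.P022K.UC.Am5
import Vale.Agent.P022K.UC.Am6

/-!
# P022K, block UC, step (4A): the field of convergent Laurent series
-/

set_option autoImplicit false

open UpperHalfPlane ModularForm HahnSeries EisensteinSeries
open scoped MatrixGroups ModularForm Real LaurentSeries PowerSeries

noncomputable section

namespace Vale.Agent.P022K.UC.Am

open Vale.Agent.P022.H218.L3

/-- the power series which converge on the unit disc -/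
def Cv : Subalgebra ℂ ℂ⟦X⟧ where
  carrier := {g | ∃ F, Sp g F}
  mul_mem' := by
    rintro a b ⟨F, h⟩ ⟨G, h'⟩
    exact ⟨_, h.mul h'⟩
  add_mem' := by
    rintro a b ⟨F, h⟩ ⟨G, h'⟩
    exact ⟨_, h.add h'⟩
  algebraMap_mem' c := ⟨_, Sp.const c⟩

/-- the sum -/
def fn (g : Cv) : ℍ → ℂ := g.2.choose

theorem sp_fn (g : Cv) : Sp g (fn g) := g.2.choose_spec

theorem fn_eq {g : Cv} {F : ℍ → ℂ} (h : Sp g F) : fn g = F := Sm.fun_eq (sp_fn g) h

theorem fn_hol (g : Cv) : fn g ∈ Hol := Sm.hol (sp_fn g)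

theorem fn_mul (g h : Cv) : fn (g * h) = fn g * fn h := fn_eq ((sp_fn g).mul (sp_fn h))

theorem fn_pow (g : Cv) (n : ℕ) : fn (g ^ n) = fn g ^ n := fn_eq ((sp_fn g).pow n)

theorem fn_ne {g : Cv} (h : g ≠ 0) : fn g ≠ 0 :=
  fun e => h (Subtype.ext ((sp_fn g).eq_zero_iff.2 e))

/-- the sum -/
def evH : Cv →ₐ[ℂ] Hol where
  toFun g := ⟨fn g, fn_hol g⟩
  map_one' := Subtype.ext (fn_eq Sp.one)
  map_zero' := Subtype.ext (fn_eq Sp.zero)
  map_mul' g h := Subtype.ext (fn_mul g h)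
  map_add' g h := Subtype.ext (fn_eq ((sp_fn g).add (sp_fn h)))
  commutes' c := Subtype.ext (fn_eq (Sp.const c))

theorem ev_inj : Function.Injective ((IsScalarTower.toAlgHom ℂ Hol Mer).comp evH) := by
  refine (IsFractionRing.injective Hol Mer).comp ((injective_iff_map_eq_zero evH).2 fun g h => ?_)
  by_contra h0
  exact fn_ne h0 (congrArg Subtype.val h)

/-- the field of fractions -/
abbrev LL : Type := FractionRing Cv

/-- the inclusion -/
abbrev al : Cv →+* LL := algebraMap Cv LL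

theorem al_ne {g : Cv} (h : g ≠ 0) : al g ≠ 0 :=
  (map_ne_zero_iff _ (IsFractionRing.injective Cv LL)).2 h

/-- the meromorphic function -/
def Ev : LL →ₐ[ℂ] Mer := IsFractionRing.liftAlgHom ev_inj

theorem Ev_al (g : Cv) : Ev (al g) = inc (fn g) (fn_hol g) := by
  rw [Ev, IsFractionRing.liftAlgHom_apply, IsFractionRing.lift_algebraMap]
  rfl

theorem ex_inj : Function.Injective ((ofPowerSeries ℤ ℂ).comp (Cv.val : Cv →+* ℂ⟦X⟧)) :=
  ofPowerSeries_injective.comp Subtype.val_injective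

/-- the expansion -/
def Ex : LL →+* ℂ⸨X⸩ := (exists_lift LL ex_inj).choose

theorem Ex_al (g : Cv) : Ex (al g) = ofPowerSeries ℤ ℂ g :=
  RingHom.congr_fun (exists_lift LL ex_inj).choose_spec g

theorem Ex_c (c : ℂ) : Ex (algebraMap ℂ LL c) = C c := by
  rw [IsScalarTower.algebraMap_apply ℂ Cv LL, Ex_al]
  exact ofPowerSeries_C c

theorem sp_sq (i : ℚ × ℕ+) {g : ℂ⟦X⟧} {F : ℍ → ℂ} (h : Sp g F) :
    Sp (PowerSeries.expand i.2 i.2.ne_zero (PowerSeries.rescale (ze i.1 : ℂ) g))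
      fun τ => F (gr i • τ) := fun τ => by
  have e : Rm.qq (gr i • τ) = ze i.1 * Rm.qq τ ^ (i.2 : ℕ) := by
    rw [Rm.qq, Rm.qq, Function.Periodic.qParam, Function.Periodic.qParam, coe_gr, ze_val,
      ← Complex.exp_nat_mul, ← Complex.exp_add]
    congr 1
    push_cast
    ring
  refine ((mul_right_injective₀ i.2.ne_zero).hasSum_iff fun n hn => ?_).1
    (Rm.hs_congr (h (gr i • τ)) fun n => ?_)
  · dsimp only
    rw [PowerSeries.coeff_expand_of_not_dvd _ _ _ fun ⟨m, hm⟩ => hn ⟨m, hm.symm⟩, zero_smul]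
  · change PowerSeries.coeff _ _ • Rm.qq τ ^ _ = _ • Rm.qq _ ^ n
    rw [e, PowerSeries.coeff_expand_mul, PowerSeries.coeff_rescale, mul_pow, pow_mul, smul_eq_mul,
      smul_eq_mul]
    ring

/-- the substitution -/
def sC (i : ℚ × ℕ+) : Cv →+* Cv :=
  (((PowerSeries.expand i.2 i.2.ne_zero : ℂ⟦X⟧ →ₐ[ℂ] ℂ⟦X⟧).toRingHom.comp
    (PowerSeries.rescale (ze i.1 : ℂ))).comp (Cv.val : Cv →+* ℂ⟦X⟧)).codRestrict Cv
    fun g => ⟨_, sp_sq i (sp_fn g)⟩

theorem fn_sC (i : ℚ × ℕ+) (g : Cv) : fn (sC i g) = fun τ => fn g (gr i • τ) :=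
  fn_eq (sp_sq i (sp_fn g))

theorem ex_sC (i : ℚ × ℕ+) (g : Cv) : Ex (al (sC i g)) = sq i (Ex (al g)) := by
  rw [Ex_al, Ex_al, sq, sb, RingHom.comp_apply, rs_coe, ex_coe]
  rfl

theorem sC_inj (i : ℚ × ℕ+) : Function.Injective (al.comp (sC i)) := fun g h e =>
  IsFractionRing.injective Cv LL (Ex.injective ((sq i).injective (by
    rw [← ex_sC, ← ex_sC]
    exact congrArg Ex e)))

/-- the substitution -/
def sL (i : ℚ × ℕ+) : LL →+* LL := (exists_lift LL (sC_inj i)).choose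

theorem sL_al (i : ℚ × ℕ+) (g : Cv) : sL i (al g) = al (sC i g) :=
  RingHom.congr_fun (exists_lift LL (sC_inj i)).choose_spec g

theorem Ex_sL (i : ℚ × ℕ+) (x : LL) : Ex (sL i x) = sq i (Ex x) :=
  RingHom.congr_fun (IsLocalization.ringHom_ext (nonZeroDivisors Cv) (j := Ex.comp (sL i))
    (k := (sq i).comp Ex) (RingHom.ext fun g => by
      simp only [RingHom.comp_apply, sL_al, ex_sC])) x

theorem Ev_sL (i : ℚ × ℕ+) (x : LL) : Ev (sL i x) = cm i (Ev x) :=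
  RingHom.congr_fun (IsLocalization.ringHom_ext (nonZeroDivisors Cv)
    (j := (Ev : LL →+* Mer).comp (sL i)) (k := (cm i).comp (Ev : LL →+* Mer))
    (RingHom.ext fun g => by
      simp only [RingHom.comp_apply, sL_al, RingHom.coe_coe, Ev_al, inc, cm_alg]
      exact congrArg _ (Subtype.ext (fn_sC i g)))) x

/-- the base field -/
def KK : IntermediateField ℂ LL := Fo.comap Ev

theorem kk_iff {k : ℤ} {x y : Cv} (h0 : y ≠ 0) (h : Wt k (fn y)) :
    al x / al y ∈ KK ↔ Wt k (fn x) := by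
  rw [← fo_iff (fn_hol x) (fn_hol y) (fn_ne h0) h, ← Ev_al, ← Ev_al, ← map_div₀ Ev]
  rfl

theorem kk_alg (x : LL) (h : IsAlgebraic KK x) : x ∈ KK := by
  obtain ⟨p, p0, hp⟩ := h
  refine fo_alg (p := p.map ((Ev : LL →+* Mer).comp (algebraMap KK LL)))
    (Polynomial.map_ne_zero p0) (fun n => ?_) ?_
  · rw [Polynomial.coeff_map]
    exact (p.coeff n).2
  · rw [Polynomial.eval_map]
    exact (Polynomial.hom_eval₂ p _ (Ev : LL →+* Mer) x).symm.trans (by
      rw [← Polynomial.aeval_def, hp, map_zero])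

/-- `E₂` -/
def c2 : Cv := ⟨e2, _, Rm.e2_eq ▸ Rm.sp_E2⟩

/-- `E₄` -/
def c4 : Cv := ⟨e4, _, Rm.e4_eq ▸ Rm.sp_E4⟩

/-- `E₆` -/
def c6 : Cv := ⟨e6, _, Rm.e6_eq ▸ Rm.sp_E6⟩

theorem fn_c2 : fn c2 = E2 := fn_eq (Rm.e2_eq ▸ Rm.sp_E2 : Sp e2 _)

theorem wt4 : Wt 4 (fn c4) := fn_eq (g := c4) (Rm.e4_eq ▸ Rm.sp_E4 : Sp e4 _) ▸ wt_E4

theorem wt6 : Wt 6 (fn c6) := fn_eq (g := c6) (Rm.e6_eq ▸ Rm.sp_E6 : Sp e6 _) ▸ wt_E6

theorem c4_ne : c4 ≠ 0 := fun e => by
  simpa [c4, e4] using congrArg (fun g : Cv => PowerSeries.coeff 0 g.1) e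

theorem c6_ne : c6 ≠ 0 := fun e => by
  simpa [c6, e6] using congrArg (fun g : Cv => PowerSeries.coeff 0 g.1) e

theorem sC_ne (i : ℚ × ℕ+) {g : Cv} (h : g ≠ 0) : sC i g ≠ 0 := fun e =>
  h (sC_inj i (by simp [e]))

theorem wt_sC (i : ℚ × ℕ+) {k : ℤ} {g : Cv} (h : Wt k (fn g)) : Wt k (fn (sC i g)) :=
  fn_sC i g ▸ h.comp i

/-- a meromorphic form of weight two -/
def om : LL := al c6 / al c4

theorem om_ne : om ≠ 0 := div_ne_zero (al_ne c6_ne) (al_ne c4_ne)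

/-- `E₂` in weight zero -/
def tt : LL := al c2 / om

/-- the scaling factor -/
def uu (i : ℚ × ℕ+) : LL := om / ((i.2 : ℕ) * sL i om)

theorem tt_not : tt ∉ KK := fun h => by
  have e : tt = al (c2 * c4) / al c6 := by
    rw [tt, om, map_mul, div_div_eq_mul_div]
  rw [e, kk_iff c6_ne wt6, fn_mul] at h
  exact not_wt_E2 (fn_c2 ▸ h.cancel wt4 rfl (fn_hol _) (fn_hol _) (fn_ne c4_ne))

instance : CharZero LL := charZero_of_injective_algebraMap (algebraMap ℂ LL).injective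

theorem om_mem (i : ℚ × ℕ+) : sL i om / om ∈ KK := by
  have e : sL i om / om = al (sC i c6 * c4) / al (sC i c4 * c6) := by
    rw [om, map_div₀, sL_al, sL_al, map_mul, map_mul, div_div_div_eq]
  rw [e, kk_iff (k := 10) (mul_ne_zero (sC_ne i c4_ne) c6_ne)
    (fn_mul _ _ ▸ (wt_sC i wt4).mul wt6 rfl), fn_mul]
  exact (wt_sC i wt6).mul wt4 rfl

theorem op (i : ℚ × ℕ+) : Op KK tt Ex (sL i) (uu i) := by
  have n0 : ((i.2 : ℕ) : LL) ≠ 0 := by exact_mod_cast i.2.ne_zero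
  have s0 : sL i om ≠ 0 := (_root_.map_ne_zero _).2 om_ne
  refine ⟨fun x hx => ?_, ?_, div_ne_zero om_ne (mul_ne_zero n0 s0), ?_,
    ze i.1, i.2, i.2.ne_zero, norm_ze _, Ex_sL i⟩
  · change Ev (sL i x) ∈ Fo
    rw [Ev_sL]
    exact fo_cm i hx
  · rw [uu, ← inv_div, mul_div_assoc]
    exact inv_mem (mul_mem (natCast_mem _ _) (om_mem i))
  · have e : sL i tt - uu i * tt = ((i.2 : ℕ) : LL)⁻¹ *
        (al ((((i.2 : ℕ) : ℂ) • sC i c2 - c2) * sC i c4) / al (sC i c6)) := by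
      have := om_ne
      have := al_ne (sC_ne i c4_ne)
      have := al_ne (sC_ne i c6_ne)
      rw [Nat.cast_smul_eq_nsmul, nsmul_eq_mul, uu, tt, map_div₀, sL_al]
      conv_lhs => rw [show sL i om = al (sC i c6) / al (sC i c4) by
        rw [om, map_div₀, sL_al, sL_al]]
      simp only [map_mul, map_sub, map_natCast]
      field_simp
    rw [e]
    refine mul_mem (inv_mem (natCast_mem _ _)) ((kk_iff (sC_ne i c6_ne) (wt_sC i wt6)).2 ?_)
    rw [fn_mul]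
    refine Wt.mul ?_ (wt_sC i wt4) (k := 2) rfl
    have e2 : fn (((i.2 : ℕ) : ℂ) • sC i c2 - c2) = ((i.2 : ℕ) : ℂ) • fn (sC i c2) - fn c2 :=
      fn_eq (((sp_fn _).smul _).sub (sp_fn _))
    rw [e2, fn_sC, fn_c2]
    exact wt_E2 i

theorem lc_uu (i : ℚ × ℕ+) : ‖(Ex (uu i)).leadingCoeff‖ = ((i.2 : ℕ) : ℝ)⁻¹ := by
  have n0 : ((i.2 : ℕ) : LL) ≠ 0 := by exact_mod_cast i.2.ne_zero
  have s0 : sL i om ≠ 0 := (_root_.map_ne_zero _).2 om_ne
  have e : uu i * (algebraMap ℂ LL (i.2 : ℕ) * sL i om) = om := by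
    rw [map_natCast, uu, div_mul_cancel₀ _ (mul_ne_zero n0 s0)]
  have h := congrArg (fun x => ‖(Ex x).leadingCoeff‖) e
  have h0 : ‖(Ex om).leadingCoeff‖ ≠ 0 :=
    norm_ne_zero_iff.2 (leadingCoeff_ne_zero.2 ((_root_.map_ne_zero _).2 om_ne))
  simp only [map_mul, Ex_c, Ex_sL, sq, leadingCoeff_mul, lc_sb, C_apply, leadingCoeff_of_single,
    norm_mul, norm_zpow, norm_ze, one_zpow, one_mul, Complex.norm_natCast] at h
  rw [← mul_assoc, mul_eq_right₀ h0] at h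
  exact eq_inv_of_mul_eq_one_left h

/-- a function of level one -/
def jj : KK := ⟨al (c4 ^ 3) / al (c6 ^ 2), (kk_iff (k := 12) (pow_ne_zero _ c6_ne)
  (by rw [fn_pow]; exact wt6.pow 2)).2 (by rw [fn_pow]; exact wt4.pow 3)⟩

theorem jj_tr : Transcendental ℂ jj := fun h => by
  obtain ⟨a, ha⟩ := minpoly.mem_range_of_degree_eq_one ℂ jj
    (IsAlgClosed.degree_eq_one_of_irreducible ℂ (minpoly.irreducible h.isIntegral))
  have h1 : algebraMap ℂ LL a = al (c4 ^ 3) / al (c6 ^ 2) := congrArg Subtype.val ha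
  rw [eq_div_iff (al_ne (pow_ne_zero _ c6_ne)), IsScalarTower.algebraMap_apply ℂ Cv LL,
    ← map_mul] at h1
  have h2 : PowerSeries.C a * (e6 * e6) = e4 * e4 * e4 := by
    have := congrArg Subtype.val (IsFractionRing.injective Cv LL h1)
    rw [← pow_two, ← pow_three']
    exact this
  have h3 := congrArg (PowerSeries.coeff 0) h2
  have h4 := congrArg (PowerSeries.coeff 1) h2
  simp [PowerSeries.coeff_mul, Finset.Nat.antidiagonal_succ, e4, e6] at h3 h4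
  rw [h3] at h4
  norm_num at h4

end Vale.Agent.P022K.UC.Am
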