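import Vale.Agent.P022K.UC.Vol2

/-!
# P022K, block UC: the count on the hypersurface `3 x ^ 2 + y ^ 2 + z ^ 2 + 12 = 0`
-/

set_option linter.all false

open MvPolynomial

noncomputable section

namespace Vale.Agent.P022K.UC.Core

open Vale.Agent.P022K.UC.Vol

section norm

variable {O : Type*} [CommRing O] [IsDomain O] {σ : Type*} {π : O}

theorem sq_mem (hπ : Prime π) {a : ℕ} {p : MvPolynomial σ O} (h : p * p ∈ mm σ π ^ (2 * a + 1)) :
    p ∈ mm σ π ^ (a + 1) := by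
  by_contra k
  exact k (ord_mul hπ k (by rwa [show a + (a + 1) = 2 * a + 1 by ring]))

theorem mul_mem_le {R : Type*} [CommRing R] {I : Ideal R} {a b n : ℕ} {x y : R} (hx : x ∈ I ^ a)
    (hy : y ∈ I ^ b) (h : n ≤ a + b) : x * y ∈ I ^ n :=
  Ideal.pow_le_pow_right h (by rw [pow_add]; exact Ideal.mul_mem_mul hx hy)

theorem nrm (hπ : Prime π) {S E p q : MvPolynomial σ O} (hS : S ∈ mm σ π ^ 2)
    (h3 : E ∈ mm σ π ^ 3) (h4 : E ∉ mm σ π ^ (3 + 1)) {e : ℕ}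
    (h : p * p + S * p * q + E * (q * q) ∈ mm σ π ^ (2 * e + 2)) :
    p ∈ mm σ π ^ e ∧ q ∈ mm σ π ^ e := by
  induction e with
  | zero => simp
  | succ e ih =>
    obtain ⟨hp, hq⟩ := ih (Ideal.pow_le_pow_right (by omega) h)
    have k : ∀ a, p ∈ mm σ π ^ a → 2 * a + 1 ≤ 2 * e + 3 → a + 1 ≤ e + 2 → p ∈ mm σ π ^ (a + 1) :=
      fun a ha h1 h2 => sq_mem hπ (by
        have h5 := sub_mem (sub_mem (Ideal.pow_le_pow_right (show 2 * a + 1 ≤ _ by omega) h)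
          (mul_mem_le h3 (mul_mem_le hq hq le_rfl) (by omega)))
          (mul_mem_le (mul_mem_le hS ha le_rfl) hq (by omega))
        rwa [add_sub_cancel_right, add_sub_cancel_right] at h5)
    have p1 := k e hp (by omega) (by omega)
    have p2 := k _ p1 (by omega) (by omega)
    refine ⟨p1, sq_mem hπ (ord_mul hπ h4 ?_)⟩
    have h5 := sub_mem (Ideal.pow_le_pow_right (show 3 + (2 * e + 1) ≤ _ by omega) h)
      (add_mem (mul_mem_le p2 p2 (by omega)) (mul_mem_le (mul_mem_le hS p2 le_rfl) hq (by omega)))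
    rwa [add_sub_cancel_left] at h5

end norm

theorem irr2 : Irreducible (2 : ℤ_[2]) := by simpa using PadicInt.irreducible_p (p := 2)

theorem nrm2 {p q : MvPolynomial (Fin 2) ℤ_[2]} {e : ℕ}
    (h : p * p + (3 * X 0 ^ 2 + X 1 ^ 2 + 12) * (q * q) ∈ mm (Fin 2) (2 : ℤ_[2]) ^ (2 * e + 2)) :
    p ∈ mm (Fin 2) (2 : ℤ_[2]) ^ e ∧ q ∈ mm (Fin 2) (2 : ℤ_[2]) ^ e := by
  have m2 : (2 : MvPolynomial (Fin 2) ℤ_[2]) ∈ mm (Fin 2) (2 : ℤ_[2]) :=
    Ideal.subset_span (Set.mem_insert_iff.2 (Or.inl (map_ofNat C 2).symm))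
  have mX : ∀ i, (X i : MvPolynomial (Fin 2) ℤ_[2]) ∈ mm (Fin 2) (2 : ℤ_[2]) := fun i =>
    Ideal.subset_span (Set.mem_insert_of_mem _ (Set.mem_range_self i))
  have k2 : ∀ {a b}, a ∈ mm (Fin 2) (2 : ℤ_[2]) → b ∈ mm (Fin 2) (2 : ℤ_[2]) →
      a * b ∈ mm (Fin 2) (2 : ℤ_[2]) ^ 2 := fun ha hb => by
    rw [pow_two]; exact Ideal.mul_mem_mul ha hb
  have k3 : ∀ {a b c}, a ∈ mm (Fin 2) (2 : ℤ_[2]) → b ∈ mm (Fin 2) (2 : ℤ_[2]) →
      c ∈ mm (Fin 2) (2 : ℤ_[2]) → a * b * c ∈ mm (Fin 2) (2 : ℤ_[2]) ^ 3 := fun ha hb hc => by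
    rw [pow_succ]; exact Ideal.mul_mem_mul (k2 ha hb) hc
  obtain ⟨h1, h2⟩ := nrm irr2.prime (p := p - q * (X 0 + X 1 + 2)) (q := q) (e := e)
    (k2 m2 (add_mem (add_mem (mX 0) (mX 1)) m2))
    (add_mem (k3 m2 (mX 1) (add_mem (mX 0) (mX 1))) (k3 m2 m2 (add_mem (add_mem (mX 0) (mX 1))
      (add_mem (Ideal.mul_mem_left _ (X 0) (mX 0)) (Ideal.mul_mem_left _ 2 m2)))))
    (fun k => by
      have h3 := map_mem (eval ![(2 : ℤ_[2]), 0]) (I := Ideal.span {2})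
        (by simpa using Ideal.mem_span_singleton_self _) (fun i => by
          fin_cases i <;> simp [Ideal.mem_span_singleton_self]) k
      rw [Ideal.span_singleton_pow, Ideal.mem_span_singleton] at h3
      simp only [map_add, map_mul, eval_X, map_ofNat, Matrix.cons_val_zero, Matrix.cons_val_one] at h3
      have h4 : (2 : ℤ_[2]) ^ (3 + 1) ∣ 2 ^ 3 := by
        convert dvd_sub h3 (dvd_mul_left _ 2) using 1
        norm_num
      rw [pow_dvd_pow_iff irr2.ne_zero irr2.not_isUnit] at h4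
      omega) (by convert h using 1; ring)
  exact ⟨sub_add_cancel p _ ▸ add_mem h1 (Ideal.mul_mem_right (X 0 + X 1 + 2) _ h2), h2⟩

/-- the count -/
theorem cnt {A κ : Type*} [CommRing A] [Algebra ℤ_[2] A] [Fintype κ] [DecidableEq κ] {x y z : A}
    (rel : 3 * x ^ 2 + y ^ 2 + z ^ 2 + 12 = 0) (φ : A →ₗ[ℤ_[2]] (κ → ℤ_[2]))
    (p₀ q₀ : κ → MvPolynomial (Fin 2) ℤ_[2]) {h n e D : ℕ}
    (hD : ¬ (2 : ℤ_[2]) ^ (D + 1) ∣
      (Matrix.of fun j k => φ (aeval ![x, y] (p₀ k) + aeval ![x, y] (q₀ k) * z) j).det)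
    (hx : ∀ u j, 2 ^ h ∣ φ (x ^ n * u) j ∧ 2 ^ h ∣ φ (y ^ n * u) j) (hn : h ≤ n)
    (hc : 2 * ((2 * e + 1) * (3 * n + 1) ^ 2) + D < h * Fintype.card κ)
    {p q : MvPolynomial (Fin 2) ℤ_[2]}
    (ht : ∀ u j, 2 ^ h ∣ φ ((aeval ![x, y] p + aeval ![x, y] q * z) * u) j) :
    p ∈ mm (Fin 2) (2 : ℤ_[2]) ^ e ∧ q ∈ mm (Fin 2) (2 : ℤ_[2]) ^ e := by
  let J : Ideal A :=
    { carrier := {a | ∀ u j, 2 ^ h ∣ φ (a * u) j}
      zero_mem' := fun u j => by simp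
      add_mem' := fun ha hb u j => by
        rw [add_mul, map_add]
        exact dvd_add (ha u j) (hb u j)
      smul_mem' := fun c a ha u j => by
        rw [smul_eq_mul, mul_comm c, mul_assoc]
        exact ha _ j }
  refine nrm2 (vol_det irr2 (fun i : Fin 2 => φ.comp ((LinearMap.mulRight ℤ_[2] (![1, z] i)).comp
    (aeval ![x, y]).toLinearMap)) _ (fun k => ⟨![p₀ k, q₀ k], fun j => by simp⟩) (N := 3 * n + 1) hD
    (fun i u hu j => kill (aeval ![x, y]).toRingHom (I := J) (n := n) (fun u j => ?_)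
      (fun i u j => ?_) (by simp) hu _ j) (by simpa using hc) fun i u j => ?_)
  · obtain ⟨r, rfl⟩ := Nat.exists_eq_add_of_le hn
    rw [AlgHom.toRingHom_eq_coe, RingHom.coe_coe, aeval_C, ← map_pow, ← Algebra.smul_def, map_smul,
      pow_add, mul_smul]
    exact dvd_mul_right _ _
  · fin_cases i
    · simpa using (hx u j).1
    · simpa using (hx u j).2
  · refine (congrArg (fun a => 2 ^ h ∣ φ a j) ?_).mp
      (ht ((aeval ![x, y] p - aeval ![x, y] q * z) * (aeval ![x, y] u * ![1, z] i)) j)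
    show _ = aeval ![x, y] (_ * u) * ![1, z] i
    simp only [map_mul, map_add, map_pow, aeval_X, map_ofNat, Matrix.cons_val_zero, Matrix.cons_val_one]
    linear_combination (-(aeval ![x, y] q ^ 2 * aeval ![x, y] u * ![1, z] i) : A) * rel

section point

variable {T L : Type*} [CommRing T] [NormedField L] [IsUltrametricDist L] (μ : T →+* L)
  (int : ∀ a, ‖μ a‖ ≤ 1)

/-- balls -/
def Bl (r : ℝ) (hr : 0 ≤ r) : Ideal T where
  carrier := {a | ‖μ a‖ ≤ r}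
  zero_mem' := by simpa
  add_mem' := fun ha hb => by
    rw [Set.mem_setOf_eq, map_add]
    exact (IsUltrametricDist.norm_add_le_max _ _).trans (max_le ha hb)
  smul_mem' c a ha := by
    rw [Set.mem_setOf_eq, smul_eq_mul, map_mul, norm_mul]
    exact (mul_le_of_le_one_left (norm_nonneg _) (int c)).trans ha

theorem Bl_pow {r : ℝ} (hr : 0 ≤ r) (e : ℕ) : Bl μ int r hr ^ e ≤ Bl μ int (r ^ e) (by positivity) := by
  induction e with
  | zero => exact fun a _ => (int a).trans_eq (pow_zero _).symm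
  | succ e ih =>
    rw [pow_succ (Bl μ int r hr)]
    refine Ideal.mul_le.2 fun a ha b hb => ?_
    show ‖μ (a * b)‖ ≤ _
    rw [map_mul, norm_mul, pow_succ]
    exact mul_le_mul (ih ha) hb (norm_nonneg _) (by positivity)

include int in
theorem pt_le {ρ : ℝ} (h2 : ‖(2 : L)‖ ≤ ρ) {x y : T} (hx : ‖μ x‖ ≤ ρ) (hy : ‖μ y‖ ≤ ρ) {e : ℕ}
    {p : MvPolynomial (Fin 2) ℤ}
    (h : map (Int.castRingHom ℤ_[2]) p ∈ mm (Fin 2) (2 : ℤ_[2]) ^ e) :
    ‖μ (aeval ![x, y] p)‖ ≤ ρ ^ e := by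
  have h1 : p ∈ mm (Fin 2) (2 : ℤ) ^ e := mem_pow_of fun a => by
    have := (mem_iff irr2.ne_zero).1 h a
    rw [coeff_map] at this
    exact_mod_cast (PadicInt.pow_p_dvd_int_iff (p := 2) _ _).1 (by exact_mod_cast this)
  refine Bl_pow μ int ((norm_nonneg _).trans h2) e (map_mem (aeval ![x, y]).toRingHom ?_ (fun i => ?_) h1)
  · show ‖μ _‖ ≤ ρ
    simpa [map_ofNat] using h2
  · show ‖μ _‖ ≤ ρ
    fin_cases i <;> simpa

end point

theorem ex_poly {T : Type*} [CommRing T] {x y p : T} (h : p ∈ Subring.closure {x, y}) :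
    ∃ P : MvPolynomial (Fin 2) ℤ, aeval ![x, y] P = p := by
  refine (Subring.closure_le (t := (aeval (R := ℤ) ![x, y]).toRingHom.range)).2 ?_ h
  rintro _ (rfl | rfl)
  exacts [⟨X 0, by simp⟩, ⟨X 1, by simp⟩]

theorem ex_word {T ι : Type*} [CommRing T] {x y z : T} (rel : 3 * x ^ 2 + y ^ 2 + z ^ 2 + 12 = 0)
    {I : Ideal T} {b : ι → T} (h : ∀ l, ∃ p ∈ Subring.closure {x, y}, ∃ q ∈ Subring.closure {x, y},
      b l - (p + q * z) ∈ I) (P : FreeAlgebra ℤ ι) : ∃ p q : MvPolynomial (Fin 2) ℤ,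
      FreeAlgebra.lift ℤ b P - (aeval ![x, y] p + aeval ![x, y] q * z) ∈ I := by
  induction P using FreeAlgebra.induction with
  | grade0 r => exact ⟨C r, 0, by simp⟩
  | grade1 l =>
    obtain ⟨_, h1, _, h2, h3⟩ := h l
    obtain ⟨p, rfl⟩ := ex_poly h1
    obtain ⟨q, rfl⟩ := ex_poly h2
    exact ⟨p, q, by rwa [FreeAlgebra.lift_ι_apply]⟩
  | add a c ha hc =>
    obtain ⟨p, q, h1⟩ := ha
    obtain ⟨p', q', h2⟩ := hc
    exact ⟨p + p', q + q', by convert add_mem h1 h2 using 1; simp only [map_add]; ring⟩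
  | mul a c ha hc =>
    obtain ⟨p, q, h1⟩ := ha
    obtain ⟨p', q', h2⟩ := hc
    refine ⟨p * p' - (3 * X 0 ^ 2 + X 1 ^ 2 + 12) * (q * q'), p * q' + q * p', ?_⟩
    convert add_mem (I.mul_mem_right (FreeAlgebra.lift ℤ b c) h1)
      (I.mul_mem_left (aeval ![x, y] p + aeval ![x, y] q * z) h2) using 1
    simp only [map_mul, map_add, map_sub, map_pow, aeval_X, map_ofNat, Matrix.cons_val_zero,
      Matrix.cons_val_one]
    linear_combination (aeval ![x, y] q * aeval ![x, y] q') * rel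

theorem ari (C k W₀ : ℕ) : ∃ K, ∀ j, ∃ W g, W₀ ≤ W ∧ W ^ 3 ≤ K * (j + 1) ^ 4 ∧
    ∀ d, W ^ 2 ≤ C * d → (W + 2) ^ (C * (W + 1) * d) ≤ 2 ^ (g * d) ∧ 2 * g ≤ C * (2 * g + W) ∧
      2 * ((2 * (k * j) + 1) * (3 * (C * (2 * g + W)) + 1) ^ 2) + g * d < 2 * g * d := by
  obtain ⟨K, hK⟩ : ∃ K, K = 2400 * C ^ 4 * (2 * k + 1) + W₀ + 1 := ⟨_, rfl⟩
  refine ⟨(8 * K) ^ 4, fun j => ?_⟩
  have ex : ∃ u, K * (j + 1) < u ^ 3 := ⟨K * (j + 1) + 1,
    (Nat.lt_succ_self _).trans_le (Nat.le_self_pow three_ne_zero _)⟩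
  have h1 := Nat.find_spec ex
  have h2 := Nat.find_min ex (m := Nat.find ex - 1)
  generalize Nat.find ex = u at h1 h2
  have h3 : K ≤ K * (j + 1) := Nat.le_mul_of_pos_right _ j.succ_pos
  have h4 : 2 ≤ u := by
    by_contra h
    have : u ^ 3 ≤ 1 ^ 3 := Nat.pow_le_pow_left (by omega) 3
    omega
  have h5 : u ^ 3 ≤ 8 * K * (j + 1) := by
    have a := not_lt.1 (h2 (by omega))
    have b : u ^ 3 ≤ (2 * (u - 1)) ^ 3 := Nat.pow_le_pow_left (by omega) 3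
    rw [mul_pow] at b
    rw [mul_assoc]
    omega
  have h6 : u ^ 3 ≤ u ^ 4 := Nat.pow_le_pow_right (by omega) (by omega)
  refine ⟨u ^ 4, (4 * u + 2) * (C * (u ^ 4 + 1)), by omega, ?_, fun d hd => ?_⟩
  · rw [← pow_mul, show 4 * 3 = 3 * 4 from rfl, pow_mul, ← mul_pow]
    exact Nat.pow_le_pow_left h5 4
  have h7 : u ^ 4 = u ^ 3 * u := pow_succ u 3
  generalize u ^ 4 = W at *
  have hW : 0 < W := by omega
  have hC : 1 ≤ C := Nat.pos_of_ne_zero (by rintro rfl; simp at hd; omega)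
  obtain ⟨g, hg⟩ : ∃ g, g = (4 * u + 2) * (C * (W + 1)) := ⟨_, rfl⟩
  have g1 : W ≤ g := by
    rw [hg]
    exact (Nat.le_succ W).trans ((Nat.le_mul_of_pos_left _ hC).trans (Nat.le_mul_of_pos_left _ (by omega)))
  have g2 : g ≤ 12 * C * (u * W) := by
    rw [hg]
    calc _ ≤ (6 * u) * (C * (2 * W)) := by gcongr <;> omega
      _ = _ := by ring
  refine ⟨?_, ?_, ?_⟩
  · rw [mul_assoc (4 * u + 2), pow_mul 2]
    refine Nat.pow_le_pow_left ?_ _
    have a : u ^ 3 * u ≤ (2 ^ u) ^ 3 * 2 ^ u := by gcongr <;> exact Nat.lt_two_pow_self.le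
    have b : 2 ^ (4 * u + 2) = (2 ^ u) ^ 3 * 2 ^ u * 4 := by ring
    omega
  · exact (Nat.le_add_right _ _).trans (Nat.le_mul_of_pos_left _ hC)
  rw [← hg]
  have a1 : 3 * (C * (2 * g + W)) + 1 ≤ 10 * (C * g) := by
    have : C * (2 * g + W) ≤ C * (3 * g) := by gcongr; omega
    have : 1 ≤ C * g := Nat.mul_pos hC (by omega)
    nlinarith
  have a2 : 2 * (k * j) + 1 ≤ (2 * k + 1) * (j + 1) := by nlinarith
  have a3 : 2400 * C ^ 4 * ((2 * k + 1) * (j + 1)) < u ^ 3 := by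
    refine lt_of_le_of_lt ?_ h1
    rw [← mul_assoc]
    gcongr
    omega
  have a4 : C * (200 * C ^ 2 * ((2 * k + 1) * (j + 1)) * g) < C * d := by
    calc _ ≤ C * (200 * C ^ 2 * ((2 * k + 1) * (j + 1)) * (12 * C * (u * W))) := by gcongr
      _ = 2400 * C ^ 4 * ((2 * k + 1) * (j + 1)) * (u * W) := by ring
      _ < u ^ 3 * (u * W) := Nat.mul_lt_mul_of_pos_right a3 (by positivity)
      _ = W ^ 2 := by rw [← mul_assoc, ← h7, sq]
      _ ≤ _ := hd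
  have a5 := Nat.lt_of_mul_lt_mul_left a4
  calc _ ≤ 2 * ((2 * k + 1) * (j + 1) * (10 * (C * g)) ^ 2) + g * d := by gcongr
    _ = g * (200 * C ^ 2 * ((2 * k + 1) * (j + 1)) * g) + g * d := by ring
    _ < g * d + g * d := by gcongr; omega
    _ = _ := by ring

theorem bd (c : ℕ) : ∃ C, ∀ W d A S : ℕ, d ≤ (W + 2) ^ c → A ≤ c * (W + 1) → S ≤ c →
    (d * (S * (W + 2) ^ 5 + 2) ^ (W + A)) ^ d ≤ (W + 2) ^ (C * (W + 1) * d) := by
  refine ⟨c + (c + 7) * (c + 1), fun W d A S h1 h2 h3 => ?_⟩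
  rw [pow_mul]
  refine Nat.pow_le_pow_left ?_ _
  have h4 : S * (W + 2) ^ 5 + 2 ≤ (W + 2) ^ (c + 7) := by
    have a : S ≤ (W + 2) ^ c := h3.trans (Nat.lt_pow_self (by omega)).le
    have b : 1 ≤ (W + 2) ^ c * (W + 2) ^ 5 := Nat.mul_pos (by positivity) (by positivity)
    have e : S * (W + 2) ^ 5 ≤ (W + 2) ^ c * (W + 2) ^ 5 := by gcongr
    have f : (W + 2) ^ (c + 7) = (W + 2) ^ c * (W + 2) ^ 5 * (W + 2) ^ 2 := by ring
    have g : 2 ^ 2 ≤ (W + 2) ^ 2 := Nat.pow_le_pow_left (by omega) 2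
    nlinarith
  calc _ ≤ (W + 2) ^ c * ((W + 2) ^ (c + 7)) ^ ((c + 1) * (W + 1)) := by
        gcongr
        · exact Nat.pos_of_ne_zero (by positivity)
        · nlinarith
    _ ≤ _ := by
        rw [← pow_mul, ← pow_add]
        exact Nat.pow_le_pow_right (by omega) (by nlinarith)

end Vale.Agent.P022K.UC.Core
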