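import Mathlib

/-!
# P022K, block UC, row CYC

* `cyc` : for a finite set `S` of complex numbers and all large primes `l` the only relations
  `∑ x_r ζ_l ^ r = 0` with `x_r ∈ S` are the constant ones;
-/

set_option autoImplicit false

open Polynomial IntermediateField

noncomputable section

namespace Vale.Agent.P022K.UC

namespace Cy

section alg

variable {F A : Type*} [Field F] [CharZero F] [Field A] [Algebra F A]
  (hF : ∀ n : ℕ, 0 < n → Irreducible (cyclotomic n F))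

include hF

theorem cyc_eq {n : ℕ} (hn : 0 < n) {ζ : A} (h : IsPrimitiveRoot ζ n) :
    cyclotomic n F = minpoly F ζ := by
  have : NeZero (n : F) := ⟨by exact_mod_cast hn.ne'⟩
  exact h.minpoly_eq_cyclotomic_of_irreducible (hF n hn)

variable [Algebra.IsIntegral F A]

theorem finrank_adj {n : ℕ} (hn : 0 < n) {ζ : A} (h : IsPrimitiveRoot ζ n) :
    Module.finrank F F⟮ζ⟯ = n.totient := by
  rw [adjoin.finrank (Algebra.IsIntegral.isIntegral ζ), ← cyc_eq hF hn h,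
    natDegree_cyclotomic]

theorem inf_bot {l m : ℕ} (hl : 0 < l) (hm : 0 < m) (hlm : l.Coprime m) {ζ ξ : A}
    (h : IsPrimitiveRoot ζ l) (h' : IsPrimitiveRoot ξ m) : F⟮ζ⟯ ⊓ F⟮ξ⟯ = ⊥ := by
  have := adjoin.finiteDimensional (K := F) (Algebra.IsIntegral.isIntegral (R := F) ζ)
  have := adjoin.finiteDimensional (K := F) (Algebra.IsIntegral.isIntegral (R := F) ξ)
  refine (LinearDisjoint.of_finrank_sup (le_antisymm (finrank_sup_le _ _) ?_)).inf_eq_bot
  have h1 : IsPrimitiveRoot (ζ * ξ) (l * m) := by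
    have e1 := h.eq_orderOf
    have e2 := h'.eq_orderOf
    have := (Commute.all ζ ξ).orderOf_mul_eq_mul_orderOf_of_coprime (by rwa [← e1, ← e2])
    rw [← e1, ← e2] at this
    exact this ▸ IsPrimitiveRoot.orderOf _
  rw [finrank_adj hF hl h, finrank_adj hF hm h', ← Nat.totient_mul hlm,
    ← finrank_adj hF (Nat.mul_pos hl hm) h1]
  refine finrank_le_of_le_right (adjoin_simple_le_iff.2 (mul_mem ?_ ?_))
  · exact (le_sup_left : F⟮ζ⟯ ≤ _) (mem_adjoin_simple_self F ζ)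
  · exact (le_sup_right : F⟮ξ⟯ ≤ _) (mem_adjoin_simple_self F ξ)

theorem finite_bad (K : IntermediateField F A) [FiniteDimensional F K] :
    {l : ℕ | l.Prime ∧ ∃ ζ : A, IsPrimitiveRoot ζ l ∧ F⟮ζ⟯ ⊓ K ≠ ⊥}.Finite := by
  have : Finite (IntermediateField F K) :=
    Field.finite_intermediateField_of_exists_primitive_element F K
      (Field.exists_primitive_element F K)
  rw [← Set.finite_coe_iff]
  choose ζ h1 h2 using fun l : {l : ℕ | l.Prime ∧ ∃ ζ : A, IsPrimitiveRoot ζ l ∧ F⟮ζ⟯ ⊓ K ≠ ⊥} =>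
    l.2.2
  refine Finite.of_injective
    (fun l => IntermediateField.restrict (inf_le_right : F⟮ζ l⟯ ⊓ K ≤ K)) fun l m e => ?_
  have e' : F⟮ζ l⟯ ⊓ K = F⟮ζ m⟯ ⊓ K := by
    have := congrArg lift e
    simpa only [lift_restrict] using this
  by_contra hne
  have hc : (l : ℕ).Coprime m :=
    (Nat.coprime_primes l.2.1 m.2.1).2 fun h => hne (Subtype.ext h)
  refine h2 l (le_bot_iff.1 ?_)
  rw [← inf_bot hF l.2.1.pos m.2.1.pos hc (h1 l) (h1 m)]
  exact le_inf inf_le_left (e' ▸ inf_le_left)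

theorem cyc_alg (S : Set A) (hS : S.Finite) : ∃ L : ℕ, ∀ l : ℕ, l.Prime → L < l → ∀ ζ : A,
    IsPrimitiveRoot ζ l → ∀ x : ℕ → A, (∀ r < l, x r ∈ S) →
    ∑ r ∈ Finset.range l, x r * ζ ^ r = 0 → ∀ r < l, x r = x (l - 1) := by
  have := hS.to_subtype
  have : FiniteDimensional F (adjoin F S) :=
    finiteDimensional_adjoin fun x _ => Algebra.IsIntegral.isIntegral x
  obtain ⟨L, hL⟩ := (finite_bad hF (adjoin F S)).bddAbove
  refine ⟨L, fun l hl hLl ζ hζ x hx h0 => ?_⟩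
  have hb : F⟮ζ⟯ ⊓ adjoin F S = ⊥ := by
    by_contra h
    exact absurd (hL ⟨hl, ζ, hζ, h⟩) (not_le.2 hLl)
  have : NeZero l := ⟨hl.ne_zero⟩
  have := hζ.intermediateField_adjoin_isCyclotomicExtension F
  have := IsCyclotomicExtension.isGalois {l} F F⟮ζ⟯
  have := adjoin.finiteDimensional (K := F) (Algebra.IsIntegral.isIntegral (R := F) ζ)
  have hd := LinearDisjoint.of_inf_eq_bot hb
  obtain ⟨m, rfl⟩ : ∃ m, l = m + 1 := ⟨l - 1, by have := hl.pos; omega⟩
  have h1 : LinearIndependent F fun i : Fin m => ζ ^ (i : ℕ) := by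
    have h2 := linearIndependent_pow (K := F) ζ
    rwa [← cyc_eq hF hl.pos hζ, natDegree_cyclotomic, Nat.totient_prime hl] at h2
  have h2 : LinearIndependent F fun i : Fin m => AdjoinSimple.gen F ζ ^ (i : ℕ) :=
    LinearIndependent.of_comp (F⟮ζ⟯).val.toLinearMap h1
  have h3 := Fintype.linearIndependent_iff.1 (hd.linearIndependent_left h2)
    (fun i => ⟨x i - x m, sub_mem (subset_adjoin F S (hx i (by omega)))
      (subset_adjoin F S (hx m (by omega)))⟩) (by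
      have h4 := hζ.geom_sum_eq_zero hl.one_lt
      rw [Finset.sum_range_succ] at h0 h4
      have h5 : ∑ r ∈ Finset.range m, (x r - x m) * ζ ^ r = 0 := by
        simp only [sub_mul, Finset.sum_sub_distrib, ← Finset.mul_sum]
        linear_combination h0 - x m * h4
      rw [Finset.sum_range] at h5
      exact h5)
  intro r hr
  rcases Nat.lt_succ_iff_lt_or_eq.1 hr with hr | rfl
  · exact sub_eq_zero.1 (congrArg Subtype.val (h3 ⟨r, hr⟩))
  · rfl

end alg

theorem cyc_gen {F : Type*} [Field F] [CharZero F] [Algebra F ℂ]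
    (hF : ∀ n : ℕ, 0 < n → Irreducible (cyclotomic n F)) (S : Set ℂ) (hS : S.Finite) : ∃ L : ℕ, ∀ l : ℕ, l.Prime → L < l → ∀ ζ : ℂ,
    IsPrimitiveRoot ζ l → ∀ x : ℕ → ℂ, (∀ r < l, x r ∈ S) →
    ∑ r ∈ Finset.range l, x r * ζ ^ r = 0 → ∀ r < l, ∀ s < l, x r = x s := by
  let A := algebraicClosure F ℂ
  have : Algebra.IsIntegral F A := Algebra.IsAlgebraic.isIntegral
  have hφ : ∀ p : ℂ × ℂ, ∃ φ : Module.Dual A ℂ, φ p.1 = φ p.2 → p.1 = p.2 := fun p => by
    by_cases h : p.1 = p.2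
    · exact ⟨0, fun _ => h⟩
    · obtain ⟨φ, hφ⟩ := Module.Projective.exists_dual_ne_zero A (sub_ne_zero.2 h)
      exact ⟨φ, fun e => absurd (by rw [map_sub, e, sub_self]) hφ⟩
  choose φ hφ using hφ
  obtain ⟨L, hL⟩ := cyc_alg (A := A) hF ((fun t : (ℂ × ℂ) × ℂ => φ t.1 t.2) '' ((S ×ˢ S) ×ˢ S))
    (((hS.prod hS).prod hS).image _)
  refine ⟨L, fun l hl hLl ζ hζ x hx h0 r hr s hs => hφ (x r, x s) ?_⟩
  have hA : ζ ∈ A := mem_algebraicClosure_iff'.2 ((hζ.isIntegral hl.pos).tower_top)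
  have hζ' : IsPrimitiveRoot (⟨ζ, hA⟩ : A) l := IsPrimitiveRoot.coe_submonoidClass_iff.1 hζ
  have h := hL l hl hLl _ hζ' (fun i => φ (x r, x s) (x i))
    (fun i hi => ⟨((x r, x s), x i), ⟨⟨hx r hr, hx s hs⟩, hx i hi⟩, rfl⟩) (by
      have := congrArg (φ (x r, x s)) h0
      rw [map_sum, map_zero] at this
      rw [← this]
      refine Finset.sum_congr rfl fun i _ => ?_
      rw [mul_comm, ← smul_eq_mul, ← map_smul, mul_comm]
      rfl)
  exact (h r hr).trans (h s hs).symm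

end Cy

/-- **CYC** -/
theorem cyc (S : Set ℂ) (hS : S.Finite) : ∃ L : ℕ, ∀ l : ℕ, l.Prime → L < l → ∀ ζ : ℂ,
    IsPrimitiveRoot ζ l → ∀ x : ℕ → ℂ, (∀ r < l, x r ∈ S) →
    ∑ r ∈ Finset.range l, x r * ζ ^ r = 0 → ∀ r < l, ∀ s < l, x r = x s :=
  Cy.cyc_gen (F := ℚ) (fun _ hn => cyclotomic.irreducible_rat hn) S hS

/-- **CYC**, with an arbitrary system of integer exponents -/
theorem cyc_int (S : Set ℂ) (hS : S.Finite) : ∃ L : ℕ, ∀ l : ℕ, l.Prime → L < l → ∀ ζ : ℂ,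
    IsPrimitiveRoot ζ l → ∀ (ι : Type) [Fintype ι] (e : ι → ℤ) (x : ι → ℂ),
    Function.Bijective (fun i => (e i : ZMod l)) → (∀ i, x i ∈ S) →
    ∑ i, x i * ζ ^ e i = 0 → ∀ i j, x i = x j := by
  obtain ⟨L, hL⟩ := cyc S hS
  refine ⟨L, fun l hl hLl ζ hζ ι _ e x he hx h0 => ?_⟩
  have : NeZero l := ⟨hl.ne_zero⟩
  let E : ι ≃ ZMod l := Equiv.ofBijective _ he
  have h1 : ∀ i, ζ ^ e i = ζ ^ (E i).val := fun i => by
    obtain ⟨c, hc⟩ : (l : ℤ) ∣ e i - ((E i).val : ℤ) := by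
      rw [← ZMod.intCast_zmod_eq_zero_iff_dvd]
      simp [E]
    rw [show e i = (E i).val + l * c by omega, zpow_add₀ (hζ.ne_zero hl.ne_zero), zpow_mul,
      zpow_natCast, zpow_natCast, hζ.pow_eq_one, one_zpow, mul_one]
  have h2 := hL l hl hLl ζ hζ (fun r => x (E.symm r)) (fun r _ => hx _) (by
    rw [← h0]
    refine (Finset.sum_nbij' (fun i => (E i).val) (fun r => E.symm r) ?_ ?_ ?_ ?_ ?_).symm
    · exact fun i _ => Finset.mem_range.2 (ZMod.val_lt _)
    · exact fun _ _ => Finset.mem_univ _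
    · intro i _
      simp
    · intro r hr
      simp [ZMod.val_cast_of_lt (Finset.mem_range.1 hr)]
    · intro i _
      simp [h1])
  intro i j
  simpa using h2 (E i).val (ZMod.val_lt _) (E j).val (ZMod.val_lt _)

end Vale.Agent.P022K.UC
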