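import Vale.Agent.P022K.UC.Qm
import Vale.Agent.P022K.UC.QsD
import Mathlib.LinearAlgebra.Matrix.AbsoluteValue
import Mathlib.NumberTheory.Padics.PadicIntegers

/-!
# P022K, block UC: derivatives of modular forms are independent; a small non zero minor
-/

set_option autoImplicit false
set_option linter.all false

open PowerSeries UpperHalfPlane ModularForm
open scoped MatrixGroups ModularForm Real

noncomputable section

namespace Vale.Agent.P022K.UC.Hd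

open Vale.Agent.P022.H218.L3 Hm

/-- quasi-modular expansions of depth less than `s` -/
def QD (Γ : Subgroup SL(2, ℤ)) (a s : ℕ) : Submodule ℂ ℂ⟦X⟧ :=
  Submodule.span ℂ {y | ∃ i b x, i < s ∧ i + b = a ∧ x ∈ SM Γ b ∧ y = Rm.E2 ℂ ^ i * x}

variable {Γ : Subgroup SL(2, ℤ)}

theorem QD.of {a s i b : ℕ} {x : ℂ⟦X⟧} (h1 : i < s) (h2 : i + b = a) (hx : x ∈ SM Γ b) :
    Rm.E2 ℂ ^ i * x ∈ QD Γ a s := Submodule.subset_span ⟨i, b, x, h1, h2, hx, rfl⟩

theorem QD.mono {a s s' : ℕ} (h : s ≤ s') : QD Γ a s ≤ QD Γ a s' :=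
  Submodule.span_mono fun _ ⟨i, b, x, h1, h2⟩ => ⟨i, b, x, h1.trans_le h, h2⟩

theorem QD.e2 {a s : ℕ} {y : ℂ⟦X⟧} (h : y ∈ QD Γ a s) : Rm.E2 ℂ * y ∈ QD Γ (a + 1) (s + 1) := by
  refine (Submodule.span_le (p := (QD Γ (a + 1) (s + 1)).comap
    (LinearMap.mulLeft ℂ (Rm.E2 ℂ)))).2 ?_ h
  rintro _ ⟨i, b, x, h1, rfl, hx, rfl⟩
  show Rm.E2 ℂ * _ ∈ QD Γ _ _
  rw [← mul_assoc, ← pow_succ']
  exact QD.of (by omega) (by omega) hx

theorem th_gen {b : ℕ} {x : ℂ⟦X⟧} (hx : x ∈ SM Γ b) (i : ℕ) : th (Rm.E2 ℂ ^ i * x) -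
    (((i + 2 * b : ℕ) : ℂ) * 12⁻¹) • (Rm.E2 ℂ ^ (i + 1) * x) ∈ QD Γ (i + b + 1) (i + 1) := by
  rw [th_eq]
  induction i with
  | zero => simpa using QD.of (s := 1) (i := 0) one_pos (zero_add _) (SM.serre hx)
  | succ i ih =>
    have h1 : Rm.E2 ℂ ^ i * (Rm.E4 ℂ * x) ∈ QD Γ (i + b + 1 + 1) (i + 1 + 1) :=
      QD.of (by omega) (by omega) (SM.mul SM.e4 hx)
    have h2 := sub_mem (QD.e2 ih) (Submodule.smul_mem _ (12 : ℂ)⁻¹ h1)
    have h3 : Rm.th ℂ (Rm.E2 ℂ) = C (12 : ℂ)⁻¹ * (Rm.E2 ℂ ^ 2 - Rm.E4 ℂ) := by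
      rw [← Rm.th_E2, ← mul_assoc, ← map_ofNat (C (R := ℂ)) 12, ← map_mul,
        inv_mul_cancel₀ (by norm_num), map_one, one_mul]
    rw [show i + 1 + b + 1 = i + b + 1 + 1 by ring]
    convert h2 using 1
    rw [pow_succ' _ i, mul_assoc, Rm.th_mul, h3]
    simp only [smul_eq_C_mul, Nat.cast_add, map_mul, map_add, Nat.cast_one, map_one]
    ring

theorem QD.th {a s : ℕ} {y : ℂ⟦X⟧} (h : y ∈ QD Γ a s) : th y ∈ QD Γ (a + 1) (s + 1) := by
  refine span_th ?_ h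
  rintro _ ⟨i, b, x, h1, rfl, hx, rfl⟩
  have h2 := add_mem (QD.mono (by omega : i + 1 ≤ s + 1) (th_gen hx i)) (Submodule.smul_mem _
    (((i + 2 * b : ℕ) : ℂ) * 12⁻¹) (QD.of (i := i + 1) (by omega) (by omega) hx))
  rwa [sub_add_cancel] at h2

theorem th_smul (c : ℂ) (y : ℂ⟦X⟧) : th (c • y) = c • th y := by
  rw [th_eq, Derivation.map_smul, ← th_eq]

theorem th_iter {b : ℕ} {x : ℂ⟦X⟧} (hx : x ∈ SM Γ b) (hb : b ≠ 0) (n : ℕ) :
    ∃ c : ℂ, c ≠ 0 ∧ th^[n] x - c • (Rm.E2 ℂ ^ n * x) ∈ QD Γ (n + b) n := by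
  induction n with
  | zero => exact ⟨1, one_ne_zero, by simp⟩
  | succ n ih =>
    obtain ⟨c, hc, h⟩ := ih
    refine ⟨c * (((n + 2 * b : ℕ) : ℂ) * 12⁻¹), mul_ne_zero hc (mul_ne_zero
      (Nat.cast_ne_zero.2 (by omega)) (by norm_num)), ?_⟩
    have h2 := add_mem (QD.th h) (Submodule.smul_mem _ c (th_gen hx n))
    rw [show n + 1 + b = n + b + 1 by ring, Function.iterate_succ_apply']
    convert h2 using 1
    rw [map_sub, th_smul, smul_sub, smul_smul]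
    abel

theorem slash_gen {b : ℕ} {G : ℍ → ℂ} {γ : SL(2, ℤ)} (h : G ∣[2 * (b : ℤ)] γ = G) (i : ℕ) :
    (EisensteinSeries.E2 ^ i * G) ∣[2 * ((i + b : ℕ) : ℤ)] γ =
      (EisensteinSeries.E2 ∣[(2 : ℤ)] γ) ^ i * G := by
  induction i with
  | zero => simpa using h
  | succ i ih =>
    rw [pow_succ', mul_assoc, show 2 * ((i + 1 + b : ℕ) : ℤ) = 2 + 2 * ((i + b : ℕ) : ℤ) by
      push_cast; ring, mul_slash_SL2, ih, pow_succ', mul_assoc]

theorem QD.fn {a s : ℕ} {y : ℂ⟦X⟧} (h : y ∈ QD Γ a s) : ∃ F, Sp y F ∧ ∀ τ,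
    ∃ p ∈ Polynomial.degreeLT ℂ s, ∀ γ ∈ Γ,
      (F ∣[2 * (a : ℤ)] γ) τ = p.eval ((EisensteinSeries.E2 ∣[(2 : ℤ)] γ) τ) := by
  induction h using Submodule.span_induction with
  | mem y hy =>
    obtain ⟨i, b, x, h1, rfl, ⟨G, h2, h3⟩, rfl⟩ := hy
    refine ⟨_, (Rm.sp_E2.pow i).mul h3, fun τ => ⟨Polynomial.monomial i (G τ), ?_, fun γ hγ => ?_⟩⟩
    · exact Polynomial.mem_degreeLT.2 ((Polynomial.degree_monomial_le _ _).trans_lt
        (by exact_mod_cast h1))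
    · rw [slash_gen (h2.slash γ hγ), Polynomial.eval_monomial, Pi.mul_apply, Pi.pow_apply, mul_comm]
  | zero => exact ⟨0, Sp.zero, fun τ => ⟨0, zero_mem _, fun γ _ => by simp⟩⟩
  | add y z _ _ hy hz =>
    obtain ⟨F, h1, h2⟩ := hy
    obtain ⟨G, h3, h4⟩ := hz
    refine ⟨F + G, h1.add h3, fun τ => ?_⟩
    obtain ⟨p, hp, k1⟩ := h2 τ
    obtain ⟨q, hq, k2⟩ := h4 τ
    exact ⟨p + q, add_mem hp hq, fun γ hγ => by
      rw [SlashAction.add_slash, Pi.add_apply, k1 γ hγ, k2 γ hγ, Polynomial.eval_add]⟩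
  | smul c y _ hy =>
    obtain ⟨F, h1, h2⟩ := hy
    refine ⟨c • F, h1.smul c, fun τ => ?_⟩
    obtain ⟨p, hp, k1⟩ := h2 τ
    exact ⟨c • p, Submodule.smul_mem _ c hp, fun γ hγ => by
      rw [SL_smul_slash, Pi.smul_apply, k1 γ hγ, Polynomial.eval_smul]⟩

/-- lower unipotent matrices -/
def lo (n : ℕ) : SL(2, ℤ) := ⟨!![1, 0; (n : ℤ), 1], by simp [Matrix.det_fin_two]⟩

theorem lo_pow (n : ℕ) : lo 1 ^ n = lo n := by
  induction n with
  | zero => exact Subtype.ext (by rw [pow_zero]; simp [lo, Matrix.one_fin_two])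
  | succ n ih =>
    exact Subtype.ext (by rw [pow_succ, ih, Matrix.SpecialLinearGroup.coe_mul]; simp [lo])

theorem lo_inj (τ : ℍ) : Function.Injective fun n => (EisensteinSeries.E2 ∣[(2 : ℤ)] lo n) τ := by
  intro n n' h
  have hπ : (2 * π * Complex.I : ℂ) ≠ 0 := Complex.two_pi_I_ne_zero
  have hd : ∀ m : ℕ, denom (lo m) τ = m * τ + 1 := fun m => by
    rw [ModularGroup.denom_apply]
    simp [lo]
  have h0 : ∀ m : ℕ, (m * τ + 1 : ℂ) ≠ 0 := fun m => hd m ▸ denom_ne_zero _ _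
  have e : ∀ m : ℕ, ((lo m 1 0 : ℤ) : ℂ) = m := fun m => by simp [lo]
  simp only [Rm.E2_slash] at h
  simp only [Pi.add_apply, Pi.smul_apply, SL_slash_apply, hd, e, smul_eq_mul,
    add_right_inj, one_mul, zpow_neg, zpow_one] at h
  have h1 := h0 n
  have h2 := h0 n'
  field_simp at h
  rw [eq_div_iff (by rwa [mul_comm])] at h
  have : (n : ℂ) = n' := by linear_combination h
  exact_mod_cast this

/-- `E₂` is transcendental over the modular forms -/
theorem trans [Γ.FiniteIndex] {b s : ℕ} {x : ℂ⟦X⟧} (hx : x ∈ SM Γ b)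
    (h : Rm.E2 ℂ ^ s * x ∈ QD Γ (s + b) s) : x = 0 := by
  obtain ⟨G, h1, h2⟩ := hx
  obtain ⟨F, h3, h4⟩ := QD.fn h
  obtain rfl : F = _ := Sm.fun_eq h3 ((Rm.sp_E2.pow s).mul h2)
  refine h2.eq_zero_iff.2 (funext fun τ => ?_)
  obtain ⟨p, hp, k⟩ := h4 τ
  obtain ⟨N, hN, -, hm⟩ := Subgroup.exists_pow_mem_of_index_ne_zero
    (Subgroup.FiniteIndex.index_ne_zero (H := Γ)) (lo 1)
  have h5 : Polynomial.monomial s (G τ) - p = 0 := by
    refine Polynomial.eq_zero_of_infinite_isRoot _ (Set.infinite_of_injective_forall_mem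
      (f := fun n : ℕ => (EisensteinSeries.E2 ∣[(2 : ℤ)] lo (N * n)) τ)
      (fun n n' e => Nat.eq_of_mul_eq_mul_left hN (lo_inj τ e)) fun n => ?_)
    have hγ : lo (N * n) ∈ Γ := by
      rw [← lo_pow, pow_mul]
      exact pow_mem hm n
    have k1 := k _ hγ
    rw [slash_gen (h1.slash _ hγ), Pi.mul_apply, Pi.pow_apply] at k1
    show Polynomial.eval _ _ = 0
    rw [Polynomial.eval_sub, Polynomial.eval_monomial, ← k1, mul_comm, sub_self]
  have h6 := congrArg (Polynomial.coeff · s) h5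
  simpa [Polynomial.coeff_eq_zero_of_degree_lt (Polynomial.mem_degreeLT.1 hp)] using h6

/-- the derivatives of modular forms of different weights are independent -/
theorem ind [Γ.FiniteIndex] {W : ℕ} (g : ℕ → ℂ⟦X⟧) (hg : ∀ m ≤ W, g m ∈ SM Γ (m + 1))
    (h : ∑ m ∈ Finset.range (W + 1), th^[W - m] (g m) = 0) (m : ℕ) (hm : m ≤ W) : g m = 0 := by
  induction m using Nat.strong_induction_on with
  | _ m ih =>
  obtain ⟨c, hc, h1⟩ := th_iter (hg m hm) m.succ_ne_zero (W - m)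
  rw [← Finset.add_sum_erase _ _ (Finset.mem_range.2 (Nat.lt_succ_of_le hm)),
    add_eq_zero_iff_eq_neg] at h
  have h2 : th^[W - m] (g m) ∈ QD Γ (W - m + (m + 1)) (W - m) := by
    rw [h]
    refine neg_mem (sum_mem fun k hk => ?_)
    obtain ⟨k1, k2⟩ := Finset.mem_erase.1 hk
    have k3 := Nat.le_of_lt_succ (Finset.mem_range.1 k2)
    rcases lt_or_gt_of_ne k1 with k4 | k4
    · rw [ih k k4 k3, iterate_map_zero]
      exact zero_mem _
    · obtain ⟨c', -, k5⟩ := th_iter (hg k k3) k.succ_ne_zero (W - k)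
      rw [show W - k + (k + 1) = W - m + (m + 1) by omega] at k5
      have k6 := add_mem (QD.mono (by omega : W - k ≤ W - m) k5) (Submodule.smul_mem _ c'
        (QD.of (i := W - k) (by omega) (by omega) (hg k k3)))
      rwa [sub_add_cancel] at k6
  have h3 := Submodule.smul_mem _ c⁻¹ (sub_mem h2 h1)
  rw [sub_sub_cancel, inv_smul_smul₀ hc] at h3
  exact trans (hg m hm) h3

theorem th_iter_sum {ι : Type*} (s : Finset ι) (c : ι → ℂ) (g : ι → ℂ⟦X⟧) (n : ℕ) :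
    th^[n] (∑ i ∈ s, c i • g i) = ∑ i ∈ s, c i • th^[n] (g i) := by
  ext k
  simp only [coeff_th_iter, map_sum, map_smul, smul_eq_mul, Finset.mul_sum, mul_left_comm]

theorem ind' [Γ.FiniteIndex] {ι : Type*} [Fintype ι] {W : ℕ} (w : ι → ℕ) (hw : ∀ i, w i ≤ W)
    (g : ι → ℂ⟦X⟧) (hg : ∀ i, g i ∈ SM Γ (w i + 1))
    (hi : ∀ m, LinearIndependent ℂ fun i : {i // w i = m} => g i) :
    LinearIndependent ℂ fun i => th^[W - w i] (g i) := by
  classical
  refine Fintype.linearIndependent_iff.2 fun c hc i => ?_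
  have h1 := ind (Γ := Γ) (W := W) (fun m => ∑ i ∈ Finset.univ.filter (w · = m), c i • g i)
    (fun m _ => sum_mem fun i hi => Submodule.smul_mem _ _ ((Finset.mem_filter.1 hi).2 ▸ hg i))
    (by
      rw [← hc, ← Finset.sum_fiberwise_of_maps_to (s := Finset.univ) (g := w)
        (fun i _ => Finset.mem_range.2 (Nat.lt_succ_of_le (hw i)))]
      refine Finset.sum_congr rfl fun m _ => ?_
      rw [th_iter_sum]
      exact Finset.sum_congr rfl fun i hi => by rw [(Finset.mem_filter.1 hi).2]) (w i) (hw i)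
  rw [Finset.sum_subtype (p := (w · = w i)) _ (by simp)] at h1
  exact Fintype.linearIndependent_iff.1 (hi (w i)) (fun k => c k) h1 ⟨i, rfl⟩

theorem QC.iter {a : ℕ} {x : ℂ⟦X⟧} (hx : x ∈ QC Γ a) (n : ℕ) : th^[n] x ∈ QC Γ (a + n) := by
  induction n with
  | zero => exact hx
  | succ n ih =>
    rw [Function.iterate_succ_apply']
    exact QC.th ih

theorem exists_prim {H : ℤ⟦X⟧} (h : H ≠ 0) :
    ∃ (e : ℕ) (G : ℤ⟦X⟧), H = (2 ^ e : ℤ) • G ∧ ∃ m, ¬ 2 ∣ coeff m G := by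
  classical
  obtain ⟨n, hn⟩ : ∃ n, coeff n H ≠ 0 := by
    by_contra k
    exact h (PowerSeries.ext fun n => by simpa using not_exists.1 k n)
  have ex : ∃ e : ℕ, ¬ ∀ m, (2 : ℤ) ^ (e + 1) ∣ coeff m H := ⟨(coeff n H).natAbs, fun k => by
    have k1 := Int.natAbs_le_of_dvd_ne_zero (k n) hn
    rw [Int.natAbs_pow] at k1
    exact absurd k1 (not_le.2 ((Nat.lt_succ_self _).trans (Nat.lt_two_pow_self)))⟩
  have h1 : ∀ m, (2 : ℤ) ^ Nat.find ex ∣ coeff m H := by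
    rcases h2 : Nat.find ex with _ | e
    · simp
    · exact not_not.1 (Nat.find_min ex (by omega))
  choose c hc using h1
  obtain ⟨m, hm⟩ := not_forall.1 (Nat.find_spec ex)
  refine ⟨Nat.find ex, PowerSeries.mk c, PowerSeries.ext fun m => by
    rw [map_zsmul, coeff_mk, smul_eq_mul, ← hc m], m, fun k => hm ?_⟩
  rw [hc m, pow_succ]
  exact mul_dvd_mul_left _ (by simpa using k)

/-- the bound for the order of vanishing -/
def Sb (Γ : Subgroup SL(2, ℤ)) : ℕ := 2 ^ 22 * (6 * (36 * (Γ.index + 1) + 1)) ^ 5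

/-- a Sturm bound for integral quasi-modular expansions -/
theorem sturm [Γ.FiniteIndex] {a : ℕ} {H : ℤ⟦X⟧}
    (h : PowerSeries.map (Int.castRingHom ℂ) H ∈ QC Γ a)
    (h0 : ∀ n ≤ Sb Γ * (a + 1) ^ 5, coeff n H = 0) : H = 0 := by
  by_contra k
  obtain ⟨e, G, rfl, m, hm⟩ := exists_prim k
  have two : ∀ z : ℤ, (z : ℤ_[2]) ∈ IsLocalRing.maximalIdeal ℤ_[2] ↔ 2 ∣ z := fun z => by
    rw [IsLocalRing.mem_maximalIdeal, PadicInt.mem_nonunits, PadicInt.norm_int_lt_one_iff_dvd]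
    rfl
  have h1 : PowerSeries.map (Int.castRingHom ℂ) G ∈ QC Γ a := by
    have := Submodule.smul_mem _ ((2 : ℂ) ^ e)⁻¹ h
    rwa [map_zsmul, ← Int.cast_smul_eq_zsmul ℂ, Int.cast_pow, Int.cast_ofNat,
      inv_smul_smul₀ (pow_ne_zero _ two_ne_zero)] at this
  have h2 := Qs.ze (O := ℤ_[2]) (E := ℚ_[2]) (by
      have := (two 2).2 dvd_rfl
      rwa [Int.cast_ofNat] at this) (QE ℚ_[2] Γ) QE.one (fun _ _ _ _ => QE.mul) QE.e2 QE.e4 QE.e6
    (C := Γ.index + 1) QE.dim a (Sb Γ * (a + 1) ^ 5 + 1)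
    (PowerSeries.map (Int.castRingHom ℤ_[2]) G) (by
      have e : PowerSeries.map (algebraMap ℤ_[2] ℚ_[2]) (PowerSeries.map (Int.castRingHom ℤ_[2]) G) =
          PowerSeries.map (algebraMap ℚ ℚ_[2]) (PowerSeries.map (Int.castRingHom ℚ) G) := by
        ext n
        simp only [coeff_map, eq_intCast, map_intCast]
      rw [e]
      exact Rt.of (by convert h1 using 1; ext n; simp))
    (fun n hn => by
      have := h0 n (by omega)
      rw [map_zsmul, smul_eq_mul, mul_eq_zero, or_iff_right (by positivity)] at this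
      rw [coeff_map, this, map_zero]
      exact zero_mem _)
    ⟨m, by rwa [coeff_map, eq_intCast, two]⟩
  exact absurd h2 (by rw [Sb]; omega)

theorem exists_minor {K ι κ : Type*} [Field K] [Fintype ι] [DecidableEq ι] (A : κ → ι → K)
    (h : ∀ c : ι → K, (∀ n, ∑ i, c i * A n i = 0) → c = 0) :
    ∃ ν : ι → κ, (Matrix.of fun j i => A (ν j) i).det ≠ 0 := by
  have h1 : Submodule.span K (Set.range A) = ⊤ := by
    by_contra k
    obtain ⟨φ, h2, h3⟩ := Submodule.exists_le_ker_of_lt_top _ (lt_top_iff_ne_top.2 k)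
    refine h2 (LinearMap.pi_ext' fun i => LinearMap.ext_ring ?_)
    refine congrFun (h (fun i => φ (Pi.single i 1)) fun n => ?_) i
    have h4 : φ (A n) = 0 := h3 (Submodule.subset_span ⟨n, rfl⟩)
    rw [← h4, LinearMap.pi_apply_eq_sum_univ φ (A n)]
    refine Finset.sum_congr rfl fun i _ => ?_
    rw [smul_eq_mul, mul_comm]
    congr 2
    ext j
    simp [Pi.single_apply, eq_comm]
  obtain ⟨σ, a, -, h2, h3⟩ := exists_linearIndependent' K A
  let b := Module.Basis.mk h3 (by rw [h2, h1])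
  let e := (Pi.basisFun K ι).indexEquiv b
  refine ⟨a ∘ e, ?_⟩
  have h4 : LinearIndependent K (Matrix.of fun j i => A (a (e j)) i).row := h3.comp e e.injective
  exact ((Matrix.isUnit_iff_isUnit_det _).1 (Matrix.linearIndependent_rows_iff_isUnit.1 h4)).ne_zero

/-- a non zero minor with small columns -/
theorem minor [Γ.FiniteIndex] {ι : Type*} [Fintype ι] [DecidableEq ι] {a : ℕ} (v : ι → ℤ⟦X⟧)
    (hv : ∀ i, PowerSeries.map (Int.castRingHom ℂ) (v i) ∈ QC Γ a)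
    (hi : LinearIndependent ℂ fun i => PowerSeries.map (Int.castRingHom ℂ) (v i)) :
    ∃ ν : ι → ℕ, (∀ j, ν j ≤ Sb Γ * (a + 1) ^ 5) ∧
      (Matrix.of fun j i => coeff (ν j) (v i)).det ≠ 0 := by
  have h1 : LinearIndependent ℤ fun i (n : Fin (Sb Γ * (a + 1) ^ 5 + 1)) =>
      ((coeff n.1 (v i) : ℤ) : ℚ) := by
    refine Fintype.linearIndependent_iff.2 fun c hc i => ?_
    have e : PowerSeries.map (Int.castRingHom ℂ) (∑ i, c i • v i) =
        ∑ i, (c i : ℂ) • PowerSeries.map (Int.castRingHom ℂ) (v i) := by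
      simp only [map_sum, map_zsmul, Int.cast_smul_eq_zsmul]
    have h2 : ∑ i, c i • v i = 0 := sturm (Γ := Γ) (a := a)
      (e ▸ sum_mem fun i _ => Submodule.smul_mem _ _ (hv i)) fun n hn => by
        have := congrFun hc ⟨n, Nat.lt_succ_of_le hn⟩
        simp only [Finset.sum_apply, Pi.smul_apply, Pi.zero_apply] at this
        simp only [zsmul_eq_mul] at this
        simp only [map_sum, map_zsmul, smul_eq_mul]
        exact_mod_cast this
    rw [h2, map_zero] at e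
    exact_mod_cast Fintype.linearIndependent_iff.1 hi _ e.symm i
  rw [LinearIndependent.iff_fractionRing ℤ ℚ] at h1
  obtain ⟨ν, hν⟩ := exists_minor (fun (n : Fin (Sb Γ * (a + 1) ^ 5 + 1)) i =>
    ((coeff n.1 (v i) : ℤ) : ℚ)) fun c hc => funext (Fintype.linearIndependent_iff.1 h1 c
      (funext fun n => by simpa using hc n))
  refine ⟨fun j => ν j, fun j => Nat.le_of_lt_succ (ν j).2, fun k => hν ?_⟩
  have := (Int.castRingHom ℚ).map_det (Matrix.of fun j i => coeff (ν j).1 (v i))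
  rw [k, map_zero] at this
  exact this.symm

/-- **HAD**: a non zero minor of controlled size -/
theorem had [Γ.FiniteIndex] {ι : Type*} [Fintype ι] [DecidableEq ι] {W A : ℕ} (w : ι → ℕ)
    (hw : ∀ i, w i ≤ W) (g : ι → ℤ⟦X⟧)
    (hg : ∀ i, PowerSeries.map (Int.castRingHom ℂ) (g i) ∈ SM Γ (w i + 1))
    (hi : ∀ m, LinearIndependent ℂ fun i : {i // w i = m} =>
      PowerSeries.map (Int.castRingHom ℂ) (g i))
    (hb : ∀ i n, |coeff n (g i)| ≤ (n + 2) ^ A) :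
    ∃ ν : ι → ℕ, (∀ j, ν j ≤ Sb Γ * (W + 2) ^ 5) ∧
      (Matrix.of fun j i => (ν j : ℤ) ^ (W - w i) * coeff (ν j) (g i)).det ≠ 0 ∧
      |(Matrix.of fun j i => (ν j : ℤ) ^ (W - w i) * coeff (ν j) (g i)).det| ≤
        (Fintype.card ι * (Sb Γ * (W + 2) ^ 5 + 2) ^ (W + A) : ℕ) ^ Fintype.card ι := by
  have e : ∀ n (x : ℤ⟦X⟧), PowerSeries.map (Int.castRingHom ℂ) (th^[n] x) =
      th^[n] (PowerSeries.map (Int.castRingHom ℂ) x) := fun n x => by
    ext k
    simp [coeff_th_iter]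
  obtain ⟨ν, h1, h2⟩ := minor (Γ := Γ) (a := W + 1) (fun i => th^[W - w i] (g i)) (fun i => by
    rw [e, show W + 1 = w i + 1 + (W - w i) by have := hw i; omega]
    exact QC.iter (QC.of (hg i)) _) (by simpa only [e] using ind' w hw _ hg hi)
  simp only [coeff_th_iter] at h2
  refine ⟨ν, h1, h2, (Matrix.det_le (abv := AbsoluteValue.abs)
    (x := ((Sb Γ * (W + 2) ^ 5 + 2 : ℕ) : ℤ) ^ (W + A)) fun j i => ?_).trans ?_⟩
  · have k : (ν j : ℤ) + 2 ≤ ((Sb Γ * (W + 2) ^ 5 + 2 : ℕ) : ℤ) := by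
      exact_mod_cast Nat.add_le_add_right (h1 j) 2
    rw [Matrix.of_apply, AbsoluteValue.abs_apply, abs_mul, pow_add, abs_pow, Nat.abs_cast]
    refine mul_le_mul ((pow_le_pow_left₀ (by positivity) (by omega) _).trans
      (pow_le_pow_right₀ (by omega) (Nat.sub_le _ _))) ((hb i _).trans
      (pow_le_pow_left₀ (by positivity) k _)) (abs_nonneg _) (by positivity)
  · rw [nsmul_eq_mul, Nat.cast_mul, mul_pow, Nat.cast_pow]
    exact mul_le_mul_of_nonneg_right (by exact_mod_cast Nat.factorial_le_pow _) (by positivity)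

end Vale.Agent.P022K.UC.Hd
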