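import Vale.Agent.P022D.G.Key0
import Vale.Agent.P022D.G.Frob

/-!
# P022K, block UC: the Hecke operators are nilpotent modulo powers of two, uniformly in the weight
-/

set_option linter.all false

open scoped MatrixGroups ModularForm
open UpperHalfPlane CongruenceSubgroup

noncomputable section

namespace Vale.Agent.P022K.UC.Hat

open Vale.Agent.P022 Vale.Agent.P022.H161.CLat Vale.Agent.P022.H161.COp Vale.Agent.P022.L3
open Vale.Agent.P022.H527.L3 hiding M2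
open Vale.Agent.P022.H420.L3 (M2 Pw act act_one_mod)
open Vale.Agent.P022D.G Vale.Agent.P022D.G.NilAux

theorem pow_dvd_of {B : Type*} [CommRing B] {p : Polynomial ℤ} (hp : p.Monic)
    (hc : ∀ k, p.coeff k ∈ Ideal.span {(2 : ℤ)} ^ (p.natDegree - k)) {q : B}
    (h : Polynomial.aeval q p = 0) (m : ℕ) : (2 : B) ^ (m + 1 - p.natDegree) ∣ q ^ m := by
  induction m using Nat.strong_induction_on with
  | _ m ih =>
    rcases lt_or_ge m p.natDegree with h1 | h1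
    · rw [Nat.sub_eq_zero_of_le h1, pow_zero]
      exact one_dvd _
    obtain ⟨n, rfl⟩ := Nat.exists_eq_add_of_le h1
    rw [Polynomial.aeval_eq_sum_range, Finset.sum_range_succ, hp.coeff_natDegree, one_smul,
      add_eq_zero_iff_neg_eq] at h
    rw [pow_add, ← h, neg_mul, dvd_neg, Finset.sum_mul]
    refine Finset.dvd_sum fun k hk => ?_
    have hk' := Finset.mem_range.1 hk
    have h2 := hc k
    rw [Ideal.span_singleton_pow, Ideal.mem_span_singleton] at h2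
    obtain ⟨c, h2⟩ := h2
    rw [h2, zsmul_eq_mul, mul_assoc, ← pow_add, Int.cast_mul, Int.cast_pow, Int.cast_ofNat,
      mul_right_comm]
    refine Dvd.dvd.mul_right ((pow_dvd_pow _ ?_).trans ((pow_add (2 : B) _ _).dvd.trans
      (mul_dvd_mul_left _ (ih (k + n) (by omega))))) _
    omega

theorem per {M : Type*} [Monoid M] [Finite M] (x : M) :
    ∃ a b, a < b ∧ b ≤ Nat.card M ∧ x ^ a = x ^ b := by
  have := Fintype.ofFinite M
  obtain ⟨a, b, h1, h2⟩ := Fintype.exists_ne_map_eq_of_card_lt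
    (fun i : Fin (Nat.card M + 1) => x ^ (i : ℕ)) (by simp)
  rcases lt_or_gt_of_ne h1 with h | h
  · exact ⟨a, b, h, Nat.lt_succ_iff.1 b.2, h2⟩
  · exact ⟨b, a, h, Nat.lt_succ_iff.1 a.2, h2.symm⟩

theorem ch {Z W : Type*} [AddCommGroup Z] [Module.Finite ℤ Z] [Module.Free ℤ Z] (A : AddSubgroup Z)
    [Ring W] (ρ : W →ₐ[ℤ] AddMonoid.End Z) (X : W) (hs : ∀ u ∈ A, ρ X u ∈ A)
    (h2 : ∀ u, ∃ v, ρ X u - 2 • v ∈ A) : ∃ p : Polynomial ℤ, p.Monic ∧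
      p.natDegree ≤ Module.finrank ℤ Z ∧
      (∀ k, p.coeff k ∈ Ideal.span {(2 : ℤ)} ^ (p.natDegree - k)) ∧
      ∀ u, ρ (Polynomial.aeval X p) u ∈ A := by
  let Bz := AddSubgroup.toIntSubmodule A
  let F : Module.End ℤ (Z ⧸ Bz) := Bz.mapQ Bz (ρ X).toIntLinearMap hs
  obtain ⟨p, p1, p2, p3, p4⟩ :=
    LinearMap.exists_monic_and_natDegree_eq_and_coeff_mem_pow_and_aeval_eq_zero ℤ F
      (Ideal.span {2}) (by
      rintro _ ⟨x, rfl⟩
      obtain ⟨u, rfl⟩ := Bz.mkQ_surjective x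
      obtain ⟨v, hv⟩ := h2 u
      have h1 : F (Bz.mkQ u) = (2 : ℤ) • Bz.mkQ v := by
        rw [← map_smul]
        exact (Submodule.Quotient.eq _).2 (by rw [two_smul, ← two_nsmul]; exact hv)
      rw [h1]
      exact Submodule.smul_mem_smul (Ideal.mem_span_singleton_self _) trivial)
  have h5 : ∀ (q : Polynomial ℤ) (u : Z),
      Polynomial.aeval F q (Bz.mkQ u) = Bz.mkQ (ρ (Polynomial.aeval X q) u) := fun q => by
    induction q using Polynomial.induction_on with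
    | C c =>
      intro u
      rw [Polynomial.aeval_C, Polynomial.aeval_C, AlgHom.commutes, Module.algebraMap_end_apply,
        ← map_smul, Algebra.algebraMap_eq_smul_one]
      rfl
    | add q q' h h' =>
      intro u
      rw [map_add, map_add, map_add, LinearMap.add_apply, h, h', ← map_add]
      rfl
    | monomial n c h =>
      intro u
      rw [pow_succ, ← mul_assoc, map_mul, map_mul (Polynomial.aeval X), map_mul ρ,
        Polynomial.aeval_X, Polynomial.aeval_X]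
      exact h (ρ X u)
  refine ⟨p, p1, ?_, p3, fun u => ?_⟩
  · rw [p2, ← Submodule.range_mkQ, LinearMap.range_eq_map]
    exact (Submodule.spanFinrank_map_le_of_fg _ Module.Finite.fg_top).trans
      Module.finrank_eq_spanFinrank_of_free.ge
  · have h7 := h5 p u
    rw [p4] at h7
    exact (Submodule.Quotient.mk_eq_zero Bz).1 h7.symm

theorem stab {Z W : Type*} [AddCommGroup Z] (A : AddSubgroup Z) [Ring W]
    (ρ : W →ₐ[ℤ] AddMonoid.End Z) (T : W) (hs : ∀ u ∈ A, ρ T u ∈ A) (a b : ℕ) :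
    ∀ u ∈ A, ρ (T * (T ^ b - T ^ a)) u ∈ A := fun u hu => by
  have hT : ∀ k : ℕ, ρ (T ^ k) u ∈ A := fun k => by
    induction k with
    | zero => rw [pow_zero, map_one]; exact hu
    | succ k ih => rw [pow_succ', map_mul]; exact hs _ ih
  rw [map_mul, map_sub]
  exact hs _ (sub_mem (hT b) (hT a))

/-- the matrices which are `1` modulo two -/
def Dp (Γ : Subgroup SL(2, ℤ)) : Subgroup Γ :=
  ((rd 1).toMonoidHom.comp (rho Γ)).toHomUnits.ker

variable {Γ : Subgroup SL(2, ℤ)} {w : ℕ}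

theorem mem_Dp {γ : Γ} : γ ∈ Dp Γ ↔ Dg 1 1 1 (rho Γ γ) := by
  rw [dg_one, Dp, MonoidHom.mem_ker, Units.ext_iff]
  rfl

/-- a coefficient modulo two on the deep group -/
def ev (u : ZC Γ w) (j : Fin (w + 1)) (γ : Dp Γ) : ZMod (2 ^ 1) :=
  (((u : Γ → Fin (w + 1) → ℤ) γ j : ℤ) : ZMod (2 ^ 1))

theorem red {A : M2} (h : Dg 1 1 1 A) (p : Pw w ℤ) (j : Fin (w + 1)) :
    ((act w A p j : ℤ) : ZMod (2 ^ 1)) = p j := act_one_mod w _ _ h.h01 h.h10 h.h00 h.h11 p j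

theorem ev_mul (u : ZC Γ w) (j : Fin (w + 1)) (γ δ : Dp Γ) :
    ev u j (γ * δ) = ev u j γ + ev u j δ := by
  rw [ev, Subgroup.coe_mul, coc, Pi.add_apply, Int.cast_add, red (mem_Dp.1 δ.2)]
  rfl

theorem ev_sub (u v : ZC Γ w) (j : Fin (w + 1)) : ev (u - v) j = ev u j - ev v j :=
  funext fun _ => Int.cast_sub _ _

theorem ev_BZ {u : ZC Γ w} (hu : u ∈ BZ Γ w) (j : Fin (w + 1)) : ev u j = 0 := by
  obtain ⟨p, hp⟩ := mem_BZ.1 hu
  funext γ
  rw [ev, hp, Pi.sub_apply, Int.cast_sub, red (mem_Dp.1 γ.2), sub_self]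
  rfl

theorem van {u : ZC Γ w} (hu : ∀ j, ev u j = 0) : Van 1 1 u := by
  intro γ c
  have hj : ∀ j, ∃ x : ℤ, (u : Γ → Fin (w + 1) → ℤ) γ j = (2 ^ 1 : ℕ) * x := fun j =>
    (ZMod.intCast_zmod_eq_zero_iff_dvd _ _).1 (congrFun (hu j) ⟨γ, mem_Dp.2 c⟩)
  choose p hp using hj
  exact ⟨p, funext fun j => by rw [hp, Pi.smul_apply, nsmul_eq_mul]⟩

/-- the coefficients of all cocycles -/
def H0 (Γ : Subgroup SL(2, ℤ)) : Set (Dp Γ → ZMod (2 ^ 1)) :=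
  {f | ∃ (w : ℕ) (u : ZC Γ w) (j : Fin (w + 1)), f = ev u j}

theorem fin_H0 [Group.FG Γ] : Finite (H0 Γ) := by
  have : (Dp Γ).FiniteIndex := Subgroup.finiteIndex_ker _
  obtain ⟨S, hS⟩ := (Group.fg_def.1 (inferInstance : Group.FG (Dp Γ)))
  let F : H0 Γ → (Dp Γ →* Multiplicative (ZMod (2 ^ 1))) := fun f =>
    MonoidHom.mk' (fun γ => Multiplicative.ofAdd (f.1 γ)) fun γ δ => by
      obtain ⟨_, w, u, j, rfl⟩ := f
      exact congrArg Multiplicative.ofAdd (ev_mul u j γ δ)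
  refine Finite.of_injective (fun (f : H0 Γ) (s : S) => f.1 s) fun f g h => ?_
  have h1 : F f = F g := MonoidHom.eq_of_eqOn_dense hS fun s hs =>
    congrArg Multiplicative.ofAdd (congrFun h ⟨s, hs⟩)
  exact Subtype.ext (funext fun γ => Multiplicative.ofAdd.injective (DFunLike.congr_fun h1 γ))

theorem ex_per [Group.FG Γ] {ι : Type} [Fintype ι] {α : ι → M2} (r : Rep (rho Γ) α)
    (hα : ∀ i, Dg 1 1 1 (α i)) : ∃ a b, a < b ∧ b ≤ Nat.card (Function.End (H0 Γ)) ∧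
      ∀ (w : ℕ) (u : ZC Γ w) j, ev ((opZ r w ^ a) u) j = ev ((opZ r w ^ b) u) j := by
  have := fin_H0 (Γ := Γ)
  have : Finite (Function.End (H0 Γ)) := inferInstanceAs (Finite (H0 Γ → H0 Γ))
  have c : ∀ (γ : Dp Γ) i, r.el γ i ∈ Dp Γ := fun γ i => by
    have h1 := congrArg (rd 1) (r.eq γ i)
    rw [map_mul, map_mul, dg_one.1 (hα _), dg_one.1 (hα _), dg_one.1 (mem_Dp.1 γ.2), mul_one,
      mul_one] at h1
    exact mem_Dp.2 (dg_one.2 h1.symm)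
  let τ : (Dp Γ → ZMod (2 ^ 1)) → Dp Γ → ZMod (2 ^ 1) := fun f γ => ∑ i, f ⟨r.el γ i, c γ i⟩
  have h1 : ∀ (w : ℕ) (u : ZC Γ w) j, ev (opZ r w u) j = τ (ev u j) := fun w u j => by
    funext γ
    rw [ev, opZ_coe, Rep.hc, Finset.sum_apply, Int.cast_sum]
    exact Finset.sum_congr rfl fun i _ => red (hα _) _ _
  let T : Function.End (H0 Γ) := fun f => ⟨τ f.1, by
    obtain ⟨_, w, u, j, rfl⟩ := f
    exact ⟨w, _, j, (h1 w u j).symm⟩⟩
  have h2 : ∀ (w : ℕ) (u : ZC Γ w) j (k : ℕ),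
      ev ((opZ r w ^ k) u) j = ((T ^ k) ⟨ev u j, w, u, j, rfl⟩).1 := fun w u j k => by
    induction k with
    | zero => rfl
    | succ k ih =>
      rw [pow_succ' (opZ r w), pow_succ' T, AddMonoid.End.coe_mul, Function.comp_apply, h1, ih]
      rfl
  obtain ⟨a, b, k1, k2, k3⟩ := per T
  exact ⟨a, b, k1, k2, fun w u j => by rw [h2, h2, k3]⟩

theorem rank_le [Group.FG Γ] : ∃ g : ℕ, ∀ w, Module.finrank ℤ (ZC Γ w) ≤ g * (w + 1) := by
  obtain ⟨S, hS⟩ := (Group.fg_def.1 (inferInstance : Group.FG Γ))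
  refine ⟨S.card, fun w => ?_⟩
  let f : ZC Γ w →+ (S → Fin (w + 1) → ℤ) :=
    AddMonoidHom.mk' (fun u s => (u : Γ → Fin (w + 1) → ℤ) s) fun _ _ => rfl
  have h : Function.Injective f.toIntLinearMap := (injective_iff_map_eq_zero f).2 fun u hu =>
    Subtype.ext (funext fun g => funext fun i => values_mem u.2 (fun p => by
      funext i
      simp [actM_apply, AA_one, Matrix.one_apply]) (S : Set Γ) hS (⊥ : AddSubgroup ℤ)
      (fun s hs i => congrFun (congrFun hu ⟨s, hs⟩) i) g i)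
  refine (LinearMap.finrank_le_finrank_of_injective h).trans ?_
  simp [Module.finrank_pi_fintype]

variable {N N₀ : ℕ}

theorem ex_two [NeZero N] (hN : N₀ ∣ N) (ℓ : PA N) :
    ∃ a b, a < b ∧ b ≤ Nat.card (Function.End (H0 (Gm N N₀))) ∧ ∀ (w : ℕ) (u : ZC (Gm N N₀) w),
      ∃ v : ZC (Gm N N₀) w, rW hN w (wT ℓ * (wT ℓ ^ b - wT ℓ ^ a)) u - 2 • v ∈ BZ _ w := by
  have := fg_Gm hN
  set r0 := repT hN ℓ (dm_spec ℓ 0)
  set r1 := repT hN ℓ (dm_spec ℓ 1)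
  obtain ⟨a, b, h1, h2, h3⟩ := ex_per r1 fun i => by
    have c := (cls_alp (dm_spec ℓ 1) i).dg
    refine ⟨c.h10, c.h01, c.h00, ?_⟩
    have h4 := ℓ.2.1.eq_two_or_odd
    have h5 : ℓ.1 ≠ 2 := fun h => ℓ.2.2 (by rw [h]; exact dvd_mul_right 2 N)
    have h6 := c.h11
    omega
  refine ⟨a, b, h1, h2, fun w u => ?_⟩
  have hb : ∀ k : ℕ, (opZ r0 w ^ k) u - (opZ r1 w ^ k) u ∈ BZ (Gm N N₀) w := by
    intro k
    induction k with
    | zero => simp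
    | succ k ih =>
      have h1 := opZ_BZ r0 ih
      have h2 := opZ_equiv r1 r0 (equivT hN ℓ (dm_spec ℓ 1) (dm_spec ℓ 0))
        (equivT hN ℓ (dm_spec ℓ 0) (dm_spec ℓ 1)) ((opZ r1 w ^ k) u)
      have h3 := AddSubgroup.add_mem _ h1 h2
      rw [map_sub, sub_add_sub_cancel] at h3
      rw [pow_succ', pow_succ']
      exact h3
  have he : ∀ k j, ev ((opZ r0 w ^ k) u) j = ev ((opZ r1 w ^ k) u) j := fun k j => by
    rw [← sub_eq_zero, ← ev_sub]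
    exact ev_BZ (hb k) j
  obtain ⟨v, hv⟩ := nil N N₀ hN w 1 1 le_rfl ℓ ((opZ r0 w ^ b) u - (opZ r0 w ^ a) u)
    (van fun j => by rw [ev_sub, he, he, h3, sub_self])
  refine ⟨v, ?_⟩
  rw [pow_one, pow_one] at hv
  rw [map_mul, map_sub, map_pow, map_pow, rW_T hN w ℓ]
  rw [rW_T] at hv
  exact hv

/-- **HAT** -/
theorem hat [NeZero N] (hN : N₀ ∣ N) : ∃ c : ℕ, ∀ (w : ℕ) (B : Type) [CommRing B] (h : ℕ)
    (β : Wd N →+* B), (2 : B) ^ h = 0 → (∀ Q, Kil N N N₀ {w + 1} Q → β Q = 0) →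
    ∀ ℓ : PA N, IsNilpotent (β (wT ℓ)) → β (wT ℓ) ^ (c * (h + w + 1)) = 0 := by
  have := fg_Gm hN
  obtain ⟨g, hg⟩ := rank_le (Γ := Gm N N₀)
  refine ⟨Nat.card (Function.End (H0 (Gm N N₀))) * (g + 1), fun w B _ h β h2 hβ ℓ hn => ?_⟩
  obtain ⟨a, b, k1, k2, k3⟩ := ex_two hN ℓ
  have fin : Module.Finite ℤ (ZC (Gm N N₀) w) := finite_Z1 fun p => by
    funext i
    simp [actM_apply, AA_one, Matrix.one_apply]
  obtain ⟨X, hX⟩ : ∃ X, X = wT ℓ * (wT ℓ ^ b - wT ℓ ^ a) := ⟨_, rfl⟩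
  obtain ⟨p, p1, p2, p3, p4⟩ := ch (BZ (Gm N N₀) w) (rW hN w) X (hX ▸ stab _ (rW hN w) (wT ℓ)
    (fun u hu => (rW_T hN w ℓ ▸ opZ_BZ _ hu : rW hN w (wT ℓ) u ∈ _)) a b) (hX ▸ k3 w)
  have hd := p2.trans (hg w)
  have h6 : β (Polynomial.aeval X p) = 0 := hβ _ fun i hi f hf => by
    obtain rfl := Finset.mem_singleton.1 hi
    exact kil_of hN w _ (fun u => BZ_le (p4 u)) f hf
  have h7 := pow_dvd_of p1 p3 (q := β X) (by
    rw [← h6]
    exact Polynomial.aeval_algHom_apply β.toIntAlgHom X p) (h + g * (w + 1))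
  have h8 := ((pow_dvd_pow (2 : B) (show h ≤ _ by omega)).trans h7)
  obtain ⟨e, rfl⟩ := Nat.exists_eq_add_of_lt k1
  have h9 : IsUnit (β (wT ℓ) ^ (e + 1) - 1) := by
    rw [← IsUnit.neg_iff, neg_sub]
    exact (hn.pow_succ e).isUnit_one_sub
  rw [h2, zero_dvd_iff, hX, map_mul, map_sub, map_pow, map_pow, show β (wT ℓ) * (β (wT ℓ) ^ (a + e + 1) -
    β (wT ℓ) ^ a) = β (wT ℓ) ^ (a + 1) * (β (wT ℓ) ^ (e + 1) - 1) by ring, mul_pow,
    (h9.pow _).mul_left_eq_zero, ← pow_mul] at h8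
  refine pow_eq_zero_of_le ?_ h8
  rw [mul_assoc]
  exact Nat.mul_le_mul (by omega) (by nlinarith)

theorem tf_pow {G B : Type*} [Group G] [CommRing B] {t : G → B} {d : G →* Bˣ} (T : H346.TF t d)
    (φ : G) (k : ℕ) : t (φ ^ k) ∈ Ideal.span {t φ, 2} := by
  have h1 : t φ ∈ Ideal.span {t φ, 2} := Ideal.subset_span (by simp)
  induction k using Nat.twoStepInduction with
  | zero => rw [pow_zero, T.one]; exact Ideal.subset_span (by simp)
  | one => rwa [pow_one]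
  | more k h _ =>
    have h2 := T.sq (φ ^ k) φ 1
    simp only [mul_one] at h2
    rw [pow_succ, pow_succ, h2]
    exact sub_mem (Ideal.mul_mem_right _ _ h1) (Ideal.mul_mem_left _ _ h)

theorem tf_nil {B : Type} [CommRing B] {β : Wd N →+* B} {t : GQ → B} {d : GQ →* Bˣ} (hN : N ≠ 0)
    (P : PS0 N β t d) {h n : ℕ} (h2 : (2 : B) ^ h = 0) (S : Finset ℕ)
    (hn : ∀ ℓ : PA N, ℓ.1 ∉ S → (∃ φ, IsFrob ℓ.1 φ) → β (wT ℓ) ^ n = 0) (g : GQ) :
    t g ^ (n + h) = 0 := by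
  obtain ⟨U, a, b, -, e⟩ := P.opn
  obtain ⟨l, φ, k, k1, k2, k3, k4⟩ := frob U a b g (S ∪ (2 * N).primeFactors)
  rw [Finset.mem_union, not_or] at k2
  let ℓ : PA N := ⟨l, k1, fun hl => k2.2 (Nat.mem_primeFactors.2 ⟨k1, hl, by omega⟩)⟩
  have h3 := (e _ k4).2 g
  rw [mul_inv_cancel_left] at h3
  obtain ⟨x, y, h4⟩ := Ideal.mem_span_pair.1 (tf_pow P.tf φ k)
  rw [← h3, ← h4]
  refine pow_eq_zero_of_le (Nat.sub_le _ 1) ((Commute.all _ _).add_pow_add_eq_zero_of_pow_eq_zero ?_ ?_)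
  · rw [mul_pow, P.frT ℓ φ k3, hn ℓ k2.1 ⟨φ, k3⟩, mul_zero]
  · rw [mul_pow, h2, mul_zero]

/-- **HAT** for the pseudo-character, one weight -/
theorem hatG [NeZero N] (hN : N₀ ∣ N) : ∃ c : ℕ, ∀ (w : ℕ) (B : Type) [CommRing B] (h : ℕ)
    (β : Wd N →+* B), (2 : B) ^ h = 0 → (∀ Q, Kil N N N₀ {w + 1} Q → β Q = 0) →
    ∀ t d, PS0 N β t d → (∀ g, IsNilpotent (t g)) → ∀ g, t g ^ (c * (h + w + 1)) = 0 := by
  obtain ⟨c, hc⟩ := hat hN
  refine ⟨c + 1, fun w B _ h β h2 hβ t d P hn g => pow_eq_zero_of_le (by nlinarith)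
    (tf_nil (NeZero.ne N) P h2 ∅ (fun ℓ _ ⟨φ, hφ⟩ => hc w B h β h2 hβ ℓ (P.frT ℓ φ hφ ▸ hn φ)) g)⟩

/-- **HAT** for a family of weights at most `W + 2` -/
theorem hatF [NeZero N] (hN : N₀ ∣ N) : ∃ c : ℕ, ∀ (W : ℕ) (B : Type) [CommRing B] (h : ℕ)
    (β : Wd N →+* B), (2 : B) ^ h = 0 → ∀ (J : Type) (I : J → Ideal B), (∀ x, (∀ j, x ∈ I j) → x = 0) →
    (∀ j, ∃ w ≤ W, ∀ Q, Kil N N N₀ {w + 1} Q → β Q ∈ I j) →
    ∀ t d, PS0 N β t d → (∀ g, IsNilpotent (t g)) → ∀ g, t g ^ (c * (h + W + 1)) = 0 := by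
  obtain ⟨c, hc⟩ := hatG hN
  refine ⟨c, fun W B _ h β h2 J I hI hβ t d P hn g => hI _ fun j => ?_⟩
  obtain ⟨w, hw, k⟩ := hβ j
  rw [← Ideal.Quotient.eq_zero_iff_mem, map_pow]
  refine pow_eq_zero_of_le (by gcongr) (hc w (B ⧸ I j) h _ ?_
    (fun Q hQ => Ideal.Quotient.eq_zero_iff_mem.2 (k Q hQ)) _ _ (P.map (Ideal.Quotient.mk (I j)))
    (fun g => (hn g).map _) g)
  rw [← map_ofNat (Ideal.Quotient.mk (I j)), ← map_pow, h2, map_zero]

end Vale.Agent.P022K.UC.Hat
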