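import Vale.Agent.P022K.UC.Ram

/-!
# P022K, block UC, row B5: the Hecke relation on functions and removal of primes from the level
-/

set_option autoImplicit false

open UpperHalfPlane ModularForm CongruenceSubgroup Matrix
open scoped MatrixGroups ModularForm Real

noncomputable section

namespace Vale.Agent.P022K.UC

open Rm

namespace Lv

/-- an integer matrix with non-zero determinant as an element of `GL(2, ℝ)` -/
def gl (A : Matrix (Fin 2) (Fin 2) ℤ) (h : A.det ≠ 0) : GL (Fin 2) ℝ :=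
  GeneralLinearGroup.mkOfDetNeZero (A.map (Int.castRingHom ℝ)) (by
    rw [← RingHom.mapMatrix_apply, ← RingHom.map_det]
    simpa using h)

theorem gl_apply (A : Matrix (Fin 2) (Fin 2) ℤ) (h : A.det ≠ 0) (i j : Fin 2) :
    gl A h i j = (A i j : ℝ) := rfl

theorem gl_det (A : Matrix (Fin 2) (Fin 2) ℤ) (h : A.det ≠ 0) :
    (gl A h).det.val = (A.det : ℝ) := by
  rw [GeneralLinearGroup.val_det_apply, det_fin_two, det_fin_two]
  simp [gl_apply]

theorem gl_mul {A B : Matrix (Fin 2) (Fin 2) ℤ} (hA : A.det ≠ 0) (hB : B.det ≠ 0)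
    (h : (A * B).det ≠ 0) : gl (A * B) h = gl A hA * gl B hB := by
  ext i j
  simp [gl_apply, Matrix.mul_apply]

/-- the slash action of an integer matrix -/
def sl (k : ℤ) (F : ℍ → ℂ) (A : Matrix (Fin 2) (Fin 2) ℤ) : ℍ → ℂ :=
  if h : A.det ≠ 0 then F ∣[k] gl A h else 0

variable {k : ℤ} {F G : ℍ → ℂ} {A B : Matrix (Fin 2) (Fin 2) ℤ}

theorem sl_eq (h : A.det ≠ 0) : sl k F A = F ∣[k] gl A h := dif_pos h

theorem sl_mul (hA : A.det ≠ 0) (hB : B.det ≠ 0) : sl k F (A * B) = sl k (sl k F A) B := by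
  have h : (A * B).det ≠ 0 := by rw [det_mul]; exact mul_ne_zero hA hB
  rw [sl_eq h, sl_eq hA, sl_eq hB, gl_mul hA hB, SlashAction.slash_mul]

theorem sl_coe (γ : SL(2, ℤ)) : sl k F γ.1 = F ∣[k] γ := by
  rw [sl_eq (by rw [γ.2]; exact one_ne_zero), SL_slash]
  congr 1
  ext i j
  simp [gl_apply]

theorem sl_inj (hA : A.det ≠ 0) (h : sl k F A = sl k G A) : F = G := by
  rw [sl_eq hA, sl_eq hA] at h
  have := congrArg (fun H : ℍ → ℂ => H ∣[k] (gl A hA)⁻¹) h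
  simpa [← SlashAction.slash_mul] using this

/-- `A γ = γ' B` moves the slash action -/
theorem sl_comm (hA : A.det ≠ 0) (hB : B.det ≠ 0) {γ γ' : SL(2, ℤ)} (h : A * γ.1 = γ'.1 * B) :
    sl k F A ∣[k] γ = sl k (F ∣[k] γ') B := by
  rw [← sl_coe, ← sl_mul hA (by rw [γ.2]; exact one_ne_zero), h,
    sl_mul (by rw [γ'.2]; exact one_ne_zero) hB, sl_coe]

theorem det_tri {a d : ℕ} (b : ℤ) (ha : a ≠ 0) (hd : d ≠ 0) :
    (!![(a : ℤ), b; 0, (d : ℤ)]).det ≠ 0 := by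
  simp [ha, hd]

/-- upper triangular matrices -/
theorem sl_tri {a d : ℕ} (b : ℤ) (ha : a ≠ 0) (hd : d ≠ 0) (τ : ℍ) : ∃ τ' : ℍ,
    (τ' : ℂ) = (a * τ + b) / d ∧
      sl k F !![(a : ℤ), b; 0, (d : ℤ)] τ = (a : ℂ) ^ (k - 1) * (d : ℂ)⁻¹ * F τ' := by
  have h := det_tri b ha hd
  have hdet : (gl _ h).det.val = (a : ℝ) * d := by rw [gl_det]; simp
  have hpos : 0 < (gl _ h).det.val := by rw [hdet]; positivity
  have ha' : (a : ℂ) ≠ 0 := by exact_mod_cast ha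
  have hd' : (d : ℂ) ≠ 0 := by exact_mod_cast hd
  have hden : denom (gl _ h) τ = d := by simp [denom, gl_apply]
  refine ⟨gl _ h • τ, ?_, ?_⟩
  · rw [coe_smul_of_det_pos hpos, hden]
    simp [num, gl_apply]
  · rw [sl_eq h, slash_apply, hden, abs_of_pos hpos, σ, if_pos hpos, hdet]
    push_cast
    rw [mul_zpow, zpow_sub₀ hd', _root_.zpow_neg]
    have : (d : ℂ) ^ k ≠ 0 := zpow_ne_zero _ hd'
    simp only [ContinuousAlgEquiv.refl_apply, zpow_one]
    field_simp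

theorem sum_zmod {M : Type*} [AddCommMonoid M] (l : ℕ) [NeZero l] (f : ℕ → M) :
    ∑ b ∈ Finset.range l, f b = ∑ r : ZMod l, f r.val := by
  refine Finset.sum_nbij' (fun b => (b : ZMod l)) (fun r => r.val) ?_ ?_ ?_ ?_ ?_
  · exact fun _ _ => Finset.mem_univ _
  · exact fun r _ => Finset.mem_range.2 (ZMod.val_lt r)
  · exact fun b hb => ZMod.val_cast_of_lt (Finset.mem_range.1 hb)
  · exact fun r _ => ZMod.natCast_zmod_val r
  · intro b hb
    rw [ZMod.val_cast_of_lt (Finset.mem_range.1 hb)]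

/-- the operator `U_l` -/
def Ul (k : ℤ) (l : ℕ) (F : ℍ → ℂ) : ℍ → ℂ :=
  ∑ b ∈ Finset.range l, sl k F !![((1 : ℕ) : ℤ), (b : ℤ); 0, (l : ℤ)]

/-- the operator `l ^ (k - 1) V_l` -/
def Vl (k : ℤ) (l : ℕ) (F : ℍ → ℂ) : ℍ → ℂ := sl k F !![(l : ℤ), 0; 0, ((1 : ℕ) : ℤ)]

variable {c : ℕ → ℂ}

theorem sm_Vl (h : Sm c F) (k : ℤ) {l : ℕ} (hl : l ≠ 0) :
    Sm (fun n => (l : ℂ) ^ (k - 1) * if l ∣ n then c (n / l) else 0) (Vl k l F) := by
  intro τ
  obtain ⟨τ', h1, h2⟩ := sl_tri (k := k) (F := F) 0 hl one_ne_zero τ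
  have hq : qq τ' = qq τ ^ l := by
    simp only [Function.Periodic.qParam, h1, ← Complex.exp_nat_mul]
    congr 1
    push_cast
    ring
  rw [Vl, h2]
  refine ((mul_right_injective₀ hl).hasSum_iff ?_).1 ?_
  · intro n hn
    have : ¬ l ∣ n := fun ⟨m, hm⟩ => hn ⟨m, hm.symm⟩
    simp [this]
  · refine hs_congr ((h τ').mul_left _) fun n => ?_
    change _ = _ * (c n • qq τ' ^ n)
    rw [hq, ← pow_mul]
    simp [Nat.mul_div_cancel_left n (Nat.pos_of_ne_zero hl), mul_assoc]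

theorem sm_Ul (h : Sm c F) (k : ℤ) {l : ℕ} (hl : l ≠ 0) : Sm (fun n => c (l * n)) (Ul k l F) := by
  intro τ
  have hl' : (l : ℂ) ≠ 0 := by exact_mod_cast hl
  set x : ℂ := Complex.exp (2 * π * Complex.I * τ / l) with hx
  set ζ : ℂ := Complex.exp (2 * π * Complex.I / l) with hζ
  have hprim : IsPrimitiveRoot ζ l := Complex.isPrimitiveRoot_exp l hl
  have h1 : ∀ b : ℕ, HasSum (fun n : ℕ => (l : ℂ)⁻¹ * (c n * x ^ n * (ζ ^ n) ^ b))
      (sl k F !![((1 : ℕ) : ℤ), (b : ℤ); 0, (l : ℤ)] τ) := fun b => by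
    obtain ⟨τ', h1, h2⟩ := sl_tri (k := k) (F := F) (b : ℤ) one_ne_zero hl τ
    have hq : qq τ' = x * ζ ^ b := by
      simp only [Function.Periodic.qParam, h1, hx, hζ, ← Complex.exp_nat_mul, ← Complex.exp_add]
      congr 1
      push_cast
      ring
    rw [h2]
    refine hs_congr ((h τ').mul_left _) fun n => ?_
    change _ = _ * (c n • qq τ' ^ n)
    rw [hq, mul_pow, ← pow_mul, ← pow_mul, mul_comm b n]
    simp [mul_assoc]
  have h2 := hasSum_sum (s := Finset.range l) fun b _ => h1 b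
  have h3 : x ^ l = qq τ := by
    simp only [Function.Periodic.qParam, hx, ← Complex.exp_nat_mul]
    congr 1
    push_cast
    field_simp
  rw [Ul, Finset.sum_apply]
  refine hs_congr (((mul_right_injective₀ hl).hasSum_iff ?_).2 h2) fun n => ?_
  · intro n hn
    have h4 : ζ ^ n ≠ 1 := fun e => by
      obtain ⟨m, hm⟩ := (hprim.pow_eq_one_iff_dvd n).1 e
      exact hn ⟨m, hm.symm⟩
    have h5 : ∑ b ∈ Finset.range l, (ζ ^ n) ^ b = 0 := by
      have := mul_geom_sum (ζ ^ n) l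
      rw [← pow_mul, mul_comm n l, pow_mul, hprim.pow_eq_one, one_pow, sub_self] at this
      exact (mul_eq_zero.1 this).resolve_left (sub_ne_zero.2 h4)
    rw [← Finset.mul_sum, ← Finset.mul_sum, h5, mul_zero, mul_zero]
  · change c (l * n) • qq τ ^ n = _
    simp only [Function.comp_apply, pow_mul, hprim.pow_eq_one, one_pow, h3, mul_one,
      Finset.sum_const, Finset.card_range, nsmul_eq_mul, smul_eq_mul]
    field_simp

/-- `U_l` preserves invariance under `Γ₀(M)` for `l ∣ M` -/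
theorem Ul_slash {M l : ℕ} (hl : l.Prime) (hM : l ∣ M) (hF : ∀ γ ∈ Gamma0 M, F ∣[k] γ = F)
    {γ : SL(2, ℤ)} (hγ : γ ∈ Gamma0 M) : Ul k l F ∣[k] γ = Ul k l F := by
  have : Fact l.Prime := ⟨hl⟩
  have hc : (M : ℤ) ∣ γ 1 0 := (ZMod.intCast_zmod_eq_zero_iff_dvd _ _).1 (Gamma0_mem.1 hγ)
  have hc' : ((γ 1 0 : ℤ) : ZMod l) = 0 :=
    (ZMod.intCast_zmod_eq_zero_iff_dvd _ _).2 ((Int.natCast_dvd_natCast.2 hM).trans hc)
  have hdet : γ 0 0 * γ 1 1 - γ 0 1 * γ 1 0 = 1 := by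
    have := γ.2
    rwa [det_fin_two] at this
  have had : ((γ 0 0 : ℤ) : ZMod l) * (γ 1 1 : ℤ) = 1 := by
    have := congrArg (Int.cast : ℤ → ZMod l) hdet
    push_cast at this
    rwa [hc', mul_zero, sub_zero] at this
  have hd : ((γ 1 1 : ℤ) : ZMod l) ≠ 0 := right_ne_zero_of_mul_eq_one had
  let s : ZMod l → ZMod l := fun r => (γ 1 1 : ℤ) * ((γ 0 1 : ℤ) + r * (γ 1 1 : ℤ))
  have hs : Function.Bijective s := Finite.injective_iff_bijective.1 fun r r' e =>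
    mul_right_cancel₀ hd (add_left_cancel (mul_left_cancel₀ hd e))
  rw [Ul, SlashAction.sum_slash, sum_zmod, sum_zmod]
  refine Eq.trans (Finset.sum_congr rfl fun r _ => ?_) (hs.sum_comp _)
  obtain ⟨x, hx⟩ : (l : ℤ) ∣ γ 0 1 + r.val * γ 1 1 - (γ 0 0 + r.val * γ 1 0) * (s r).val := by
    rw [← ZMod.intCast_zmod_eq_zero_iff_dvd]
    push_cast
    simp only [ZMod.natCast_val, ZMod.cast_id', id_eq, hc', s]
    linear_combination (-((γ 0 1 : ℤ) : ZMod l) - r * (γ 1 1 : ℤ)) * had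
  let γ' : SL(2, ℤ) := ⟨!![γ 0 0 + r.val * γ 1 0, x; l * γ 1 0, γ 1 1 - γ 1 0 * (s r).val], by
    rw [det_fin_two_of]
    linear_combination hdet + γ 1 0 * hx⟩
  have h1 : γ' ∈ Gamma0 M := Gamma0_mem.2
    ((ZMod.intCast_zmod_eq_zero_iff_dvd _ _).2 (hc.mul_left (l : ℤ)))
  rw [sl_comm (det_tri _ one_ne_zero hl.ne_zero) (det_tri ((s r).val : ℤ) one_ne_zero hl.ne_zero)
    (γ' := γ'), hF γ' h1]
  ext i j
  fin_cases i <;> fin_cases j <;> simp [γ', Matrix.mul_apply, Fin.sum_univ_two] <;>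
    simp only [ZMod.natCast_val] at hx <;> linarith

theorem T_zpow_mem (M : ℕ) (j : ℤ) : ModularGroup.T ^ j ∈ Gamma0 M := by
  rw [Gamma0_mem]
  have := ModularGroup.coe_T_zpow j
  change (((ModularGroup.T ^ j).1 1 0 : ℤ) : ZMod M) = 0
  rw [this]
  simp

/-- if `F` and `V_l F` have level `l M`, then `F` has level `M` -/
theorem lower {M l : ℕ} (hl : l.Prime) (hF : ∀ γ ∈ Gamma0 (l * M), F ∣[k] γ = F)
    (hV : ∀ γ ∈ Gamma0 (l * M), Vl k l F ∣[k] γ = Vl k l F) : ∀ γ ∈ Gamma0 M, F ∣[k] γ = F := by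
  have hT : ∀ j : ℤ, F ∣[k] (ModularGroup.T ^ j) = F := fun j => hF _ (T_zpow_mem _ j)
  have hp : Prime (l : ℤ) := Nat.prime_iff_prime_int.1 hl
  have hdet : ∀ γ : SL(2, ℤ), γ 0 0 * γ 1 1 - γ 0 1 * γ 1 0 = 1 := fun γ => by
    have := γ.2
    rwa [det_fin_two] at this
  have h1 : ∀ g ∈ Gamma0 M, (l : ℤ) ∣ g 0 1 → F ∣[k] g = F := by
    rintro g hg ⟨y, hy⟩
    have hc : (M : ℤ) ∣ g 1 0 := (ZMod.intCast_zmod_eq_zero_iff_dvd _ _).1 (Gamma0_mem.1 hg)
    let γ : SL(2, ℤ) := ⟨!![g 0 0, y; l * g 1 0, g 1 1], by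
      rw [det_fin_two_of]
      linear_combination hdet g + g 1 0 * hy⟩
    have h2 : γ ∈ Gamma0 (l * M) := Gamma0_mem.2 ((ZMod.intCast_zmod_eq_zero_iff_dvd _ _).2 (by
      push_cast
      exact mul_dvd_mul_left (l : ℤ) hc))
    have h3 := hV γ h2
    have hd := det_tri (a := l) (d := 1) 0 hl.ne_zero one_ne_zero
    rw [Vl, sl_comm hd hd (γ' := g)] at h3
    · exact sl_inj hd h3
    · ext i j
      fin_cases i <;> fin_cases j <;> simp [γ, Matrix.mul_apply, Fin.sum_univ_two] <;> linarith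
  have h2 : ∀ g ∈ Gamma0 M, ¬ (l : ℤ) ∣ g 0 0 → F ∣[k] g = F := by
    intro g hg ha
    obtain ⟨u, v, huv⟩ := (hp.coprime_iff_not_dvd.2 ha)
    have h3 := h1 (g * ModularGroup.T ^ (-(v * g 0 1))) (mul_mem hg (T_zpow_mem _ _)) ⟨u * g 0 1, by
      change (g.1 * (ModularGroup.T ^ (-(v * g 0 1))).1) 0 1 = _
      rw [ModularGroup.coe_T_zpow]
      simp only [Matrix.mul_apply, Fin.sum_univ_two, of_apply, cons_val', cons_val_one,
        cons_val_zero, cons_val_fin_one]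
      linear_combination (-g 0 1) * huv⟩
    have h4 := congrArg (fun H : ℍ → ℂ => H ∣[k] (ModularGroup.T ^ (v * g 0 1))) h3
    simp only [hT, ← SlashAction.slash_mul, mul_assoc, ← _root_.zpow_add, neg_add_cancel,
      zpow_zero, mul_one] at h4
    exact h4
  intro g hg
  by_cases ha : (l : ℤ) ∣ g 0 0
  · have h3 := h2 (ModularGroup.T ^ (1 : ℤ) * g) (mul_mem (T_zpow_mem _ _) hg) (by
      change ¬ _ ∣ ((ModularGroup.T ^ (1 : ℤ)).1 * g.1) 0 0
      rw [ModularGroup.coe_T_zpow]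
      simp only [Matrix.mul_apply, Fin.sum_univ_two, of_apply, cons_val', cons_val_one,
        cons_val_zero, cons_val_fin_one, one_mul]
      intro h
      have hc : (l : ℤ) ∣ g 1 0 := (dvd_add_right ha).1 h
      exact hp.not_dvd_one (hdet g ▸ dvd_sub (ha.mul_right _) (hc.mul_left _)))
    rwa [SlashAction.slash_mul, hT] at h3
  · exact h2 g hg ha

end Lv

open Lv

variable {S : Finset ℕ} {k : ℤ} {c : ℕ → ℂ} {F : ℍ → ℂ}

/-- the Hecke relation between functions -/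
theorem Eig.rel (h : Eig S k c) (hF : Sm c F) {l : ℕ} (hl : l.Prime) (hS : l ∉ S) :
    c l • F = Ul k l F + Vl k l F := by
  funext τ
  refine ((hF τ).mul_left (c l)).unique
    (hs_congr ((sm_Ul hF k hl.ne_zero τ).add (sm_Vl hF k hl.ne_zero τ)) fun n => ?_)
  simp only [smul_eq_mul]
  rw [← add_mul, h.hecke l n hl hS, mul_assoc]

/-- **B5**: the primes outside `S` can be removed from the level -/
theorem lev (h : Eig S k c) (hF : Sm c F) (M : ℕ) (hM : M ≠ 0)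
    (hs : ∀ γ ∈ Gamma0 M, F ∣[k] γ = F) : ∃ M' : ℕ, M' ≠ 0 ∧
      (∀ l : ℕ, l.Prime → l ∣ M' → l ∈ S) ∧ ∀ γ ∈ Gamma0 M', F ∣[k] γ = F := by
  induction M using Nat.strong_induction_on with
  | _ M ih =>
  by_cases h1 : ∀ l : ℕ, l.Prime → l ∣ M → l ∈ S
  · exact ⟨M, hM, h1, hs⟩
  push Not at h1
  obtain ⟨l, hl, ⟨M', rfl⟩, hS⟩ := h1
  have hM' : M' ≠ 0 := right_ne_zero_of_mul hM
  refine ih M' ((Nat.lt_mul_iff_one_lt_left (Nat.pos_of_ne_zero hM')).2 hl.one_lt) hM'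
    (lower hl hs fun γ hγ => ?_)
  have e : Vl k l F = c l • F + -Ul k l F := by rw [h.rel hF hl hS]; abel
  rw [e, SlashAction.add_slash, SlashAction.neg_slash, SL_smul_slash, hs γ hγ,
    Ul_slash hl (dvd_mul_right l M') hs hγ]

end Vale.Agent.P022K.UC
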