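import Mathlib

/-!
# P022K, block UC: the zero estimate, part 1 (Gauss norms in two variables)

A polynomial `P(x, Y)` cannot have roots which are too close to a restricted power series whose
approximations modulo the `i`-th power of the uniformiser have degree exactly `2 ^ i`.
-/

set_option linter.all false

open Polynomial Real

noncomputable section

namespace Vale.Agent.P022K.UC.Ls

/-- nonarchimedean absolute values -/
structure NA (R : Type*) [CommRing R] where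
  v : AbsoluteValue R ℝ
  na : IsNonarchimedean v

namespace NA

variable {R : Type*} [CommRing R] (w : NA R)

/-- the Gauss norm of radius `exp r` -/
def gn (r : ℝ) : NA R[X] where
  v := @IsAbsoluteValue.toAbsoluteValue _ _ _ _ _ (gaussNorm w.v (exp r))
    (gaussNorm_isAbsoluteValue w.na (exp_pos r))
  na := isNonarchimedean_gaussNorm w.v w.na (exp_pos r).le

theorem gn_le (r : ℝ) (p : R[X]) (i : ℕ) : w.v (p.coeff i) * exp (r * i) ≤ (w.gn r).v p := by
  rw [mul_comm r, exp_nat_mul]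
  exact le_gaussNorm w.v p (exp_pos r).le i

theorem gn_min (r : ℝ) (p : R[X]) : ∃ i, (w.gn r).v p = w.v (p.coeff i) * exp (r * i) ∧
    ∀ j < i, w.v (p.coeff j) * exp (r * j) < (w.gn r).v p := by
  simp only [mul_comm r, exp_nat_mul]
  exact exists_min_eq_gaussNorm w.v p (exp_pos r).le

theorem gn_bd {r c : ℝ} {p : R[X]} (h : ∀ i, w.v (p.coeff i) * exp (r * i) ≤ c) :
    (w.gn r).v p ≤ c := by
  obtain ⟨i, hi, -⟩ := w.gn_min r p
  exact hi ▸ h i

theorem sum_le {ι : Type*} {s : Finset ι} {f : ι → R} {c : ℝ} (hc : 0 ≤ c)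
    (h : ∀ i ∈ s, w.v (f i) ≤ c) : w.v (∑ i ∈ s, f i) ≤ c := by
  classical
  induction s using Finset.induction_on with
  | empty => simpa using hc
  | insert a s ha ih =>
    rw [Finset.sum_insert ha]
    exact (w.na _ _).trans (max_le (h a (by simp)) (ih fun i hi => h i (by simp [hi])))

theorem add_eq {a b : R} (h : w.v a < w.v b) : w.v (a + b) = w.v b :=
  IsNonarchimedean.add_eq_right_of_lt w.na h

theorem gn_C (r : ℝ) (a : R) : (w.gn r).v (C a) = w.v a := gaussNorm_C w.v _ a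

theorem gn_X [Nontrivial R] (r : ℝ) : (w.gn r).v X = exp r := by
  have h := gaussNorm_monomial w.v (exp r) 1 (1 : R)
  rw [map_one w.v, one_mul, pow_one] at h
  exact h

variable [Nontrivial R]

theorem tay_le {s : ℝ} {h : R} (hh : w.v h ≤ exp s) (p : R[X]) :
    (w.gn s).v (taylor h p) ≤ (w.gn s).v p := by
  rw [taylor_apply, comp_eq_sum_left, Polynomial.sum]
  refine (w.gn s).sum_le ((w.gn s).v.nonneg _) fun e _ => le_trans ?_ (w.gn_le s p e)
  rw [map_mul, map_pow, gn_C, mul_comm s, exp_nat_mul]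
  gcongr
  exact ((w.gn s).na _ _).trans (max_le (w.gn_X s).le ((w.gn_C s h).le.trans hh))

theorem tay_eq {s : ℝ} {h : R} (hh : w.v h ≤ exp s) (p : R[X]) :
    (w.gn s).v (taylor h p) = (w.gn s).v p := by
  refine (w.tay_le hh p).antisymm ?_
  have h1 := w.tay_le (h := -h) (by rwa [w.v.map_neg]) (taylor h p)
  rwa [taylor_taylor, neg_add_cancel, taylor_zero] at h1

theorem gn_up {r : ℝ} (hr : 0 ≤ r) {p : R[X]} {d : ℕ} (hd : p.natDegree ≤ d) :
    (w.gn r).v p ≤ exp (r * d) * (w.gn 0).v p := w.gn_bd fun i => by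
  by_cases hi : i ≤ d
  · have h1 := w.gn_le 0 p i
    rw [zero_mul, exp_zero, mul_one] at h1
    rw [mul_comm]
    gcongr
  · rw [coeff_eq_zero_of_natDegree_lt (by omega), map_zero, zero_mul]
    exact mul_nonneg (exp_pos _).le ((w.gn 0).v.nonneg _)

/-- the norm in two variables -/
def N (r s : ℝ) (P : R[X][X]) : ℝ := ((w.gn r).gn s).v P

theorem N_nonneg (r s : ℝ) (P : R[X][X]) : 0 ≤ w.N r s P := AbsoluteValue.nonneg _ _

theorem N_pos (r s : ℝ) {P : R[X][X]} (h : P ≠ 0) : 0 < w.N r s P := AbsoluteValue.pos _ h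

theorem N_le (r s : ℝ) (P : R[X][X]) (e a : ℕ) :
    w.v ((P.coeff e).coeff a) * exp (s * e) * exp (r * a) ≤ w.N r s P := by
  rw [mul_right_comm]
  exact (mul_le_mul_of_nonneg_right (w.gn_le r _ a) (exp_pos _).le).trans ((w.gn r).gn_le s P e)

theorem N_ex (r s : ℝ) (P : R[X][X]) : ∃ e a : ℕ,
    w.N r s P = w.v ((P.coeff e).coeff a) * exp (s * e) * exp (r * a) := by
  obtain ⟨e, he, -⟩ := (w.gn r).gn_min s P
  obtain ⟨a, ha, -⟩ := w.gn_min r (P.coeff e)
  exact ⟨e, a, by rw [N, he, ha, mul_right_comm]⟩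

theorem N_mono {r r' s s' : ℝ} (hr : r ≤ r') (hs : s ≤ s') (P : R[X][X]) :
    w.N r s P ≤ w.N r' s' P := by
  obtain ⟨e, a, h⟩ := w.N_ex r s P
  refine h.le.trans (le_trans ?_ (w.N_le r' s' P e a))
  have := w.v.nonneg ((P.coeff e).coeff a)
  gcongr

theorem N_conv (r s : ℝ) (P : R[X][X]) :
    w.N r s P * w.N r s P ≤ w.N 0 s P * w.N (2 * r) s P := by
  obtain ⟨e, a, h⟩ := w.N_ex r s P
  refine le_trans (le_of_eq ?_) (mul_le_mul (w.N_le 0 s P e a) (w.N_le (2 * r) s P e a)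
    (by have := w.v.nonneg ((P.coeff e).coeff a); positivity) (w.N_nonneg _ _ _))
  rw [h, zero_mul, exp_zero, mul_one, two_mul, add_mul, exp_add]
  ring

theorem N_up {r : ℝ} (hr : 0 ≤ r) (s : ℝ) {P : R[X][X]} {d : ℕ}
    (hd : ∀ e, (P.coeff e).natDegree ≤ d) : w.N r s P ≤ exp (r * d) * w.N 0 s P :=
  (w.gn r).gn_bd fun e => by
    refine (mul_le_mul_of_nonneg_right (w.gn_up hr (hd e)) (exp_pos _).le).trans ?_
    rw [mul_assoc]
    exact mul_le_mul_of_nonneg_left ((w.gn 0).gn_le s P e) (exp_pos _).le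

/-- the tangent cone: `n` roots close to `h` give a slope `n * deg h` -/
theorem tangent {s : ℝ} {h : R[X]} {b n : ℕ} (h1 : (w.gn 0).v h ≤ exp s)
    (h2 : w.v (h.coeff b) = exp s) {P : R[X][X]} (hP : P ≠ 0)
    (hn : ∀ e < n, (w.gn 0).v ((taylor h P).coeff e) * exp (s * e) < w.N 0 s (taylor h P))
    {r : ℝ} (hr : 0 < r) : w.N 0 s P * exp (r * (n * b : ℕ)) ≤ w.N r s P := by
  have hu : w.N 0 s (taylor h P) = w.N 0 s P := (w.gn 0).tay_eq h1 P
  have h1' : (w.gn 0).v (-h) ≤ exp s := by rwa [AbsoluteValue.map_neg]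
  obtain ⟨u, hu'⟩ : ∃ u, u = w.N 0 s P := ⟨_, rfl⟩
  have u0 : 0 < u := hu' ▸ w.N_pos 0 s hP
  rw [hu, ← hu'] at hn
  obtain ⟨lo, hlo⟩ : ∃ lo : R[X][X], lo = ∑ e ∈ Finset.range n,
    monomial e ((taylor h P).coeff e) := ⟨_, rfl⟩
  have c1 : ∀ e, lo.coeff e = if e < n then (taylor h P).coeff e else 0 := fun e => by
    simp [hlo, finset_sum_coeff, coeff_monomial]
  obtain ⟨hi, hhi⟩ : X ^ n ∣ taylor h P - lo := X_pow_dvd_iff.2 fun e he => by
    simp [c1, he]
  have l1 : w.N 0 s lo < u := by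
    obtain ⟨e, he, -⟩ := (w.gn 0).gn_min s lo
    rw [N, he, c1]
    split_ifs with h3
    · exact hn e h3
    · simpa using u0
  have e1 : taylor h P = lo + X ^ n * hi := by rw [← hhi]; ring
  have l2 : exp (s * n) * w.N 0 s (taylor (-h) hi) = u := by
    have k1 : ((w.gn 0).gn s).v (lo + X ^ n * hi) = u := by rw [← e1, hu', ← hu]; rfl
    have k2 : ((w.gn 0).gn s).v lo < ((w.gn 0).gn s).v (X ^ n * hi) := by
      by_contra k3
      have k4 := ((w.gn 0).gn s).na lo (X ^ n * hi)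
      rw [k1, max_eq_left (not_lt.1 k3)] at k4
      exact absurd l1 (not_lt.2 k4)
    rw [((w.gn 0).gn s).add_eq k2, map_mul, map_pow, gn_X, ← exp_nat_mul, mul_comm (n : ℝ)] at k1
    rw [← k1, N, (w.gn 0).tay_eq h1']
  have e2 : P = taylor (-h) lo + (X + C (-h)) ^ n * taylor (-h) hi := by
    have k1 := congrArg (taylor (-h)) e1
    rwa [taylor_taylor, neg_add_cancel, taylor_zero, map_add, taylor_mul, taylor_X_pow] at k1
  obtain ⟨d, hd⟩ : ∃ d, ∀ e, ((taylor (-h) lo).coeff e).natDegree ≤ d :=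
    ⟨(taylor (-h) lo).support.sup fun e => ((taylor (-h) lo).coeff e).natDegree, fun e => by
      by_cases k : e ∈ (taylor (-h) lo).support
      · exact Finset.le_sup (f := fun e => ((taylor (-h) lo).coeff e).natDegree) k
      · simp [notMem_support_iff.1 k]⟩
  obtain ⟨t, t0, tr, ht⟩ : ∃ t, 0 < t ∧ t ≤ r ∧ exp (t * d) * w.N 0 s lo < u := by
    have k1 : ContinuousAt (fun t : ℝ => exp (t * d) * w.N 0 s lo) 0 := by fun_prop
    have k2 := (k1.eventually (gt_mem_nhds (show _ < u by simpa using l1))).filter_mono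
      (nhdsWithin_le_nhds (s := Set.Ioi 0))
    obtain ⟨t, k3, k4⟩ := (k2.and (Ioc_mem_nhdsGT hr)).exists
    exact ⟨t, k4.1, k4.2, k3⟩
  have l3 : u * exp (t * (n * b : ℕ)) ≤
      ((w.gn t).gn s).v ((X + C (-h)) ^ n * taylor (-h) hi) := by
    have k1 : exp (s + t * b) ≤ ((w.gn t).gn s).v (X + C (-h)) := by
      have k2 := w.N_le t s (X + C (-h)) 0 b
      simpa [exp_add, h2, N] using k2
    rw [map_mul, map_pow, ← l2, mul_right_comm, ← exp_add,
      show s * n + t * (n * b : ℕ) = n * (s + t * b) by push_cast; ring, exp_nat_mul]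
    exact mul_le_mul (pow_le_pow_left₀ (exp_pos _).le k1 _) (w.N_mono t0.le le_rfl _)
      (w.N_nonneg _ _ _) (pow_nonneg (AbsoluteValue.nonneg _ _) _)
  have l4 : u * exp (t * (n * b : ℕ)) ≤ w.N t s P := by
    have k1 : ((w.gn t).gn s).v (taylor (-h) lo) < u := by
      refine (w.N_up t0.le s hd).trans_lt ?_
      rwa [N, (w.gn 0).tay_eq h1']
    have k2 : u ≤ u * exp (t * (n * b : ℕ)) :=
      le_mul_of_one_le_right u0.le (one_le_exp (by positivity))
    rw [N, e2, ((w.gn t).gn s).add_eq (k1.trans_le (k2.trans l3))]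
    exact l3
  obtain ⟨e, a, k⟩ := w.N_ex t s P
  have k1 := w.N_le 0 s P e a
  rw [zero_mul, exp_zero, mul_one, ← hu'] at k1
  rw [k] at l4
  have k2 : ((n * b : ℕ) : ℝ) ≤ a := by
    have k3 := l4.trans (mul_le_mul_of_nonneg_right k1 (exp_pos _).le)
    exact le_of_mul_le_mul_left (exp_le_exp.1 (le_of_mul_le_mul_left k3 u0)) t0
  refine le_trans ?_ (w.N_le r s P e a)
  rw [← hu', show r * (n * b : ℕ) = t * (n * b : ℕ) + (r - t) * (n * b : ℕ) by ring,
    show r * a = t * a + (r - t) * a by ring, exp_add, exp_add, ← mul_assoc, ← mul_assoc]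
  refine mul_le_mul l4 (exp_le_exp.2 (mul_le_mul_of_nonneg_left k2 (by linarith))) (exp_pos _).le
    (le_trans (by positivity) l4)

end NA

theorem decay (n : ℕ → ℕ) (e : ℕ → ℝ) (L : ℕ) (hn : ∀ s, n s ≤ L) (h0 : e 0 ≤ 4 * L)
    (h1 : ∀ m, 2 * e (m + 1) ≤ e m + n m)
    (h2 : ∀ m, 8 * (n (m + 5) : ℝ) ≤ e m + n m + n (m + 1) + n (m + 2) + n (m + 3) + n (m + 4)) :
    n (11 * (Nat.log 2 L + 3)) = 0 := by
  have L0 : (0 : ℝ) ≤ L := Nat.cast_nonneg _
  have hn' : ∀ s, (n s : ℝ) ≤ L := fun s => by exact_mod_cast hn s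
  have H : ∀ m, e m ≤ 5 * (L * (15 / 16) ^ m) ∧ (n m : ℝ) ≤ 4 * (L * (15 / 16) ^ m) ∧
      (n (m + 1) : ℝ) ≤ 4 * (15 / 16) * (L * (15 / 16) ^ m) ∧
      (n (m + 2) : ℝ) ≤ 4 * (15 / 16) ^ 2 * (L * (15 / 16) ^ m) ∧
      (n (m + 3) : ℝ) ≤ 4 * (15 / 16) ^ 3 * (L * (15 / 16) ^ m) ∧
      (n (m + 4) : ℝ) ≤ 4 * (15 / 16) ^ 4 * (L * (15 / 16) ^ m) := fun m => by
    induction m with
    | zero =>
      have := hn' 0; have := hn' 1; have := hn' 2; have := hn' 3; have := hn' 4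
      simp only [pow_zero, mul_one, zero_add]
      refine ⟨?_, ?_, ?_, ?_, ?_, ?_⟩ <;> linarith
    | succ m ih =>
      obtain ⟨a0, a1, a2, a3, a4, a5⟩ := ih
      have k1 := h1 m
      have k2 := h2 m
      have k3 : (0 : ℝ) ≤ L * (15 / 16) ^ m := by positivity
      rw [pow_succ, ← mul_assoc (L : ℝ)]
      simp only [add_assoc, Nat.reduceAdd]
      refine ⟨?_, ?_, ?_, ?_, ?_, ?_⟩ <;> linarith
  have k1 := (H (11 * (Nat.log 2 L + 3))).2.1
  have k2 : (L : ℝ) < 2 ^ (Nat.log 2 L + 1) := by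
    exact_mod_cast Nat.lt_pow_succ_log_self one_lt_two L
  have k3 : ((15 / 16 : ℝ)) ^ (11 * (Nat.log 2 L + 3)) ≤ (1 / 2) ^ (Nat.log 2 L + 3) := by
    rw [pow_mul]
    exact pow_le_pow_left₀ (by positivity) (by norm_num) _
  have k4 : (4 : ℝ) * (2 ^ (Nat.log 2 L + 1) * (1 / 2) ^ (Nat.log 2 L + 3)) = 1 := by
    rw [one_div, inv_pow]
    field_simp
    ring
  have k5 : (n (11 * (Nat.log 2 L + 3)) : ℝ) < 1 := by
    refine k1.trans_lt ?_
    rw [← k4]
    exact mul_lt_mul_of_pos_left ((mul_le_mul_of_nonneg_left k3 L0).trans_lt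
      (mul_lt_mul_of_pos_right k2 (by positivity))) (by norm_num)
  exact Nat.lt_one_iff.1 (by exact_mod_cast k5)

/-- a sequence of approximations whose `i`-th step has size `exp (-τ (i + 4))` and degree exactly
`2 ^ i` -/
structure Ch {R : Type*} [CommRing R] (w : NA R) (τ : ℝ) (G : ℕ → R[X]) : Prop where
  pos : 0 < τ
  zero : G 0 = 0
  deg : ∀ i, (G (i + 1) - G i).natDegree ≤ 2 ^ i
  le : ∀ i k, w.v ((G (i + 1) - G i).coeff k) ≤ exp (-τ * (i + 4 : ℕ))
  top : ∀ i, w.v ((G (i + 1) - G i).coeff (2 ^ i)) = exp (-τ * (i + 4 : ℕ))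

namespace Ch

variable {R : Type*} [CommRing R] [Nontrivial R] {w : NA R} {τ : ℝ} {G : ℕ → R[X]}

theorem le0 (H : Ch w τ G) (i : ℕ) : (w.gn 0).v (G (i + 1) - G i) ≤ exp (-τ * (i + 4 : ℕ)) :=
  w.gn_bd fun k => by simpa using H.le i k

theorem tay (P : R[X][X]) (i : ℕ) :
    taylor (G (i + 1) - G i) (taylor (G i) P) = taylor (G (i + 1)) P := by
  rw [taylor_taylor, sub_add_cancel]

theorem glue (H : Ch w τ G) (P : R[X][X]) (i : ℕ) {r s : ℝ} (hr : 0 ≤ r)
    (hs : r * (2 ^ i : ℕ) + -τ * (i + 4 : ℕ) ≤ s) :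
    w.N r s (taylor (G (i + 1)) P) = w.N r s (taylor (G i) P) := by
  rw [← tay P i]
  refine (w.gn r).tay_eq ((w.gn_up hr (H.deg i)).trans ?_) _
  refine (mul_le_mul_of_nonneg_left (H.le0 i) (exp_pos _).le).trans ?_
  rw [← exp_add]
  exact exp_le_exp.2 hs

theorem axis (H : Ch w τ G) (P : R[X][X]) {s j : ℕ} (hs : s ≤ j + 4) (k : ℕ) :
    w.N 0 (-τ * s) (taylor (G (j + k)) P) = w.N 0 (-τ * s) (taylor (G j) P) := by
  induction k with
  | zero => rfl
  | succ k ih =>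
    rw [← ih, ← add_assoc, H.glue P (j + k) le_rfl]
    have h1 : (s : ℝ) ≤ (j + k + 4 : ℕ) := by exact_mod_cast (by omega)
    have := H.pos
    nlinarith

theorem axis' (H : Ch w τ G) (P : R[X][X]) {s j : ℕ} (hs : s ≤ j + 4) :
    w.N 0 (-τ * s) (taylor (G j) P) = w.N 0 (-τ * s) (taylor (G s) P) := by
  rw [← H.axis P hs s, ← H.axis P (show s ≤ s + 4 by omega) j, add_comm]

/-- **no root is deep** -/
theorem shallow (H : Ch w τ G) {P : R[X][X]} (hP : P ≠ 0) {L : ℕ} (h1 : P.natDegree ≤ L)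
    (h2 : ∀ e, (P.coeff e).natDegree ≤ L) : ∃ j, 2 ^ j ≤ (8 * (L + 1)) ^ 11 ∧
      w.N 0 (-τ * (j + 3 : ℕ)) (taylor (G j) P) = (w.gn 0).v (P.eval (G j)) := by
  have τ0 := H.pos
  have hT : ∀ j, taylor (G j) P ≠ 0 := fun j h => hP ((taylor_eq_zero _ _).1 h)
  choose n hn hn' using fun s : ℕ => (w.gn 0).gn_min (-τ * s) (taylor (G (s - 3)) P)
  obtain ⟨U, hU⟩ : ∃ U : ℕ → ℝ, ∀ s, U s = w.N 0 (-τ * s) (taylor (G s) P) := ⟨_, fun _ => rfl⟩
  obtain ⟨ρ, hρ⟩ : ∃ ρ : ℕ → ℝ, ∀ i, ρ i = 4 * τ / 2 ^ i := ⟨_, fun _ => rfl⟩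
  obtain ⟨V, hV⟩ : ∃ V : ℕ → ℝ, ∀ i, V i = w.N (ρ i) (-τ * i) (taylor (G i) P) :=
    ⟨_, fun _ => rfl⟩
  have U0 : ∀ s, 0 < U s := fun s => hU s ▸ w.N_pos _ _ (hT s)
  have V0 : ∀ s, 0 < V s := fun s => hV s ▸ w.N_pos _ _ (hT s)
  have ρ0 : ∀ i, 0 < ρ i := fun i => by rw [hρ]; positivity
  have hU' : ∀ s, U s = (w.gn 0).v ((taylor (G (s - 3)) P).coeff (n s)) * exp (-τ * s * n s) :=
    fun s => by rw [hU, ← H.axis' P (show s ≤ s - 3 + 4 by omega), ← hn]; rfl
  have A : ∀ s, log (U s) - τ * n s ≤ log (U (s + 1)) := fun s => by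
    have k1 := (w.gn 0).gn_le (-τ * (s + 1 : ℕ)) (taylor (G (s - 3)) P) (n s)
    have k2 : U s * exp (-(τ * n s)) ≤ U (s + 1) := by
      rw [hU (s + 1), ← H.axis' P (show s + 1 ≤ s - 3 + 4 by omega), hU', mul_assoc, ← exp_add]
      refine le_trans (le_of_eq ?_) k1
      congr 2
      push_cast
      ring
    have k3 := log_le_log (mul_pos (U0 s) (exp_pos _)) k2
    rwa [log_mul (U0 s).ne' (exp_pos _).ne', log_exp] at k3
  have Gl : ∀ m, V m = w.N (ρ m) (-τ * m) (taylor (G (m + 1)) P) := fun m => by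
    rw [hV, H.glue P m (ρ0 m).le (le_of_eq ?_)]
    rw [hρ]
    push_cast
    field_simp
    ring
  have B : ∀ m, log (U (m + 5)) + 8 * (τ * n (m + 5)) ≤ log (V m) := fun m => by
    have k1 := w.tangent (H.le0 (m + 1)) (H.top (m + 1)) (hT (m + 1)) (n := n (m + 5))
      (by rw [tay]; exact hn' (m + 5)) (ρ0 m)
    have k2 : U (m + 5) * exp (8 * (τ * n (m + 5))) ≤ V m := by
      rw [Gl, hU, ← H.axis' P (show m + 5 ≤ m + 1 + 4 by omega)]
      refine le_trans (le_of_eq ?_) (k1.trans (w.N_mono le_rfl ?_ _))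
      · congr 2
        rw [hρ]
        push_cast
        field_simp
        ring
      · push_cast
        nlinarith
    have k3 := log_le_log (mul_pos (U0 _) (exp_pos _)) k2
    rwa [log_mul (U0 _).ne' (exp_pos _).ne', log_exp] at k3
  have C : ∀ m, 2 * log (V (m + 1)) ≤ log (U (m + 1)) + log (V m) := fun m => by
    have k1 := w.N_conv (ρ (m + 1)) (-τ * (m + 1 : ℕ)) (taylor (G (m + 1)) P)
    have k2 : V (m + 1) * V (m + 1) ≤ U (m + 1) * V m := by
      rw [Gl m, hU, hV]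
      refine k1.trans (mul_le_mul_of_nonneg_left (w.N_mono (le_of_eq ?_) ?_ _) (w.N_nonneg _ _ _))
      · rw [hρ, hρ, pow_succ]
        field_simp
      · push_cast
        nlinarith
    have k3 := log_le_log (mul_pos (V0 _) (V0 _)) k2
    rwa [log_mul (V0 _).ne' (V0 _).ne', log_mul (U0 _).ne' (V0 _).ne', ← two_mul] at k3
  have D : log (V 0) ≤ 4 * τ * L + log (U 0) := by
    have k2 : V 0 ≤ exp (4 * τ * L) * U 0 := by
      rw [hV, hU, H.zero, taylor_zero, hρ, pow_zero, div_one]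
      exact w.N_up (by positivity) _ h2
    have k3 := log_le_log (V0 _) k2
    rwa [log_mul (exp_pos _).ne' (U0 _).ne', log_exp] at k3
  have Z := decay n (fun m => (log (V m) - log (U m)) / τ) L (fun s => by
    refine (le_natDegree_of_ne_zero fun h => ?_).trans ((natDegree_taylor P (G (s - 3))).trans_le h1)
    have k := U0 s
    rw [hU', h, map_zero, zero_mul] at k
    exact lt_irrefl _ k) (by rw [div_le_iff₀ τ0]; linarith) (fun m => by
      have := A m; have := C m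
      rw [← mul_div_assoc, div_add' _ _ _ τ0.ne', div_le_div_iff_of_pos_right τ0]
      linarith) (fun m => by
      have := A m; have := A (m + 1); have := A (m + 2); have := A (m + 3); have := A (m + 4)
      have := B m
      simp only [add_assoc, Nat.reduceAdd] at *
      rw [div_add' _ _ _ τ0.ne', le_div_iff₀ τ0]
      linarith)
  refine ⟨11 * (Nat.log 2 L + 3) - 3, ?_, ?_⟩
  · refine (Nat.pow_le_pow_right two_pos (Nat.sub_le _ _)).trans ?_
    rw [mul_comm, pow_mul, pow_add, mul_comm]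
    refine Nat.pow_le_pow_left (Nat.mul_le_mul le_rfl ?_) _
    rcases Nat.eq_zero_or_pos L with rfl | h
    · simp
    · exact (Nat.pow_log_le_self 2 h.ne').trans (Nat.le_succ _)
  · have k := hn (11 * (Nat.log 2 L + 3))
    rw [Z, taylor_coeff_zero, Nat.cast_zero, mul_zero, exp_zero, mul_one] at k
    rw [Nat.sub_add_cancel (by omega)]
    exact k

theorem degG (H : Ch w τ G) (j : ℕ) : (G j).natDegree ≤ 2 ^ j := by
  induction j with
  | zero => simp [H.zero]
  | succ j ih =>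
    rw [← sub_add_cancel (G (j + 1)) (G j), pow_succ]
    exact (natDegree_add_le_of_degree_le (H.deg j) ih).trans (by omega)

end Ch

end Vale.Agent.P022K.UC.Ls
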