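import Mathlib

/-!
# P022K, block UC: a polynomial Sturm bound for quasi-modular forms modulo `2`, part A

Abstract data: a ring `R` with a lift `φ` of Frobenius, and `z = g + 2 c φ z`.  The components of
the ghost vector `(φ ^ i z)` have reductions of degree `4 ^ i` in `x`.
-/

set_option autoImplicit false

open Polynomial

noncomputable section

namespace Vale.Agent.P022K.UC.Qs

section Box

variable (A : Type*) [CommRing A] {S : Type*} [CommRing S] [Algebra A S]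

/-- polynomials in `x`, `y` of degree at most `a` in each -/
def Bx (x y : S) (a : ℕ) : Submodule A S :=
  Submodule.span A {f | ∃ i j, i ≤ a ∧ j ≤ a ∧ f = x ^ i * y ^ j}

variable {A} {x y : S}

theorem Bx.mon {a i j : ℕ} (hi : i ≤ a) (hj : j ≤ a) : x ^ i * y ^ j ∈ Bx A x y a :=
  Submodule.subset_span ⟨i, j, hi, hj, rfl⟩

theorem Bx.mono {a b : ℕ} (h : a ≤ b) {f : S} (hf : f ∈ Bx A x y a) : f ∈ Bx A x y b := by
  refine Submodule.span_mono ?_ hf
  rintro _ ⟨i, j, hi, hj, rfl⟩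
  exact ⟨i, j, hi.trans h, hj.trans h, rfl⟩

theorem Bx.mul {a b : ℕ} {f g : S} (hf : f ∈ Bx A x y a) (hg : g ∈ Bx A x y b) :
    f * g ∈ Bx A x y (a + b) := by
  induction hf using Submodule.span_induction with
  | mem f hf =>
    induction hg using Submodule.span_induction with
    | mem g hg =>
      obtain ⟨i, j, hi, hj, rfl⟩ := hf
      obtain ⟨i', j', hi', hj', rfl⟩ := hg
      have : x ^ i * y ^ j * (x ^ i' * y ^ j') = x ^ (i + i') * y ^ (j + j') := by ring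
      rw [this]
      exact Bx.mon (by omega) (by omega)
    | zero => simp
    | add g g' _ _ h1 h2 => rw [mul_add]; exact add_mem h1 h2
    | smul c g _ h1 => rw [mul_smul_comm]; exact Submodule.smul_mem _ _ h1
  | zero => simp
  | add f f' _ _ h1 h2 => rw [add_mul]; exact add_mem h1 h2
  | smul c f _ h1 => rw [smul_mul_assoc]; exact Submodule.smul_mem _ _ h1

theorem Bx.one (a : ℕ) : (1 : S) ∈ Bx A x y a := by
  simpa using (Bx.mon (A := A) (x := x) (y := y) (Nat.zero_le a) (Nat.zero_le a))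

theorem Bx.pow {a : ℕ} {f : S} (hf : f ∈ Bx A x y a) (n : ℕ) : f ^ n ∈ Bx A x y (n * a) := by
  induction n with
  | zero => simpa using Bx.one 0
  | succ n ih => rw [pow_succ, Nat.succ_mul]; exact Bx.mul ih hf

theorem Bx.left : x ∈ Bx A x y 1 := by
  simpa using (Bx.mon (A := A) (x := x) (y := y) (le_refl 1) (Nat.zero_le 1))

theorem Bx.right : y ∈ Bx A x y 1 := by
  simpa using (Bx.mon (A := A) (x := x) (y := y) (Nat.zero_le 1) (le_refl 1))

theorem Bx.const_mul {a : ℕ} {f : S} (hf : f ∈ Bx A x y a) (n : ℕ) : (n : S) * f ∈ Bx A x y a := by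
  rw [← nsmul_eq_mul]
  exact nsmul_mem hf n

end Box

variable {R : Type*} [CommRing R]

/-- sums of `2 ^ s x ^ k` with `k ≤ d + r (s - 1)`, modulo `2 ^ N` -/
def M (x : R) (N r d : ℕ) : AddSubgroup R :=
  AddSubgroup.closure
    {f | (∃ s k, k ≤ d + r * (s - 1) ∧ f = 2 ^ s * x ^ k) ∨ ∃ h, f = 2 ^ N * h}

variable {x : R}

theorem M.gen {N r d s k : ℕ} (h : k ≤ d + r * (s - 1)) : 2 ^ s * x ^ k ∈ M x N r d :=
  AddSubgroup.subset_closure (Or.inl ⟨s, k, h, rfl⟩)

theorem M.err {N r d : ℕ} (h : R) : 2 ^ N * h ∈ M x N r d :=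
  AddSubgroup.subset_closure (Or.inr ⟨h, rfl⟩)

theorem M.pw {N r d k : ℕ} (h : k ≤ d) : x ^ k ∈ M x N r d := by
  simpa using M.gen (x := x) (N := N) (r := r) (d := d) (s := 0) (k := k) (by omega)

theorem M.one {N r d : ℕ} : (1 : R) ∈ M x N r d := by
  simpa using M.pw (x := x) (N := N) (r := r) (d := d) (k := 0) (by omega)

theorem M.all {r d : ℕ} (f : R) : f ∈ M x 0 r d := by
  simpa using M.err (x := x) (N := 0) (r := r) (d := d) f

theorem M.mono {N r d N' r' d' : ℕ} (hN : N' ≤ N) (hr : r ≤ r') (hd : d ≤ d') {f : R}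
    (hf : f ∈ M x N r d) : f ∈ M x N' r' d' := by
  refine (AddSubgroup.closure_le _).2 ?_ hf
  rintro _ (⟨s, k, h, rfl⟩ | ⟨h, rfl⟩)
  · exact M.gen (h.trans (Nat.add_le_add hd (Nat.mul_le_mul_right _ hr)))
  · obtain ⟨t, rfl⟩ := Nat.exists_eq_add_of_le hN
    rw [pow_add, mul_assoc]
    exact M.err _

theorem M.shift {N r d e s : ℕ} (he : e ≤ d + r * (s - 1)) {f : R} (hf : f ∈ M x N r e) :
    2 ^ s * f ∈ M x (N + s) r d := by
  induction hf using AddSubgroup.closure_induction with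
  | mem f hf =>
    rcases hf with ⟨t, k, h, rfl⟩ | ⟨h, rfl⟩
    · rw [← mul_assoc, ← pow_add]
      refine M.gen ?_
      have : r * (s - 1) + r * (t - 1) ≤ r * (s + t - 1) := by
        rw [← mul_add]; exact Nat.mul_le_mul_left _ (by omega)
      omega
    · rw [← mul_assoc, ← pow_add, add_comm s N]
      exact M.err _
  | zero => simp
  | add f f' _ _ h1 h2 => rw [mul_add]; exact add_mem h1 h2
  | neg f _ h1 => rw [mul_neg]; exact neg_mem h1

theorem M.mul {N r d d' : ℕ} {f g : R} (hf : f ∈ M x N r d) (hg : g ∈ M x N r d') :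
    f * g ∈ M x N r (d + d') := by
  induction hf using AddSubgroup.closure_induction with
  | mem f hf =>
    rcases hf with ⟨s, k, h, rfl⟩ | ⟨h, rfl⟩
    · induction hg using AddSubgroup.closure_induction with
      | mem g hg =>
        rcases hg with ⟨t, l, h', rfl⟩ | ⟨h', rfl⟩
        · have : (2 : R) ^ s * x ^ k * (2 ^ t * x ^ l) = 2 ^ (s + t) * x ^ (k + l) := by ring
          rw [this]
          refine M.gen ?_
          have : r * (s - 1) + r * (t - 1) ≤ r * (s + t - 1) := by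
            rw [← mul_add]; exact Nat.mul_le_mul_left _ (by omega)
          omega
        · rw [mul_left_comm]
          exact M.err _
      | zero => simp
      | add f f' _ _ h1 h2 => rw [mul_add]; exact add_mem h1 h2
      | neg f _ h1 => rw [mul_neg]; exact neg_mem h1
    · rw [mul_assoc]
      exact M.err _
  | zero => simp
  | add f f' _ _ h1 h2 => rw [add_mul]; exact add_mem h1 h2
  | neg f _ h1 => rw [neg_mul]; exact neg_mem h1

theorem M.pow {N r d : ℕ} {f : R} (hf : f ∈ M x N r d) (n : ℕ) : f ^ n ∈ M x N r (n * d) := by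
  induction n with
  | zero => simpa using M.one
  | succ n ih => rw [pow_succ, Nat.succ_mul]; exact M.mul ih hf

theorem M.const_mul {N r d : ℕ} {f : R} (hf : f ∈ M x N r d) (n : ℕ) :
    (n : R) * f ∈ M x N r d := by
  rw [← nsmul_eq_mul]
  exact nsmul_mem hf n

theorem M.phi (φ : R →+* R) (hx : ∀ N, φ x ∈ M x N 1 2) {N r d : ℕ} (hr : 1 ≤ r) {f : R}
    (hf : f ∈ M x N r d) : φ f ∈ M x N (2 * r) (2 * d) := by
  induction hf using AddSubgroup.closure_induction with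
  | mem f hf =>
    rcases hf with ⟨s, k, h, rfl⟩ | ⟨h, rfl⟩
    · rw [map_mul, map_pow, map_pow, map_ofNat]
      have h1 : φ x ^ k ∈ M x N (2 * r) (k * 2) :=
        M.pow (M.mono le_rfl (by omega) le_rfl (hx N)) k
      refine M.mono (Nat.le_add_right N s) le_rfl le_rfl (M.shift ?_ h1)
      rw [mul_assoc]
      omega
    · rw [map_mul, map_pow, map_ofNat]
      exact M.err _
  | zero => simp
  | add f f' _ _ h1 h2 => rw [map_add]; exact add_mem h1 h2
  | neg f _ h1 => rw [map_neg]; exact neg_mem h1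

theorem M.trunc {N r d : ℕ} {f : R} (hf : f ∈ M x N r d) : f ∈ M x N 0 (d + r * (N - 2)) := by
  refine (AddSubgroup.closure_le _).2 ?_ hf
  rintro _ (⟨s, k, h, rfl⟩ | ⟨h, rfl⟩)
  · rcases le_or_gt N s with hs | hs
    · obtain ⟨t, rfl⟩ := Nat.exists_eq_add_of_le hs
      rw [pow_add, mul_assoc]
      exact M.err _
    · refine M.gen ?_
      have : r * (s - 1) ≤ r * (N - 2) := Nat.mul_le_mul_left _ (by omega)
      omega
  · exact M.err _

theorem M.poly {N d : ℕ} {f : R} (hf : f ∈ M x N 0 d) :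
    ∃ (p : ℤ[X]) (h : R), p.natDegree ≤ d ∧ f = aeval x p + 2 ^ N * h := by
  induction hf using AddSubgroup.closure_induction with
  | mem f hf =>
    rcases hf with ⟨s, k, h, rfl⟩ | ⟨h, rfl⟩
    · refine ⟨C (2 ^ s) * X ^ k, 0, (natDegree_C_mul_X_pow_le _ _).trans (by omega), ?_⟩
      rw [map_mul, aeval_C, aeval_X_pow]
      simp
    · exact ⟨0, h, by simp, by simp⟩
  | zero => exact ⟨0, 0, by simp, by simp⟩
  | add f f' _ _ h1 h2 =>
    obtain ⟨p, h, hp, rfl⟩ := h1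
    obtain ⟨p', h', hp', rfl⟩ := h2
    exact ⟨p + p', h + h', (natDegree_add_le _ _).trans (max_le hp hp'), by
      rw [map_add]; ring⟩
  | neg f _ h1 =>
    obtain ⟨p, h, hp, rfl⟩ := h1
    exact ⟨-p, -h, by rwa [natDegree_neg], by rw [map_neg]; ring⟩

theorem M.of_poly {N r d : ℕ} {p : ℤ[X]} (hp : p.natDegree ≤ d) : aeval x p ∈ M x N r d := by
  rw [aeval_eq_sum_range]
  refine sum_mem fun i hi => zsmul_mem (M.pw ?_) _
  have := Finset.mem_range.1 hi
  omega

theorem bx_of_poly {y : R} {d : ℕ} {p : ℤ[X]} (hp : p.natDegree ≤ d) :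
    aeval x p ∈ Bx ℤ x y d := by
  rw [aeval_eq_sum_range]
  refine sum_mem fun i hi => Submodule.smul_mem _ _ ?_
  have := Finset.mem_range.1 hi
  simpa using Bx.mon (A := ℤ) (x := x) (y := y) (a := d) (i := i) (j := 0) (by omega) (by omega)

/-- the data -/
structure Dat (φ : R →+* R) (x g c c' z : R) : Prop where
  frob : ∀ f, ∃ h, φ f = f ^ 2 + 2 * h
  tf : ∀ f : R, 2 * f = 0 → f = 0
  tr : ∀ (p : ℤ[X]) (h : R), aeval x p = 2 * h → ∃ p', p = 2 * p'
  hx : x = g * (1 - 16 * g)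
  hc : c = 1 - 24 * g
  hc' : c * c' = 1
  hφ : φ x * c ^ 2 = g ^ 2
  hz : z = g + 2 * c * φ z

variable {φ : R →+* R} {g c c' z : R}

theorem Dat.g_mem (D : Dat φ x g c c' z) (N : ℕ) : g ∈ M x N 1 1 := by
  induction N with
  | zero => exact M.all _
  | succ N ih =>
    have h1 : g = x ^ 1 + 2 ^ 4 * (g * g) := by rw [D.hx]; ring
    rw [h1]
    exact add_mem (M.pw le_rfl)
      (M.mono (by omega) le_rfl le_rfl (M.shift (by norm_num) (M.mul ih ih)))

theorem Dat.c_mem (D : Dat φ x g c c' z) (N : ℕ) : c ∈ M x N 1 0 := by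
  have h1 : c = 1 - 2 ^ 3 * (((3 : ℕ) : R) * g) := by rw [D.hc]; push_cast; ring
  rw [h1]
  exact sub_mem M.one
    (M.mono (by omega) le_rfl le_rfl (M.shift (by norm_num) (M.const_mul (D.g_mem N) 3)))

theorem Dat.c'_mem (D : Dat φ x g c c' z) (N : ℕ) : c' ∈ M x N 1 0 := by
  induction N with
  | zero => exact M.all _
  | succ N ih =>
    have h1 : c' = 1 + 2 ^ 3 * (((3 : ℕ) : R) * (g * c')) := by
      have := D.hc'
      rw [D.hc] at this
      push_cast
      linear_combination this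
    rw [h1]
    exact add_mem M.one (M.mono (by omega) le_rfl le_rfl
      (M.shift (by norm_num) (M.const_mul (M.mul (D.g_mem N) ih) 3)))

theorem Dat.x_mem (D : Dat φ x g c c' z) (N : ℕ) : φ x ∈ M x N 1 2 := by
  have h1 : φ x = (g * c') * (g * c') := by
    linear_combination c' ^ 2 * D.hφ - φ x * (c * c' + 1) * D.hc'
  rw [h1]
  have h2 : g * c' ∈ M x N 1 1 := by simpa using M.mul (D.g_mem N) (D.c'_mem N)
  simpa using M.mul h2 h2

theorem Dat.iter (D : Dat φ x g c c' z) {N d : ℕ} {f : R} (hf : f ∈ M x N 1 d) (i : ℕ) :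
    (φ ^ i) f ∈ M x N (2 ^ i) (2 ^ i * d) := by
  induction i with
  | zero => simpa using hf
  | succ i ih =>
    have h0 : 1 ≤ 2 ^ i := Nat.one_le_two_pow
    have := M.phi φ D.x_mem h0 ih
    have e : (φ ^ (i + 1)) f = φ ((φ ^ i) f) := by rw [pow_succ' φ]; rfl
    have e2 : 2 ^ (i + 1) = 2 * 2 ^ i := pow_succ' 2 i
    rw [e, e2, mul_assoc]
    exact this

theorem Dat.frob_iter (D : Dat φ x g c c' z) (f : R) (i : ℕ) :
    ∃ h, (φ ^ i) f = f ^ 2 ^ i + 2 * h := by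
  induction i with
  | zero => exact ⟨0, by simp⟩
  | succ i ih =>
    obtain ⟨h, hh⟩ := ih
    obtain ⟨h', hh'⟩ := D.frob ((φ ^ i) f)
    refine ⟨h' + 2 * h * f ^ 2 ^ i + 2 * h ^ 2, ?_⟩
    have : (φ ^ (i + 1)) f = φ ((φ ^ i) f) := by rw [pow_succ' φ]; rfl
    rw [this, hh', hh, pow_succ 2 i, pow_mul]
    ring

/-- products of the iterates of `c` -/
def Cc (φ : R →+* R) (c : R) (i k : ℕ) : R := ∏ t ∈ Finset.range k, (φ ^ (i + t)) c

/-- partial sums -/
def Hh (φ : R →+* R) (g c : R) (i k : ℕ) : R :=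
  ∑ l ∈ Finset.range k, 2 ^ l * (Cc φ c i l * (φ ^ (i + l)) g)

theorem Dat.Cc_mem (D : Dat φ x g c c' z) {e : R} (he : ∀ N, e ∈ M x N 1 0) (N i k : ℕ) :
    Cc φ e i k ∈ M x N (2 ^ (i + k)) 0 := by
  induction k with
  | zero => simpa [Cc] using M.one
  | succ k ih =>
    rw [Cc, Finset.prod_range_succ]
    have h1 : 2 ^ (i + k) ≤ 2 ^ (i + (k + 1)) := Nat.pow_le_pow_right (by norm_num) (by omega)
    exact M.mono le_rfl h1 (by simp) (M.mul ih (D.iter (he N) (i + k)))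

theorem Dat.Cc_inv (D : Dat φ x g c c' z) (i k : ℕ) : Cc φ c i k * Cc φ c' i k = 1 := by
  rw [Cc, Cc, ← Finset.prod_mul_distrib]
  exact Finset.prod_eq_one fun t _ => by rw [← map_mul, D.hc', map_one]

theorem Dat.sum (D : Dat φ x g c c' z) (i k : ℕ) :
    (φ ^ i) z = Hh φ g c i k + 2 ^ k * (Cc φ c i k * (φ ^ (i + k)) z) := by
  induction k with
  | zero => simp [Hh, Cc]
  | succ k ih =>
    have h1 : (φ ^ (i + k)) z = (φ ^ (i + k)) g + 2 * (φ ^ (i + k)) c * (φ ^ (i + (k + 1))) z := by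
      have h2 : (φ ^ (i + (k + 1))) z = (φ ^ (i + k)) (φ z) := by
        rw [← add_assoc, pow_succ φ]; rfl
      conv_lhs => rw [D.hz]
      rw [map_add, map_mul, map_mul, map_ofNat, h2]
    rw [ih, h1, Hh, Hh, Finset.sum_range_succ, Cc, Cc, Finset.prod_range_succ]
    ring

theorem Dat.term_mem (D : Dat φ x g c c' z) (N i l : ℕ) :
    Cc φ c i l * (φ ^ (i + l)) g ∈ M x N (2 ^ (i + l)) (2 ^ (i + l)) := by
  simpa using M.mul (D.Cc_mem D.c_mem N i l) (D.iter (D.g_mem N) (i + l))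

theorem Dat.Hh_mem (D : Dat φ x g c c' z) (N k : ℕ) : Hh φ g c 0 k ∈ M x N (2 ^ k) (2 ^ k) := by
  refine sum_mem fun l hl => ?_
  have h1 : 2 ^ (0 + l) ≤ 2 ^ k :=
    Nat.pow_le_pow_right (by norm_num) (by have := Finset.mem_range.1 hl; omega)
  exact M.mono (Nat.le_add_right N l) h1 h1 (M.shift (Nat.le_add_right _ _) (D.term_mem N 0 l))

/-- the exact degree of `φ ^ n z` modulo `2 ^ (n + 1)` -/
theorem Dat.top (D : Dat φ x g c c' z) (n : ℕ) :
    (φ ^ n) z - 2 ^ n * x ^ 4 ^ n ∈ M x (n + 1) 0 (4 ^ n - 1) := by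
  have h1 : Hh φ g c n n ∈ M x (n + 1) 0 (4 ^ n - 1) := by
    refine sum_mem fun l hl => ?_
    have hl' := Finset.mem_range.1 hl
    obtain ⟨k, rfl⟩ := Nat.exists_eq_add_of_lt hl'
    have h2 := M.trunc (D.term_mem (k + 2) (l + k + 1) l)
    refine M.mono (by omega) le_rfl le_rfl (M.shift ?_ h2)
    have h3 : k + 1 < 2 ^ (k + 1) := Nat.lt_two_pow_self
    have h4 : 4 ^ (l + k + 1) = 2 ^ (l + k + 1 + l) * 2 ^ (k + 1) := by
      rw [← pow_add, show (4 : ℕ) = 2 ^ 2 by norm_num, ← pow_mul]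
      congr 1
      ring
    have h5 : 2 ^ (l + k + 1 + l) * (k + 1) < 2 ^ (l + k + 1 + l) * 2 ^ (k + 1) :=
      Nat.mul_lt_mul_of_pos_left h3 (by positivity)
    rw [h4, Nat.add_sub_cancel]
    rw [mul_add, mul_one] at h5
    omega
  have h2 : ∃ h, Cc φ c n n = 1 + 2 * h := by
    generalize n = k at *
    clear h1
    suffices ∀ m, ∃ h, Cc φ c k m = 1 + 2 * h from this k
    intro m
    induction m with
    | zero => exact ⟨0, by simp [Cc]⟩
    | succ m ih =>
      obtain ⟨h, hh⟩ := ih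
      refine ⟨h - 12 * (φ ^ (k + m)) g * (1 + 2 * h), ?_⟩
      rw [Cc, Finset.prod_range_succ, ← Cc, hh, D.hc, map_sub, map_one, map_mul, map_ofNat]
      ring
  obtain ⟨h, hh⟩ := h2
  obtain ⟨h', hh'⟩ := D.frob_iter x (n + n)
  have h3 : z = x + 2 * (8 * g ^ 2 + c * φ z) := by
    linear_combination D.hz - D.hx
  have h4 : (φ ^ (n + n)) z = x ^ 4 ^ n + 2 * (h' + (φ ^ (n + n)) (8 * g ^ 2 + c * φ z)) := by
    conv_lhs => rw [h3]
    rw [map_add, map_mul, map_ofNat, hh', show (4 : ℕ) ^ n = 2 ^ (n + n) by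
      rw [show (4 : ℕ) = 2 ^ 2 by norm_num, ← pow_mul, two_mul]]
    ring
  generalize h' + (φ ^ (n + n)) (8 * g ^ 2 + c * φ z) = u at h4
  have h5 : (φ ^ n) z - 2 ^ n * x ^ 4 ^ n
      = Hh φ g c n n + 2 ^ (n + 1) * (u + h * (x ^ 4 ^ n + 2 * u)) := by
    rw [D.sum n n, hh, h4]
    ring
  rw [h5]
  exact add_mem h1 (M.err _)

/-- components of a ghost vector -/
theorem witt (hφ : ∀ f, ∃ h, φ f = f ^ 2 + 2 * h) (γ : ℕ → R) (n : ℕ)
    (hγ : ∀ i < n, ∃ h, γ (i + 1) = φ (γ i) + 2 ^ (i + 1) * h) :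
    ∃ β : ℕ → R, ∀ i ≤ n, γ i = ∑ l ∈ Finset.range i, 2 ^ l * β l ^ 2 ^ (i - l) + 2 ^ i * β i := by
  induction n with
  | zero => exact ⟨γ, fun i hi => by obtain rfl : i = 0 := by omega
                                     simp⟩
  | succ n ih =>
    obtain ⟨β, hβ⟩ := ih fun i hi => hγ i (by omega)
    obtain ⟨h, hh⟩ := hγ n (by omega)
    have h1 : (2 : R) ^ (n + 1) ∣
        γ (n + 1) - ∑ l ∈ Finset.range (n + 1), 2 ^ l * β l ^ 2 ^ (n + 1 - l) := by
      have h2 : γ n = ∑ l ∈ Finset.range (n + 1), 2 ^ l * β l ^ 2 ^ (n - l) := by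
        rw [hβ n le_rfl, Finset.sum_range_succ]
        simp
      rw [hh, h2, map_sum, add_sub_right_comm, ← Finset.sum_sub_distrib]
      refine dvd_add (Finset.dvd_sum fun l hl => ?_) (dvd_mul_right _ _)
      have hl' : l ≤ n := by have := Finset.mem_range.1 hl; omega
      obtain ⟨k, rfl⟩ := Nat.exists_eq_add_of_le hl'
      obtain ⟨t, ht⟩ := hφ (β l)
      have h3 : ((2 : ℕ) : R) ∣ φ (β l) - β l ^ 2 := ⟨t, by rw [ht]; push_cast; ring⟩
      have h4 := dvd_sub_pow_of_dvd_sub h3 k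
      rw [map_mul, map_pow, map_pow, map_ofNat, ← mul_sub, Nat.add_sub_cancel_left,
        show l + k + 1 - l = k + 1 by omega, pow_succ' 2 k, pow_mul, add_assoc, pow_add]
      exact mul_dvd_mul_left _ (by simpa using h4)
    obtain ⟨b, hb⟩ := h1
    refine ⟨Function.update β (n + 1) b, fun i hi => ?_⟩
    have h5 : ∑ l ∈ Finset.range i, 2 ^ l * Function.update β (n + 1) b l ^ 2 ^ (i - l)
        = ∑ l ∈ Finset.range i, 2 ^ l * β l ^ 2 ^ (i - l) :=
      Finset.sum_congr rfl fun l hl => by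
        rw [Function.update_of_ne (by have := Finset.mem_range.1 hl; omega)]
    rw [h5]
    rcases eq_or_lt_of_le hi with rfl | hi'
    · rw [Function.update_self, ← hb]
      ring
    · rw [Function.update_of_ne (by omega)]
      exact hβ i (by omega)

theorem Dat.div (D : Dat φ x g c c' z) {d N : ℕ} (i : ℕ) {f : R}
    (hf : 2 ^ i * f ∈ M x (N + i) 0 d) : f ∈ M x N 0 d := by
  induction i generalizing N with
  | zero => simpa using hf
  | succ i ih =>
    have h1 : 2 ^ i * f ∈ M x (N + i) 0 d := by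
      obtain ⟨p, h, hp, e⟩ := M.poly hf
      obtain ⟨p', rfl⟩ := D.tr p (2 ^ i * f - 2 ^ (N + i) * h) (by linear_combination -e)
      have h2 : 2 ^ i * f = aeval x p' + 2 ^ (N + i) * h := by
        refine sub_eq_zero.1 (D.tf _ ?_)
        rw [map_mul, map_ofNat] at e
        linear_combination e
      rw [h2]
      refine add_mem (M.of_poly ?_) (M.err _)
      rwa [show (2 : ℤ[X]) = C 2 from rfl, natDegree_C_mul (by norm_num)] at hp
    exact ih h1

theorem Dat.deg (D : Dat φ x g c c' z) {γ β : ℕ → R} {n : ℕ}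
    (hγ : ∀ i ≤ n, γ i - 2 ^ i * x ^ 4 ^ i ∈ M x (i + 1) 0 (4 ^ i - 1))
    (hβ : ∀ i ≤ n, γ i = ∑ l ∈ Finset.range i, 2 ^ l * β l ^ 2 ^ (i - l) + 2 ^ i * β i) :
    ∀ i ≤ n, β i - x ^ 4 ^ i ∈ M x 1 0 (4 ^ i - 1) := by
  intro i
  induction i using Nat.strong_induction_on with
  | _ i ih =>
    intro hi
    refine D.div i ?_
    have h1 : 2 ^ i * (β i - x ^ 4 ^ i) = (γ i - 2 ^ i * x ^ 4 ^ i)
        - ∑ l ∈ Finset.range i, 2 ^ l * β l ^ 2 ^ (i - l) := by
      rw [hβ i hi]; ring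
    rw [h1, add_comm 1 i]
    refine sub_mem (hγ i hi) (sum_mem fun l hl => ?_)
    have hl' := Finset.mem_range.1 hl
    obtain ⟨k, rfl⟩ := Nat.exists_eq_add_of_lt hl'
    have h2 : β l ∈ M x 1 0 (4 ^ l) := by
      have h3 := ih l hl' (by omega)
      have h4 := add_mem (M.mono le_rfl le_rfl (Nat.sub_le _ _) h3) (M.pw (k := 4 ^ l) le_rfl)
      simpa using h4
    obtain ⟨p, h, hp, e⟩ := M.poly h2
    have h3 : ((2 : ℕ) : R) ∣ β l - aeval x p := ⟨h, by rw [e]; push_cast; ring⟩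
    obtain ⟨t, ht⟩ := dvd_sub_pow_of_dvd_sub h3 (k + 1)
    have h4 : β l ^ 2 ^ (k + 1) ∈ M x (k + 2) 0 (2 ^ (k + 1) * 4 ^ l) := by
      rw [eq_add_of_sub_eq ht]
      push_cast
      exact add_mem (M.err _) (M.pow (M.of_poly hp) _)
    rw [show l + k + 1 - l = k + 1 by omega]
    refine M.mono (by omega) le_rfl le_rfl (M.shift ?_ h4)
    have h5 : 2 ^ (k + 1) < 4 ^ (k + 1) := Nat.pow_lt_pow_left (by norm_num) (by omega)
    have h6 : 2 ^ (k + 1) * 4 ^ l < 4 ^ (k + 1) * 4 ^ l :=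
      Nat.mul_lt_mul_of_pos_right h5 (by positivity)
    rw [← pow_add, show k + 1 + l = l + k + 1 by omega] at h6
    omega

/-- `f` is a polynomial of degree at most `a` in `x`, `z` with denominators powers of `2` -/
def Tb (x z : R) (a : ℕ) (f : R) : Prop := ∃ e : ℕ, 2 ^ e * f ∈ Bx ℤ x z a

theorem Tb.mono {a b : ℕ} (h : a ≤ b) {f : R} (hf : Tb x z a f) : Tb x z b f :=
  hf.imp fun _ he => Bx.mono h he

theorem Tb.up {a e : ℕ} {f : R} (he : 2 ^ e * f ∈ Bx ℤ x z a) (t : ℕ) :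
    2 ^ (t + e) * f ∈ Bx ℤ x z a := by
  have := Bx.const_mul he (2 ^ t)
  push_cast at this
  rwa [pow_add, mul_assoc]

theorem Tb.sub {a : ℕ} {f f' : R} (hf : Tb x z a f) (hf' : Tb x z a f') : Tb x z a (f - f') := by
  obtain ⟨e, he⟩ := hf
  obtain ⟨e', he'⟩ := hf'
  refine ⟨e + e', ?_⟩
  rw [mul_sub]
  exact sub_mem (add_comm e e' ▸ Tb.up he e') (Tb.up he' e)

theorem Tb.add {a : ℕ} {f f' : R} (hf : Tb x z a f) (hf' : Tb x z a f') : Tb x z a (f + f') := by
  obtain ⟨e, he⟩ := hf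
  obtain ⟨e', he'⟩ := hf'
  refine ⟨e + e', ?_⟩
  rw [mul_add]
  exact add_mem (add_comm e e' ▸ Tb.up he e') (Tb.up he' e)

theorem Tb.sum {a : ℕ} (s : Finset ℕ) (f : ℕ → R) (hf : ∀ i ∈ s, Tb x z a (f i)) :
    Tb x z a (∑ i ∈ s, f i) :=
  Finset.sum_induction f _ (fun _ _ => Tb.add) ⟨0, by simp⟩ hf

theorem Tb.pow {a : ℕ} {f : R} (hf : Tb x z a f) (s n : ℕ) : Tb x z (n * a) (2 ^ s * f ^ n) := by
  obtain ⟨e, he⟩ := hf
  refine ⟨e * n, ?_⟩
  have := Tb.up (e := 0) (by simpa using Bx.pow he n) s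
  convert this using 1
  ring

theorem Tb.div {a : ℕ} {f : R} (i : ℕ) (hf : Tb x z a (2 ^ i * f)) : Tb x z a f := by
  obtain ⟨e, he⟩ := hf
  exact ⟨e + i, by rwa [pow_add, mul_assoc]⟩

/-- **part A** -/
theorem Dat.main (D : Dat φ x g c c' z) (n : ℕ) :
    ∃ (β h : R) (p : ℤ[X]), Tb x z (2 ^ n * (2 * n + 2)) β ∧ p.natDegree ≤ 4 ^ n - 1 ∧
      β = x ^ 4 ^ n + aeval x p + 2 * h := by
  have h1 : ∀ i, ∃ γ t : R, i ≤ n → γ = (φ ^ i) z + 2 ^ (n + 1) * t ∧
      Tb x z (2 ^ i * (2 * n + 2)) γ := by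
    intro i
    by_cases hi : i ≤ n
    swap
    · exact ⟨0, 0, fun h => absurd h hi⟩
    obtain ⟨k, rfl⟩ := Nat.exists_eq_add_of_le hi
    set n := i + k with hn
    have a1 := D.Cc_mem D.c'_mem (2 * n + 1) 0 i
    have a2 := D.Hh_mem (2 * n + 1) i
    rw [zero_add] at a1
    obtain ⟨p, u, hp, e⟩ := M.poly (M.trunc a1)
    obtain ⟨p', u', hp', e'⟩ := M.poly (M.trunc (M.mul a1 a2))
    have a3 := D.sum 0 i
    have a4 := D.Cc_inv 0 i
    rw [pow_zero, zero_add, RingHom.one_def, RingHom.id_apply] at a3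
    refine ⟨(φ ^ i) z + 2 ^ (n + 1) * (2 ^ k * (u' - u * z)), _, fun _ => ⟨rfl, i, ?_⟩⟩
    have a5 : 2 ^ i * ((φ ^ i) z + 2 ^ (n + 1) * (2 ^ k * (u' - u * z)))
        = aeval x p * z - aeval x p' := by
      have a6 : (2 : R) ^ (2 * n + 1) = 2 ^ i * 2 ^ (n + 1) * 2 ^ k := by
        rw [← pow_add, ← pow_add]
        congr 1
        omega
      rw [a6] at e e'
      linear_combination (-Cc φ c' 0 i) * a3 - 2 ^ i * (φ ^ i) z * a4 + z * e - e'
    rw [a5]
    have a7 : 1 ≤ 2 ^ i := Nat.one_le_two_pow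
    have a8 : 2 ^ i * (2 * n + 1 - 2) ≤ 2 ^ i * (2 * n) := Nat.mul_le_mul_left _ (by omega)
    have a9 : 2 ^ i * (2 * n + 2) = 2 ^ i * (2 * n) + 2 * 2 ^ i := by ring
    exact sub_mem (Bx.mono (by omega) (Bx.mul (bx_of_poly hp) Bx.right))
      (Bx.mono (by omega) (bx_of_poly hp'))
  choose γ t hγ using h1
  obtain ⟨β, hβ⟩ := witt D.frob γ n fun i hi => by
    obtain ⟨k, rfl⟩ := Nat.exists_eq_add_of_lt hi
    refine ⟨2 ^ (k + 1) * (t (i + 1) - φ (t i)), ?_⟩
    have : (φ ^ (i + 1)) z = φ ((φ ^ i) z) := by rw [pow_succ' φ]; rfl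
    rw [(hγ (i + 1) (by omega)).1, (hγ i (by omega)).1, this, map_add, map_mul, map_pow, map_ofNat]
    ring
  have h2 := D.deg (γ := γ) (n := n) (fun i hi => by
    rw [(hγ i hi).1, add_sub_right_comm]
    exact add_mem (D.top i) (M.mono (by omega) le_rfl le_rfl (M.err (N := n + 1) _))) hβ n le_rfl
  have h3 : ∀ i ≤ n, Tb x z (2 ^ i * (2 * n + 2)) (β i) := by
    intro i
    induction i using Nat.strong_induction_on with
    | _ i ih =>
      intro hi
      refine Tb.div i ?_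
      rw [← sub_eq_iff_eq_add'.2 (hβ i hi)]
      refine (hγ i hi).2.sub (Tb.sum _ _ fun l hl => ?_)
      have hl' := Finset.mem_range.1 hl
      refine ((ih l hl' (by omega)).pow l _).mono (le_of_eq ?_)
      rw [← mul_assoc, ← pow_add, show i - l + l = i by omega]
  obtain ⟨p, h, hp, e⟩ := M.poly h2
  exact ⟨β n, h, p, h3 n le_rfl, hp, by linear_combination e⟩

end Vale.Agent.P022K.UC.Qs
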