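import Vale.Agent.P022K.UC.QsA

/-!
# P022K, block UC: a polynomial Sturm bound for quasi-modular forms modulo `2`, part B
-/

set_option autoImplicit false

open Polynomial

noncomputable section

namespace Vale.Agent.P022K.UC.Qs

theorem Bx.map {A : Type*} [CommRing A] {R S : Type*} [CommRing R] [CommRing S] [Algebra A S]
    (ψ : R →+* S) {x y : R} {a : ℕ} {f : R} (hf : f ∈ Bx ℤ x y a) :
    ψ f ∈ Bx A (ψ x) (ψ y) a := by
  induction hf using Submodule.span_induction with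
  | mem f hf =>
    obtain ⟨i, j, hi, hj, rfl⟩ := hf
    rw [map_mul, map_pow, map_pow]
    exact Bx.mon hi hj
  | zero => simp
  | add f f' _ _ h1 h2 => rw [map_add]; exact add_mem h1 h2
  | smul c f _ h1 => rw [map_zsmul]; exact zsmul_mem h1 c

theorem Bx.lift {A : Type*} [CommRing A] {S : Type*} [CommRing S] [Algebra A S] {x y : S} {a : ℕ}
    {f : S} (hf : f ∈ Bx A x y a) : ∃ P : MvPolynomial (Fin 2) A,
      P ∈ Bx A (MvPolynomial.X 0) (MvPolynomial.X 1) a ∧ MvPolynomial.aeval ![x, y] P = f := by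
  induction hf using Submodule.span_induction with
  | mem f hf =>
    obtain ⟨i, j, hi, hj, rfl⟩ := hf
    exact ⟨_, Bx.mon hi hj, by simp⟩
  | zero => exact ⟨0, zero_mem _, map_zero _⟩
  | add f f' _ _ h1 h2 =>
    obtain ⟨P, hP, rfl⟩ := h1
    obtain ⟨P', hP', rfl⟩ := h2
    exact ⟨P + P', add_mem hP hP', map_add _ _ _⟩
  | smul c f _ h1 =>
    obtain ⟨P, hP, rfl⟩ := h1
    exact ⟨c • P, Submodule.smul_mem _ _ hP, map_smul _ _ _⟩

theorem Bx.card {A : Type*} [CommRing A] [Nontrivial A] {S : Type*} [CommRing S] [Algebra A S]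
    {x y : S} {a : ℕ} {ι : Type*} [Fintype ι] (v : ι → S) (hv : ∀ i, v i ∈ Bx A x y a)
    (h : LinearIndependent A v) : Fintype.card ι ≤ (a + 1) * (a + 1) := by
  classical
  let w : Finset S := (Finset.range (a + 1) ×ˢ Finset.range (a + 1)).image fun ij =>
    x ^ ij.1 * y ^ ij.2
  have h1 : Set.range v ≤ Submodule.span A (w : Set S) := by
    rintro _ ⟨i, rfl⟩
    refine Submodule.span_mono ?_ (hv i)
    rintro _ ⟨i, j, hi, hj, rfl⟩
    simp only [w, Finset.coe_image]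
    exact ⟨(i, j), by simp; omega, rfl⟩
  refine (linearIndependent_le_span_aux' v h _ h1).trans ?_
  simp only [Finset.coe_sort_coe, Fintype.card_coe]
  exact Finset.card_image_le.trans (by simp)

theorem mon_indep {A : Type*} [CommRing A] {a : ℕ} (t : Fin a × Fin a → A)
    (h : ∑ ij, t ij • ((MvPolynomial.X 0 : MvPolynomial (Fin 2) A) ^ (ij.1 : ℕ) *
      MvPolynomial.X 1 ^ (ij.2 : ℕ)) = 0) : t = 0 := by
  let e : Fin a × Fin a → (Fin 2 →₀ ℕ) := fun ij =>
    Finsupp.single 0 (ij.1 : ℕ) + Finsupp.single 1 (ij.2 : ℕ)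
  have he : Function.Injective e := by
    intro ij ij' h
    have h0 := DFunLike.congr_fun h 0
    have h1 := DFunLike.congr_fun h 1
    simp [e] at h0 h1
    exact Prod.ext (Fin.ext h0) (Fin.ext h1)
  have h1 := (MvPolynomial.basisMonomials (Fin 2) A).linearIndependent.comp e he
  rw [Fintype.linearIndependent_iff] at h1
  funext ij
  refine h1 t ?_ ij
  rw [← h]
  refine Finset.sum_congr rfl fun ij _ => ?_
  simp [e, MvPolynomial.X_pow_eq_monomial, MvPolynomial.monomial_mul]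

theorem dig_indep {k : Type*} [Field k] {B : k[X]} (hB : B.Monic) {D m : ℕ} (hD : B.natDegree = D)
    (r : Fin D × Fin m → k) (hr : r ≠ 0) :
    (∑ ij, r ij • (X ^ (ij.1 : ℕ) * B ^ (ij.2 : ℕ))) ≠ 0 ∧
      (∑ ij, r ij • (X ^ (ij.1 : ℕ) * B ^ (ij.2 : ℕ))).natDegree ≤ D * m := by
  classical
  have hm : ∀ ij : Fin D × Fin m, (X ^ (ij.1 : ℕ) * B ^ (ij.2 : ℕ)).Monic := fun ij =>
    (monic_X_pow _).mul (hB.pow _)
  have hd : ∀ ij : Fin D × Fin m, (X ^ (ij.1 : ℕ) * B ^ (ij.2 : ℕ)).natDegree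
      = (ij.1 : ℕ) + D * (ij.2 : ℕ) := fun ij => by
    rw [(monic_X_pow _).natDegree_mul (hB.pow _), natDegree_X_pow, hB.natDegree_pow, hD, mul_comm]
  constructor
  · obtain ⟨ij, hij, hmax⟩ := Finset.exists_max_image (Finset.univ.filter fun ij => r ij ≠ 0)
      (fun ij => (ij.1 : ℕ) + D * (ij.2 : ℕ)) (by
        obtain ⟨ij, h⟩ := Function.ne_iff.1 hr
        exact ⟨ij, by simpa using h⟩)
    intro h
    have h1 := congrArg (fun p : k[X] => p.coeff ((ij.1 : ℕ) + D * (ij.2 : ℕ))) h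
    simp only [finsetSum_coeff, coeff_smul, coeff_zero] at h1
    rw [Finset.sum_eq_single ij] at h1
    · rw [← hd ij, (hm ij).coeff_natDegree] at h1
      simp at h1 hij
      exact hij h1
    · intro kl _ hne
      by_cases h0 : r kl = 0
      · simp [h0]
      have h2 := hmax kl (by simpa using h0)
      rw [coeff_eq_zero_of_natDegree_lt, smul_zero]
      rw [hd]
      refine lt_of_le_of_ne h2 fun h3 => hne ?_
      have h4 : (kl.1 : ℕ) = ij.1 := by
        have := congrArg (· % D) h3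
        simpa [Nat.mod_eq_of_lt kl.1.2, Nat.mod_eq_of_lt ij.1.2] using this
      have h5 : (kl.2 : ℕ) = ij.2 :=
        Nat.eq_of_mul_eq_mul_left (lt_of_le_of_lt (Nat.zero_le _) ij.1.2) (by omega)
      exact Prod.ext (Fin.ext h4) (Fin.ext h5)
    · simp
  · refine natDegree_sum_le_of_forall_le _ _ fun ij _ => (natDegree_smul_le _ _).trans ?_
    rw [hd]
    have h1 := ij.1.2
    have h2 : D * ((ij.2 : ℕ) + 1) ≤ D * m := Nat.mul_le_mul_left _ ij.2.2
    rw [mul_add] at h2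
    omega

theorem ord_le {k : Type*} [Field k] {x : PowerSeries k} (h0 : PowerSeries.constantCoeff x = 0)
    (h1 : PowerSeries.coeff 1 x ≠ 0) {p : k[X]} (hp : p ≠ 0) {n : ℕ}
    (h : PowerSeries.X ^ n ∣ aeval x p) : n ≤ p.natDegree := by
  obtain ⟨v, rfl⟩ := PowerSeries.X_dvd_iff.2 h0
  obtain ⟨q, hq, hq'⟩ := exists_eq_pow_rootMultiplicity_mul_and_not_dvd p hp 0
  generalize rootMultiplicity 0 p = s at hq
  simp only [map_zero, sub_zero] at hq hq'
  have hq0 : q ≠ 0 := by rintro rfl; simp at hq'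
  have h2 : s ≤ p.natDegree := by
    rw [hq, natDegree_mul (pow_ne_zero _ X_ne_zero) hq0, natDegree_X_pow]
    omega
  by_contra hn
  have h3 := PowerSeries.X_pow_dvd_iff.1 h s (by omega)
  rw [hq, map_mul, aeval_X_pow, mul_pow, mul_assoc] at h3
  have h4 := PowerSeries.coeff_X_pow_mul (v ^ s * aeval (PowerSeries.X * v) q) s 0
  rw [zero_add, h3, PowerSeries.coeff_zero_eq_constantCoeff_apply, map_mul, map_pow] at h4
  have h5 : PowerSeries.constantCoeff v ≠ 0 := by
    have := PowerSeries.coeff_succ_X_mul 0 v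
    rw [zero_add] at this
    rwa [this, PowerSeries.coeff_zero_eq_constantCoeff_apply] at h1
  have h6 : PowerSeries.constantCoeff (aeval (PowerSeries.X * v) q) = q.coeff 0 := by
    have := congrArg (aeval (PowerSeries.X * v)) (X_mul_divX_add q)
    rw [← this, map_add, map_mul, aeval_X, aeval_C]
    simp
  rw [h6] at h4
  exact mul_ne_zero (pow_ne_zero _ h5) (fun h => hq' (X_dvd_iff.2 h)) h4.symm

theorem map_aeval_int {R S k : Type*} [CommRing R] [CommRing S] [CommRing k] [Algebra k S]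
    (χ : R →+* S) (x : R) (p : ℤ[X]) :
    χ (aeval x p) = aeval (χ x) (p.map (Int.castRingHom k)) := by
  induction p using Polynomial.induction_on' with
  | add p q hp hq => rw [Polynomial.map_add, map_add, map_add, map_add, hp, hq]
  | monomial n a => simp [aeval_monomial]

variable {O : Type*} [CommRing O] [IsDomain O] [IsDiscreteValuationRing O]

/-- reduction of a series -/
def rd : PowerSeries O →+* PowerSeries (IsLocalRing.ResidueField O) :=
  PowerSeries.map (IsLocalRing.residue O)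

theorem rd_eq_zero {π : O} (hπ : Irreducible π) {f : PowerSeries O} :
    rd f = 0 ↔ ∃ g, f = PowerSeries.C π * g := by
  constructor
  · intro h
    have h1 : ∀ n, ∃ b, PowerSeries.coeff n f = π * b := fun n => by
      have := congrArg (PowerSeries.coeff n) h
      rw [rd, PowerSeries.coeff_map, map_zero, IsLocalRing.residue_eq_zero_iff,
        hπ.maximalIdeal_eq, Ideal.mem_span_singleton] at this
      exact this
    choose b hb using h1
    exact ⟨PowerSeries.mk b, PowerSeries.ext fun n => by simp [hb]⟩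
  · rintro ⟨g, rfl⟩
    have : IsLocalRing.residue O π = 0 := by
      rw [IsLocalRing.residue_eq_zero_iff]
      exact hπ.not_isUnit
    simp [rd, this]

theorem gauss {o : O} (ho : o ≠ 0) {r u T : PowerSeries O} (hu : rd u ≠ 0)
    (h : PowerSeries.C o * r = u * T) : ∃ T', r = u * T' := by
  obtain ⟨π, hπ⟩ := IsDiscreteValuationRing.exists_irreducible O
  obtain ⟨n, e, rfl⟩ := IsDiscreteValuationRing.eq_unit_mul_pow_irreducible ho hπ
  induction n generalizing T with
  | zero =>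
    refine ⟨PowerSeries.C ((e⁻¹ : Oˣ) : O) * T, ?_⟩
    rw [mul_left_comm, ← h, ← mul_assoc, ← map_mul]
    simp
  | succ n ih =>
    have h1 : rd u * rd T = 0 := by
      rw [← map_mul, ← h, rd_eq_zero hπ]
      exact ⟨PowerSeries.C (e * π ^ n) * r, by rw [← mul_assoc, ← map_mul]; congr 2; ring⟩
    obtain ⟨T', rfl⟩ := (rd_eq_zero hπ).1 ((mul_eq_zero.1 h1).resolve_left hu)
    refine ih (mul_ne_zero e.ne_zero (pow_ne_zero _ hπ.ne_zero)) (T := T') ?_
    have h2 : (PowerSeries.C π : PowerSeries O) ≠ 0 := fun h =>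
      hπ.ne_zero (PowerSeries.C_injective (h.trans (map_zero _).symm))
    refine mul_left_cancel₀ h2 ?_
    rw [mul_left_comm _ u, ← h, ← mul_assoc, ← map_mul]
    congr 2
    ring

theorem prim {ι : Type*} [Fintype ι] (r : ι → O) (hr : r ≠ 0) :
    ∃ (o : O) (r' : ι → O), o ≠ 0 ∧ (∀ i, r i = o * r' i) ∧
      (fun i => IsLocalRing.residue O (r' i)) ≠ 0 := by
  obtain ⟨i, hi⟩ := Function.ne_iff.1 hr
  have : Nonempty ι := ⟨i⟩
  let m := Function.argmin fun m => IsDiscreteValuationRing.addVal O (r m)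
  have h3 : ∀ k, r m ∣ r k := fun k =>
    IsDiscreteValuationRing.addVal_le_iff_dvd.1 (Function.argmin_le
      (fun m => IsDiscreteValuationRing.addVal O (r m)) k)
  have h4 : r m ≠ 0 := fun h => hi (zero_dvd_iff.1 (h ▸ h3 i))
  choose r' hr' using h3
  refine ⟨r m, r', h4, hr', fun h => ?_⟩
  have h5 : r' m = 1 := mul_left_cancel₀ h4 (by rw [← hr' m, mul_one])
  have := congrFun h m
  simp [h5] at this

theorem count {W A D m : ℕ} (h : 2 * W * (A + W + 1) < D * m) :
    (A + W + 1) * (A + W + 1) < D * m + (A + 1) * (A + 1) := by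
  nlinarith [Nat.zero_le (W * W)]

/-- **part B** -/
theorem core {x z β : PowerSeries O} {o : O} (ho : o ≠ 0) {a D m W : ℕ}
    (hβ : PowerSeries.C o * β ∈ Bx O x z a) {B : (IsLocalRing.ResidueField O)[X]} (hB : B.Monic)
    (hD : B.natDegree = D) (hB' : rd β = aeval (rd x) B)
    (h0 : PowerSeries.constantCoeff (rd x) = 0) (h1 : PowerSeries.coeff 1 (rd x) ≠ 0)
    (hc : 2 * W * (D + m * a + W + 1) < D * m) {P : MvPolynomial (Fin 2) O}
    (hP : P ∈ Bx O (MvPolynomial.X 0) (MvPolynomial.X 1) W) (hP0 : P ≠ 0) {u T : PowerSeries O}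
    (e : u * T = MvPolynomial.aeval ![x, z] P) (hu : rd u ≠ 0) {n : ℕ}
    (hn : PowerSeries.X ^ n ∣ rd u) : n ≤ D * m := by
  classical
  obtain ⟨Q, hQ, hQ'⟩ := Bx.lift hβ
  set A := D + m * a with hA
  let v : (Fin D × Fin m) ⊕ (Fin (A + 1) × Fin (A + 1)) → MvPolynomial (Fin 2) O :=
    Sum.elim (fun ij => o ^ (m - ij.2) • (MvPolynomial.X 0 ^ (ij.1 : ℕ) * Q ^ (ij.2 : ℕ)))
      fun ij => P * (MvPolynomial.X 0 ^ (ij.1 : ℕ) * MvPolynomial.X 1 ^ (ij.2 : ℕ))
  have hv : ∀ i, v i ∈ Bx O (MvPolynomial.X 0) (MvPolynomial.X 1) (A + W) := by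
    rintro (ij | ij)
    · refine Submodule.smul_mem _ _ (Bx.mono ?_ (Bx.mul (Bx.pow Bx.left _) (Bx.pow hQ _)))
      have k1 := ij.1.2
      have k2 : (ij.2 : ℕ) * a ≤ m * a := Nat.mul_le_mul_right _ ij.2.2.le
      omega
    · exact add_comm W A ▸ Bx.mul hP (Bx.mon (Nat.lt_succ_iff.1 ij.1.2) (Nat.lt_succ_iff.1 ij.2.2))
  have hdep : ¬ LinearIndependent O v := fun h => by
    have := Bx.card v hv h
    simp only [Fintype.card_sum, Fintype.card_prod, Fintype.card_fin] at this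
    exact absurd (count hc) (not_lt.2 this)
  obtain ⟨s, hs, i0, hi0⟩ := Fintype.not_linearIndependent_iff.1 hdep
  rw [Fintype.sum_sum_type] at hs
  simp only [v, Sum.elim_inl, Sum.elim_inr, ← mul_smul_comm _ P, ← Finset.mul_sum] at hs
  have hr : (fun ij => s (Sum.inl ij)) ≠ 0 := fun h => by
    have k1 : ∀ ij, s (Sum.inl ij) = 0 := congrFun h
    simp only [k1, zero_smul, Finset.sum_const_zero, zero_add] at hs
    have k2 := mon_indep _ ((mul_eq_zero.1 hs).resolve_left hP0)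
    rcases i0 with ij | ij
    · exact hi0 (k1 ij)
    · exact hi0 (congrFun k2 ij)
  obtain ⟨o', r, ho', hr1, hr2⟩ := prim _ hr
  generalize (∑ ij : Fin (A + 1) × Fin (A + 1), s (Sum.inr ij) •
    ((MvPolynomial.X 0 : MvPolynomial (Fin 2) O) ^ (ij.1 : ℕ) * MvPolynomial.X 1 ^ (ij.2 : ℕ))) = T'
    at hs
  have k3 : PowerSeries.C (o' * o ^ m) * ∑ ij : Fin D × Fin m,
      PowerSeries.C (r ij) * (x ^ (ij.1 : ℕ) * β ^ (ij.2 : ℕ))
      = u * (-T * MvPolynomial.aeval ![x, z] T') := by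
    have k4 := congrArg (MvPolynomial.aeval ![x, z]) hs
    rw [map_add, map_zero, map_mul, ← e, map_sum] at k4
    rw [Finset.mul_sum, neg_mul, mul_neg, ← mul_assoc, eq_neg_iff_add_eq_zero, ← k4]
    congr 1
    refine Finset.sum_congr rfl fun ij _ => ?_
    obtain ⟨t, ht⟩ := Nat.exists_eq_add_of_le ij.2.2.le
    have k5 : m - (ij.2 : ℕ) = t := by omega
    have k6 : o ^ m = o ^ (ij.2 : ℕ) * o ^ t := by rw [← pow_add, ← ht]
    simp only [map_mul, map_smul, map_pow, MvPolynomial.aeval_X, Matrix.cons_val_zero, hQ',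
      hr1 ij, k5, k6, PowerSeries.smul_eq_C_mul]
    ring
  obtain ⟨T'', k7⟩ := gauss (mul_ne_zero ho' (pow_ne_zero _ ho)) hu k3
  obtain ⟨k8, k9⟩ := dig_indep hB hD _ hr2
  refine (ord_le h0 h1 k8 ?_).trans k9
  refine hn.trans ⟨rd T'', ?_⟩
  rw [← map_mul, ← k7, map_sum, map_sum]
  refine Finset.sum_congr rfl fun ij _ => ?_
  rw [map_smul, map_mul, map_mul, map_mul, map_pow, map_pow, map_pow, map_pow, aeval_X, hB',
    PowerSeries.smul_eq_C_mul, rd, PowerSeries.map_C]

theorem arith (W : ℕ) : ∃ n : ℕ, 2 * W * (4 ^ n + (4 * W + 1) * (2 ^ n * (2 * n + 2)) + W + 1)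
    < 4 ^ n * (4 * W + 1) ∧ 4 ^ n * (4 * W + 1) ≤ 2 ^ 22 * (W + 1) ^ 5 := by
  obtain ⟨t, h1, h2⟩ : ∃ t, W < 2 ^ t ∧ 2 ^ t ≤ 2 * (W + 1) := by
    refine ⟨Nat.log 2 W + 1, Nat.lt_pow_succ_log_self (by norm_num) W, ?_⟩
    rcases Nat.eq_zero_or_pos W with rfl | hW
    · simp
    · have := Nat.pow_log_le_self 2 hW.ne'
      rw [pow_succ]
      omega
  have h3 : t < 2 ^ t := Nat.lt_two_pow_self
  refine ⟨2 * t + 8, ?_, ?_⟩
  · have h4 : (4 : ℕ) ^ (2 * t + 8) = 2 ^ (2 * t + 8) * 2 ^ (2 * t + 8) := by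
      rw [← mul_pow]
      norm_num
    have h5 : (2 : ℕ) ^ (2 * t + 8) = 256 * (2 ^ t * 2 ^ t) := by ring
    rw [h4]
    generalize 2 ^ t = y at *
    generalize 2 ^ (2 * t + 8) = u at *
    have h6 : (4 * W + 1) * (2 * (2 * t + 8) + 2) + W + 1 < u := by nlinarith
    have h7 : 0 < u := by omega
    have h8 : (4 * W + 1) * (u * (2 * (2 * t + 8) + 2)) + W + 1 < u * u := by nlinarith
    nlinarith
  · have h4 : (4 : ℕ) ^ (2 * t + 8) = 2 ^ 16 * (2 ^ t) ^ 4 := by
      rw [show (4 : ℕ) = 2 ^ 2 by norm_num, ← pow_mul, ← pow_mul, ← pow_add]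
      congr 1
      ring
    have h5 := Nat.pow_le_pow_left h2 4
    calc 4 ^ (2 * t + 8) * (4 * W + 1) ≤ 2 ^ 16 * (2 * (W + 1)) ^ 4 * (4 * (W + 1)) := by
          rw [h4]
          exact Nat.mul_le_mul (Nat.mul_le_mul_left _ h5) (by omega)
      _ = 2 ^ 22 * (W + 1) ^ 5 := by ring

/-- **the bound** for polynomials in `x`, `z` -/
theorem Dat.sturm' {R : Type*} [CommRing R] {φ : R →+* R} {x g c c' z : R} (D : Dat φ x g c c' z)
    (ψ : R →+* PowerSeries O) (h2 : (2 : O) ≠ 0) (h2' : ¬ IsUnit (2 : O))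
    (h0 : PowerSeries.constantCoeff (ψ x) = 0) (h1 : PowerSeries.coeff 1 (ψ x) = 1) {W : ℕ}
    {P : MvPolynomial (Fin 2) O} (hP : P ∈ Bx O (MvPolynomial.X 0) (MvPolynomial.X 1) W)
    (hP0 : P ≠ 0) {u T : PowerSeries O} (e : u * T = MvPolynomial.aeval ![ψ x, ψ z] P)
    (hu : rd u ≠ 0) {n : ℕ} (hn : PowerSeries.X ^ n ∣ rd u) : n ≤ 2 ^ 22 * (W + 1) ^ 5 := by
  obtain ⟨N, k1, k2⟩ := arith W
  obtain ⟨β, h, p, ⟨s, k3⟩, k4, k5⟩ := D.main N
  let k := IsLocalRing.ResidueField O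
  have k6 : (p.map (Int.castRingHom k)).degree < (X ^ 4 ^ N : k[X]).degree := by
    rw [degree_X_pow]
    refine degree_map_le.trans_lt (degree_le_natDegree.trans_lt ?_)
    have : 0 < 4 ^ N := by positivity
    exact_mod_cast (by omega : p.natDegree < 4 ^ N)
  have k7 : rd (2 : PowerSeries O) = 0 := by
    have : IsLocalRing.residue O 2 = 0 := by
      rw [IsLocalRing.residue_eq_zero_iff]
      exact h2'
    rw [show (2 : PowerSeries O) = PowerSeries.C 2 from (map_ofNat _ 2).symm, rd,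
      PowerSeries.map_C, this, map_zero]
  refine (core (β := ψ β) (o := 2 ^ s) (pow_ne_zero _ h2) (a := 2 ^ N * (2 * N + 2))
    (B := X ^ 4 ^ N + p.map (Int.castRingHom k)) ?_ ((monic_X_pow _).add_of_left k6) ?_ ?_ ?_ ?_
    k1 hP hP0 e hu hn).trans k2
  · have := Bx.map (A := O) ψ k3
    rw [map_mul, map_pow, map_ofNat] at this
    rwa [map_pow, map_ofNat]
  · rw [natDegree_add_eq_left_of_degree_lt k6, natDegree_X_pow]
  · have k8 : rd (ψ (aeval x p)) = aeval (rd (ψ x)) (p.map (Int.castRingHom k)) := by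
      exact map_aeval_int ((rd (O := O)).comp ψ) x p
    rw [k5]
    simp only [map_add, map_mul, map_pow, map_ofNat, aeval_X, k8]
    rw [← map_ofNat (rd (O := O)) 2, k7]
    simp
  · rw [rd, ← PowerSeries.coeff_zero_eq_constantCoeff_apply, PowerSeries.coeff_map,
      PowerSeries.coeff_zero_eq_constantCoeff_apply, h0, map_zero]
  · rw [rd, PowerSeries.coeff_map, h1, map_one]
    exact one_ne_zero

end Vale.Agent.P022K.UC.Qs
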