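import Vale.Agent.P022K.UC.QsB
import Vale.Agent.P022K.UC.Ram

/-!
# P022K, block UC: a polynomial Sturm bound for quasi-modular forms modulo `2`, part C

The identities of the isogeny of degree two, from the differential equations.
-/

set_option autoImplicit false

open PowerSeries

noncomputable section

namespace Vale.Agent.P022K.UC.Qs

open Rm

/-- `q ↦ q ^ 2` -/
def ph : ℤ⟦X⟧ →+* ℤ⟦X⟧ := (PowerSeries.expand 2 two_ne_zero : ℤ⟦X⟧ →ₐ[ℤ] ℤ⟦X⟧).toRingHom

theorem coeff_ph (f : ℤ⟦X⟧) (n : ℕ) : coeff n (ph f) = if 2 ∣ n then coeff (n / 2) f else 0 :=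
  PowerSeries.coeff_expand 2 two_ne_zero f

theorem cc_ph (f : ℤ⟦X⟧) : constantCoeff (ph f) = constantCoeff f :=
  PowerSeries.constantCoeff_expand 2 two_ne_zero f

theorem th_ph (f : ℤ⟦X⟧) : th ℤ (ph f) = 2 * ph (th ℤ f) := by
  ext n
  rw [show (2 : ℤ⟦X⟧) = C 2 from (map_ofNat _ 2).symm, coeff_C_mul, coeff_th, coeff_ph, coeff_ph]
  split_ifs with h
  · obtain ⟨m, rfl⟩ := h
    rw [coeff_th, Nat.mul_div_cancel_left _ two_pos]
    push_cast
    ring
  · simp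

theorem two_dvd {f : ℤ⟦X⟧} (h : PowerSeries.map (Int.castRingHom (ZMod 2)) f = 0) :
    ∃ g, f = 2 * g := by
  have h1 : ∀ n, ∃ b, coeff n f = 2 * b := fun n => by
    have := congrArg (coeff n) h
    rw [coeff_map, map_zero] at this
    exact (ZMod.intCast_zmod_eq_zero_iff_dvd _ 2).1 this
  choose b hb using h1
  refine ⟨PowerSeries.mk b, PowerSeries.ext fun n => ?_⟩
  rw [show (2 : ℤ⟦X⟧) = C 2 from (map_ofNat _ 2).symm, coeff_C_mul, hb, coeff_mk]

theorem ph_frob (f : ℤ⟦X⟧) : ∃ h, ph f = f ^ 2 + 2 * h := by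
  have h1 := MvPowerSeries.map_frobenius_expand 2 two_ne_zero
    (f := PowerSeries.map (Int.castRingHom (ZMod 2)) f)
  rw [ZMod.frobenius_zmod, MvPowerSeries.map_id] at h1
  obtain ⟨g, hg⟩ := two_dvd (f := ph f - f ^ 2) (by
    rw [map_sub, map_pow, ← h1, sub_eq_zero]
    exact PowerSeries.map_expand 2 two_ne_zero _ f)
  exact ⟨g, by linear_combination hg⟩

theorem coeff_mul_dvd {n : ℕ} {f : ℤ⟦X⟧} (h : X ^ n ∣ f) (g : ℤ⟦X⟧) :
    coeff n (g * f) = constantCoeff g * coeff n f := by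
  obtain ⟨u, rfl⟩ := h
  have h1 := coeff_X_pow_mul (g * u) n 0
  have h2 := coeff_X_pow_mul u n 0
  rw [zero_add, coeff_zero_eq_constantCoeff_apply] at h1 h2
  rw [mul_left_comm, h1, h2, map_mul]

theorem th_nat (n : ℕ) [n.AtLeastTwo] : th ℤ (OfNat.ofNat n : ℤ⟦X⟧) = 0 :=
  Derivation.map_natCast _ n

/-- uniqueness for a linear system -/
theorem uniq {U V W m₁ m₂ m₃ m₄ m₅ m₆ : ℤ⟦X⟧} (h₁ : 12 * th ℤ U = m₁ * U + 4 * V + 4 * W)
    (h₂ : 12 * th ℤ V = m₂ * U + m₃ * V) (h₃ : 12 * th ℤ W = m₄ * U + m₅ * V + m₆ * W)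
    (c₁ : constantCoeff m₁ = 18) (c₂ : constantCoeff m₂ = -9) (c₃ : constantCoeff m₃ = -6)
    (c₄ : constantCoeff m₄ = 18) (c₅ : constantCoeff m₅ = -12) (c₆ : constantCoeff m₆ = 12)
    (u₀ : coeff 0 U = 0) (u₂ : coeff 2 U = 0) : U = 0 ∧ V = 0 ∧ W = 0 := by
  have h : ∀ n, X ^ n ∣ U ∧ X ^ n ∣ V ∧ X ^ n ∣ W := by
    intro n
    induction n with
    | zero => simp
    | succ n ih =>
      obtain ⟨hU, hV, hW⟩ := ih
      have k1 := congrArg (coeff n) h₁
      have k2 := congrArg (coeff n) h₂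
      have k3 := congrArg (coeff n) h₃
      rw [show (12 : ℤ⟦X⟧) = C 12 from (map_ofNat _ 12).symm, coeff_C_mul, coeff_th] at k1 k2 k3
      simp only [map_add, coeff_mul_dvd hU, coeff_mul_dvd hV, coeff_mul_dvd hW, c₁, c₂, c₃, c₄, c₅,
        c₆, map_ofNat] at k1 k2 k3
      have k4 : coeff n U = 0 := by
        by_cases h0 : n = 0
        · exact h0 ▸ u₀
        by_cases h2 : n = 2
        · exact h2 ▸ u₂
        have k5 : (1728 * (n : ℤ) ^ 2 * (n - 2)) * coeff n U = 0 := by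
          linear_combination (12 * n + 6) * (12 * n - 12) * k1 + (48 * n - 96) * k2
            + 4 * (12 * n + 6) * k3
        refine (mul_eq_zero.1 k5).resolve_left (mul_ne_zero (by positivity) ?_)
        omega
      have k5 : coeff n V = 0 := by
        have k6 : (12 * (n : ℤ) + 6) * coeff n V = 0 := by linear_combination k2 - 9 * k4
        exact (mul_eq_zero.1 k6).resolve_left (by positivity)
      have k6 : coeff n W = 0 := by
        rw [k4, k5] at k1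
        omega
      simp only [X_pow_dvd_iff] at hU hV hW ⊢
      refine ⟨fun m hm => ?_, fun m hm => ?_, fun m hm => ?_⟩ <;>
        rcases Nat.lt_succ_iff_lt_or_eq.1 hm with h | rfl <;> simp [*]
  refine ⟨?_, ?_, ?_⟩ <;> ext n
  · exact X_pow_dvd_iff.1 (h (n + 1)).1 n (by omega)
  · exact X_pow_dvd_iff.1 (h (n + 1)).2.1 n (by omega)
  · exact X_pow_dvd_iff.1 (h (n + 1)).2.2 n (by omega)

/-- the form of weight two and level two -/
def aa : ℤ⟦X⟧ := 2 * ph (E2 ℤ) - E2 ℤ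

theorem cc_aa : constantCoeff aa = 1 := by
  rw [aa, map_sub, map_mul, cc_ph, cc_Es, map_ofNat]
  norm_num

theorem isog : 5 * aa ^ 2 - E4 ℤ - 4 * ph (E4 ℤ) = 0 ∧ E6 ℤ + 3 * aa * E4 ℤ - 4 * aa ^ 3 = 0 ∧
    8 * ph (E6 ℤ) - 11 * aa ^ 3 + 3 * aa * E4 ℤ = 0 := by
  have r1 := th_E2 ℤ
  have r2 := th_E4 ℤ
  have r3 := th_E6 ℤ
  have s1 := congrArg ph r1
  have s2 := congrArg ph r2
  have s3 := congrArg ph r3
  simp only [map_mul, map_sub, map_pow, map_ofNat] at s1 s2 s3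
  have ha : aa = 2 * ph (E2 ℤ) - E2 ℤ := rfl
  have ta : th ℤ aa = 4 * ph (th ℤ (E2 ℤ)) - th ℤ (E2 ℤ) := by
    rw [ha, map_sub, th_mul, th_ph, th_nat]
    ring
  refine uniq (m₁ := 14 * aa + 4 * E2 ℤ) (m₂ := 3 * E4 ℤ - 12 * aa ^ 2) (m₃ := 6 * E2 ℤ - 12 * aa)
    (m₄ := 27 * aa ^ 2 - 9 * E4 ℤ - 6 * (5 * aa ^ 2 - E4 ℤ - 4 * ph (E4 ℤ))) (m₅ := -12 * aa)
    (m₆ := 6 * (aa + E2 ℤ)) ?_ ?_ ?_ ?_ ?_ ?_ ?_ ?_ ?_ ?_ ?_
  · simp only [pow_succ, pow_zero, one_mul, map_sub, th_mul, th_nat 5, th_nat 4, th_ph, ta]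
    rw [ha]
    linear_combination (10 * (2 * ph (E2 ℤ) - E2 ℤ)) * (4 * s1 - r1) - 4 * r2 - 32 * s2
  · simp only [pow_succ, pow_zero, one_mul, map_sub, map_add, th_mul, th_nat 3, th_nat 4, ta]
    rw [ha]
    linear_combination (3 * E4 ℤ - 12 * (2 * ph (E2 ℤ) - E2 ℤ) ^ 2) * (4 * s1 - r1) + 6 * r3
      + 12 * (2 * ph (E2 ℤ) - E2 ℤ) * r2
  · simp only [pow_succ, pow_zero, one_mul, map_sub, map_add, th_mul, th_nat 3, th_nat 8, th_nat 11,
      th_ph, ta]
    rw [ha]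
    linear_combination (3 * E4 ℤ - 33 * (2 * ph (E2 ℤ) - E2 ℤ) ^ 2) * (4 * s1 - r1) + 96 * s3
      + 12 * (2 * ph (E2 ℤ) - E2 ℤ) * r2
  any_goals
    simp only [map_add, map_sub, map_mul, map_pow, map_neg, map_ofNat, cc_aa, cc_Es, cc_ph,
      coeff_zero_eq_constantCoeff_apply]
    norm_num
  have e : ∀ n, coeff n aa = 2 * coeff n (ph (E2 ℤ)) - coeff n (E2 ℤ) := fun n => by
    rw [ha, map_sub, show (2 : ℤ⟦X⟧) = C 2 from (map_ofNat _ 2).symm, coeff_C_mul]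
  have g1 : ArithmeticFunction.sigma 1 2 = 3 := by decide
  have g3 : ArithmeticFunction.sigma 3 2 = 9 := by decide
  have a1 : coeff 1 aa = 24 := by rw [e, coeff_ph]; simp [coeff_Es]
  have a2 : coeff 2 aa = 24 := by rw [e, coeff_ph]; simp [coeff_Es, g1]
  rw [show (5 : ℤ⟦X⟧) = C 5 from (map_ofNat _ 5).symm,
    show (4 : ℤ⟦X⟧) = C 4 from (map_ofNat _ 4).symm, coeff_C_mul, coeff_C_mul, pow_two, coeff_mul,
    Finset.Nat.sum_antidiagonal_succ, Finset.Nat.sum_antidiagonal_succ, coeff_ph]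
  simp [a1, a2, g3, cc_aa, coeff_Es]

/-- the form `∑ σ(2 n + 1) q ^ (2 n + 1)` -/
def FF : ℤ⟦X⟧ := sg ℤ 1 - 3 * ph (sg ℤ 1) + 2 * ph (ph (sg ℤ 1))

theorem E2_eq : E2 ℤ = 1 - 24 * sg ℤ 1 := by
  rw [E2, Es_eq]
  push_cast
  ring

theorem aa_eq : aa = 1 + 24 * sg ℤ 1 - 48 * ph (sg ℤ 1) := by
  rw [aa, E2_eq, map_sub, map_mul, map_one, map_ofNat]
  ring

theorem ph_aa : ph aa = aa - 24 * FF := by
  rw [aa_eq, FF]
  simp only [map_add, map_sub, map_mul, map_one, map_ofNat]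
  ring

theorem E4_eq : E4 ℤ = aa ^ 2 + 192 * (FF * (aa - 16 * FF)) := by
  obtain ⟨h1, h2, h3⟩ := isog
  have h4 := congrArg ph h2
  simp only [map_add, map_sub, map_mul, map_pow, map_ofNat, map_zero, ph_aa] at h4
  have h5 : (3 * (3 * aa - 48 * FF)) * (E4 ℤ - (aa ^ 2 + 192 * (FF * (aa - 16 * FF)))) = 0 := by
    linear_combination h3 - 8 * h4 - 6 * (aa - 24 * FF) * h1
  refine sub_eq_zero.1 ((mul_eq_zero.1 h5).resolve_left fun h => ?_)
  have h6 : 3 * (3 * aa - 48 * FF) = 3 * (2 * ph aa + aa) := by rw [ph_aa]; ring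
  have := congrArg constantCoeff (h6 ▸ h)
  simp only [map_add, map_mul, map_ofNat, cc_ph, cc_aa, map_zero] at this
  norm_num at this

theorem E6_eq : E6 ℤ = aa ^ 3 - 576 * aa * (FF * (aa - 16 * FF)) := by
  have h := isog.2.1
  rw [E4_eq] at h
  linear_combination h

theorem ph_bb : ph (FF * (aa - 16 * FF)) = FF ^ 2 := by
  have h1 := isog.1
  have h2 := congrArg ph E4_eq
  rw [map_add, map_pow, map_mul ph 192, map_ofNat, ph_aa] at h2
  rw [h2, E4_eq] at h1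
  have h3 : (768 : ℤ⟦X⟧) * (ph (FF * (aa - 16 * FF)) - FF ^ 2) = 0 := by linear_combination -h1
  refine sub_eq_zero.1 ((mul_eq_zero.1 h3).resolve_left fun h => ?_)
  have := congrArg constantCoeff h
  simp only [map_ofNat, map_zero] at this
  norm_num at this

theorem exists_dat : ∃ a' x g c c' z : ℤ⟦X⟧, Dat ph x g c c' z ∧ aa * a' = 1 ∧
    constantCoeff x = 0 ∧ coeff 1 x = 1 ∧ E2 ℤ * a' = 1 - 48 * z ∧
    E4 ℤ * a' ^ 2 = 1 + 192 * x ∧ E6 ℤ * a' ^ 3 = 1 - 576 * x := by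
  obtain ⟨a', ha⟩ : ∃ a', aa * a' = 1 :=
    (isUnit_iff_constantCoeff.2 (cc_aa ▸ isUnit_one)).exists_right_inv
  have ha' := congrArg ph ha
  rw [map_mul, map_one] at ha'
  have c0 : constantCoeff a' = 1 := by
    have := congrArg constantCoeff ha
    rwa [map_mul, cc_aa, one_mul, map_one] at this
  have s0 : constantCoeff (sg ℤ 1) = 0 := by
    rw [← coeff_zero_eq_constantCoeff_apply]
    simp [sg]
  have F0 : constantCoeff FF = 0 := by
    simp only [FF, map_add, map_sub, map_mul, cc_ph, s0]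
    simp
  have F1 : coeff 1 FF = 1 := by
    rw [FF, map_add, map_sub, show (2 : ℤ⟦X⟧) = C 2 from (map_ofNat _ 2).symm,
      show (3 : ℤ⟦X⟧) = C 3 from (map_ofNat _ 3).symm, coeff_C_mul, coeff_C_mul, coeff_ph, coeff_ph]
    simp [sg]
  have hx : FF * a' * (1 - 16 * (FF * a')) = FF * (aa - 16 * FF) * a' ^ 2 := by
    linear_combination (-FF * a') * ha
  have x0 : constantCoeff (FF * a' * (1 - 16 * (FF * a'))) = 0 := by simp [F0]
  have x1 : coeff 1 (FF * a' * (1 - 16 * (FF * a'))) = 1 := by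
    rw [mul_assoc, mul_comm, coeff_mul_dvd (by rw [pow_one]; exact X_dvd_iff.2 F0), F1]
    simp [F0, c0]
  refine ⟨a', FF * a' * (1 - 16 * (FF * a')), FF * a', ph aa * a', aa * ph a',
    (sg ℤ 1 - ph (sg ℤ 1)) * a', ⟨ph_frob, fun f hf => ?_, fun p h hp => ?_, rfl, ?_, ?_, ?_, ?_⟩,
    ha, x0, x1, ?_, ?_, ?_⟩
  · refine (mul_eq_zero.1 hf).resolve_left fun h => ?_
    have := congrArg constantCoeff h
    simp only [map_ofNat, map_zero] at this
    norm_num at this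
  · generalize FF * a' * (1 - 16 * (FF * a')) = x at *
    have h1 := congrArg (PowerSeries.map (Int.castRingHom (ZMod 2))) hp
    rw [map_aeval_int (k := ZMod 2), map_mul, map_ofNat,
      show (2 : (ZMod 2)⟦X⟧) = C 2 from (map_ofNat _ 2).symm, show (2 : ZMod 2) = 0 from rfl,
      map_zero, zero_mul] at h1
    have h2 : p.map (Int.castRingHom (ZMod 2)) = 0 := by
      by_contra h2
      have := ord_le (x := PowerSeries.map (Int.castRingHom (ZMod 2)) x) (by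
        rw [← coeff_zero_eq_constantCoeff_apply, coeff_map, coeff_zero_eq_constantCoeff_apply, x0,
          map_zero]) (by rw [coeff_map, x1, map_one]; exact one_ne_zero) h2
        (n := (p.map (Int.castRingHom (ZMod 2))).natDegree + 1) (h1 ▸ dvd_zero _)
      omega
    refine (Polynomial.C_dvd_iff_dvd_coeff 2 p).2 fun n => ?_
    have := congrArg (fun q => Polynomial.coeff q n) h2
    simp only [Polynomial.coeff_map, Polynomial.coeff_zero] at this
    exact (ZMod.intCast_zmod_eq_zero_iff_dvd _ 2).1 this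
  · rw [ph_aa]
    linear_combination ha
  · linear_combination (aa * a') * ha' + ha
  · rw [hx, map_mul, ph_bb, map_pow]
    linear_combination (FF * a') ^ 2 * (ph aa * ph a' + 1) * ha'
  · rw [map_mul, map_sub, FF]
    linear_combination (-2 * (ph (sg ℤ 1) - ph (ph (sg ℤ 1))) * a') * ha'
  · rw [← ha, aa_eq, E2_eq]
    ring
  · rw [hx, E4_eq]
    linear_combination (aa * a' + 1) * ha
  · rw [hx, E6_eq]
    linear_combination ((aa * a') ^ 2 + aa * a' + 1 - 576 * (FF * (aa - 16 * FF)) * a' ^ 2) * ha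

end Vale.Agent.P022K.UC.Qs
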