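import Mathlib

/-!
# P022K, block UC: the auxiliary function (Siegel's lemma and Liouville's inequality)

Power series over the integers of a number field whose coefficients grow polynomially and which
satisfy a `p`-adic zero estimate of exponent smaller than their number minus one are algebraically
dependent.
-/

set_option linter.all false

open NumberField PowerSeries

noncomputable section

namespace Vale.Agent.P022K.UC

variable {K : Type*} [Field K] [NumberField K]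

/-- polynomial growth of all conjugates of the coefficients -/
def Gr (c : ℕ) (f : (𝓞 K)⟦X⟧) : Prop :=
  ∀ n : ℕ, house ((coeff n f : 𝓞 K) : K) ≤ ((n : ℝ) + 2) ^ c

theorem Gr.mono {c c' : ℕ} {f : (𝓞 K)⟦X⟧} (h : Gr c f) (hc : c ≤ c') : Gr c' f := fun n =>
  (h n).trans (pow_le_pow_right₀ (by linarith [(Nat.cast_nonneg n : (0 : ℝ) ≤ n)]) hc)

theorem gr_one : Gr 0 (1 : (𝓞 K)⟦X⟧) := fun n => by
  rw [coeff_one]
  split_ifs
  · simpa using (house_intCast (K := K) 1).le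
  · simpa using (house_intCast (K := K) 0).le.trans (by simp)

theorem Gr.mul {c c' : ℕ} {f g : (𝓞 K)⟦X⟧} (h : Gr c f) (h' : Gr c' g) :
    Gr (c + c' + 1) (f * g) := fun n => by
  rw [coeff_mul, show ((∑ p ∈ Finset.HasAntidiagonal.antidiagonal n, coeff p.1 f * coeff p.2 g : 𝓞 K) : K) =
    ∑ p ∈ Finset.HasAntidiagonal.antidiagonal n, ((coeff p.1 f : 𝓞 K) : K) * (coeff p.2 g : 𝓞 K) by
      simp only [map_sum, map_mul]]
  refine (house_sum_le_sum_house _ _).trans ((Finset.sum_le_card_nsmul _ _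
    (((n : ℝ) + 2) ^ (c + c')) fun p hp => ?_).trans ?_)
  · have h1 := Finset.HasAntidiagonal.mem_antidiagonal.1 hp
    have h2 : (p.1 : ℝ) ≤ n := by exact_mod_cast (by omega : p.1 ≤ n)
    have h3 : (p.2 : ℝ) ≤ n := by exact_mod_cast (by omega : p.2 ≤ n)
    rw [pow_add]
    refine (house_mul_le _ _).trans (mul_le_mul ((h _).trans ?_) ((h' _).trans ?_)
      (house_nonneg _) (by positivity)) <;> gcongr
  · rw [Finset.Nat.card_antidiagonal, nsmul_eq_mul, pow_succ' _ (c + c')]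
    push_cast
    gcongr
    norm_num

theorem Gr.pow {c : ℕ} {f : (𝓞 K)⟦X⟧} (h : Gr c f) (m : ℕ) : Gr ((c + 1) * m) (f ^ m) := by
  induction m with
  | zero => simpa using gr_one
  | succ m ih => rw [pow_succ]; exact (ih.mul h).mono (by ring_nf; omega)

theorem gr_prod {ι : Type*} (s : Finset ι) {c : ι → ℕ} {f : ι → (𝓞 K)⟦X⟧}
    (h : ∀ i, Gr (c i) (f i)) : Gr (∑ i ∈ s, c i + s.card) (∏ i ∈ s, f i) := by
  classical
  induction s using Finset.induction_on with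
  | empty => simpa using gr_one
  | insert a s ha ih =>
    rw [Finset.prod_insert ha, Finset.sum_insert ha, Finset.card_insert_of_notMem ha]
    exact ((h a).mul ih).mono (by omega)

theorem gr_of_le {f : (𝓞 K)⟦X⟧} {A : ℝ} {c : ℕ}
    (h : ∀ n : ℕ, house ((coeff n f : 𝓞 K) : K) ≤ A * ((n : ℝ) + 2) ^ c) : ∃ c', Gr c' f := by
  obtain ⟨m, hm⟩ := pow_unbounded_of_one_lt A (one_lt_two (α := ℝ))
  refine ⟨m + c, fun n => (h n).trans ?_⟩
  rw [pow_add]
  gcongr
  exact hm.le.trans (by gcongr; linarith [(Nat.cast_nonneg n : (0 : ℝ) ≤ n)])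

/-- **Liouville's inequality** -/
theorem liouville {O : Type*} [CommRing O] [IsDomain O] [CharZero O] {p : ℕ} (hp : p.Prime)
    (hu : ¬ IsUnit (p : O)) (ι : 𝓞 K →+* O) {x : 𝓞 K} (hx : x ≠ 0) {j : ℕ}
    (h : (p : O) ^ j ∣ ι x) : (2 : ℝ) ^ j ≤ house (x : K) ^ Module.finrank ℚ K := by
  have h1 : x ∣ ((Algebra.norm ℤ x).natAbs : 𝓞 K) := by
    rw [← Ideal.absNorm_span_singleton, ← Ideal.mem_span_singleton]
    exact Ideal.absNorm_mem _
  have h2 : (Algebra.norm ℤ x).natAbs ≠ 0 := by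
    rw [Int.natAbs_ne_zero]; exact Algebra.norm_ne_zero_iff.2 hx
  have h3 : (p : O) ^ j ∣ ((Algebra.norm ℤ x).natAbs : O) := by
    simpa using h.trans (map_dvd ι h1)
  obtain ⟨v, m, hm, e⟩ := Nat.exists_eq_pow_mul_and_not_dvd h2 p hp.ne_one
  have h4 : j ≤ v := by
    by_contra h5
    rw [e, Nat.cast_mul, Nat.cast_pow] at h3
    have h6 := (pow_dvd_pow (p : O) (show v + 1 ≤ j by omega)).trans h3
    rw [pow_succ, mul_dvd_mul_iff_left (pow_ne_zero _ (Nat.cast_ne_zero.2 hp.ne_zero))] at h6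
    exact hu ((Nat.Coprime.cast (R := O)
      ((Nat.Prime.coprime_iff_not_dvd hp).2 hm)).isUnit_of_dvd' dvd_rfl h6)
  have h7 : 2 ^ j ≤ (Algebra.norm ℤ x).natAbs :=
    (Nat.pow_le_pow_left hp.two_le j).trans ((Nat.pow_le_pow_right hp.pos h4).trans
      (Nat.le_of_dvd (Nat.pos_of_ne_zero h2) ⟨m, e⟩))
  obtain ⟨σ⟩ : Nonempty (K →+* ℂ) := inferInstance
  have h8 := norm_norm_le_norm_mul_house_pow (x : K) σ
  have h9 : ‖Algebra.norm ℚ (x : K)‖ = ((Algebra.norm ℤ x).natAbs : ℝ) := by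
    rw [← Algebra.coe_norm_int, ← Rat.norm_cast_real, Rat.cast_intCast, Real.norm_eq_abs,
      Nat.cast_natAbs, Int.cast_abs]
  calc (2 : ℝ) ^ j ≤ ((Algebra.norm ℤ x).natAbs : ℝ) := by exact_mod_cast h7
    _ ≤ house (x : K) * house (x : K) ^ (Module.finrank ℚ K - 1) := by
      rw [← h9]
      exact h8.trans (mul_le_mul_of_nonneg_right (norm_embedding_le_house _ _)
        (pow_nonneg (house_nonneg _) _))
    _ = _ := by rw [← pow_succ', Nat.sub_add_cancel Module.finrank_pos]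

theorem exists_coord : ∃ (c : ℕ) (τ : (K →+* ℂ) → 𝓞 K →+ ℤ),
    (∀ x, (∀ i, τ i x = 0) → x = 0) ∧ ∀ i x, |(τ i x : ℝ)| ≤ 2 ^ c * house (x : K) := by
  classical
  obtain ⟨A, hA⟩ : ∃ A : ℝ, ∀ (x : 𝓞 K) (i : K →+* ℂ), ‖((((integralBasis K).reindex
      (equivReindex K).symm).repr (algebraMap (𝓞 K) K x) i : ℚ) : ℂ)‖ ≤
      A * house (algebraMap (𝓞 K) K x) := ⟨_, house.basis_repr_norm_le_const_mul_house K⟩
  obtain ⟨m, hm⟩ := pow_unbounded_of_one_lt A (one_lt_two (α := ℝ))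
  refine ⟨m, fun i => ((RingOfIntegers.basis K).coord
    (equivReindex K i)).toAddMonoidHom, fun x h => ?_, fun i x => ?_⟩
  · refine (RingOfIntegers.basis K).forall_coord_eq_zero_iff.1 fun i => ?_
    obtain ⟨i, rfl⟩ := (equivReindex K).surjective i
    exact h i
  · have h1 := hA x i
    rw [Module.Basis.repr_reindex_apply, Equiv.symm_symm, integralBasis_repr_apply] at h1
    refine le_trans (le_of_eq ?_) (h1.trans (mul_le_mul_of_nonneg_right hm.le (house_nonneg _)))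
    simp

/-- **Siegel's lemma** for power series -/
theorem exists_aux : ∃ c₀ : ℕ, ∀ {β : Type} [Fintype β] (u : β → (𝓞 K)⟦X⟧) (E N : ℕ),
    (∀ a, Gr E (u a)) → 0 < N → 2 * Module.finrank ℚ K * N ≤ Fintype.card β →
    ∃ t : β → ℤ, t ≠ 0 ∧ (∀ n < N, coeff n (∑ a, t a • u a) = 0) ∧
      ∀ a, |(t a : ℝ)| ≤ Fintype.card β * (2 ^ c₀ * ((N : ℝ) + 2) ^ E) := by
  classical
  obtain ⟨c, τ, h0, hτ⟩ := exists_coord (K := K)
  refine ⟨c, fun {β} _ u E N hu hN hc => ?_⟩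
  have hd : 0 < Module.finrank ℚ K := Module.finrank_pos
  have h1 : Fintype.card (Fin N × (K →+* ℂ)) = Module.finrank ℚ K * N := by
    simp [Embeddings.card, mul_comm]
  have h2 := Nat.mul_pos hd hN
  let A : Matrix (Fin N × (K →+* ℂ)) β ℤ := fun i a => τ i.2 (coeff i.1 (u a))
  obtain ⟨t, t0, t1, t2⟩ := Int.Matrix.exists_ne_zero_int_vec_norm_le A
    (by rw [h1]; rw [mul_assoc] at hc; omega) (by rwa [h1])
  have h3 : (1 : ℝ) ≤ 2 ^ c * ((N : ℝ) + 2) ^ E := one_le_mul_of_one_le_of_one_le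
    (one_le_pow₀ one_le_two) (one_le_pow₀ (by linarith [(Nat.cast_nonneg N : (0 : ℝ) ≤ N)]))
  refine ⟨t, t0, fun n hn => h0 _ fun i => ?_, fun a => ?_⟩
  · have h4 := congrFun t1 (⟨n, hn⟩, i)
    simp only [map_sum, map_zsmul, smul_eq_mul]
    simpa [A, Matrix.mulVec, dotProduct, mul_comm] using h4
  · refine le_trans (by rw [← Int.norm_eq_abs]; exact norm_le_pi_norm t a) (t2.trans ?_)
    have h5 : (1 : ℝ) ≤ Fintype.card β := by
      rw [mul_assoc] at hc
      exact_mod_cast (by omega : 1 ≤ Fintype.card β)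
    refine (Real.rpow_le_rpow_of_exponent_le (one_le_mul_of_one_le_of_one_le h5 (le_max_left _ _))
      (show _ ≤ (1 : ℝ) from ?_)).trans ?_
    · rw [h1]
      have h6 : (2 : ℝ) * ((Module.finrank ℚ K * N : ℕ) : ℝ) ≤ Fintype.card β := by
        rw [mul_assoc] at hc
        exact_mod_cast hc
      have h7 : (0 : ℝ) < ((Module.finrank ℚ K * N : ℕ) : ℝ) := by exact_mod_cast h2
      rw [div_le_one (by linarith)]
      linarith
    · rw [Real.rpow_one]
      refine mul_le_mul_of_nonneg_left (max_le h3 ?_) (by positivity)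
      refine (Matrix.norm_le_iff (by linarith)).2 fun i a => ?_
      rw [Int.norm_eq_abs]
      refine (hτ _ _).trans (mul_le_mul_of_nonneg_left ((hu a _).trans ?_) (by positivity))
      have : ((i.1 : ℕ) : ℝ) ≤ N := by exact_mod_cast i.1.2.le
      gcongr

theorem exists_log (C k : ℕ) : ∃ T : ℕ, ∀ n ≥ T, C * (Nat.log 2 (n + 2) + 1) ^ k < n := by
  have h1 := (tendsto_pow_const_div_const_pow_of_one_lt k (one_lt_two (α := ℝ))).eventually
    (gt_mem_nhds (show (0 : ℝ) < 1 / (4 * (C + 1)) by positivity))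
  obtain ⟨m, hm⟩ := Filter.eventually_atTop.1 h1
  refine ⟨2 ^ m + 2, fun n hn => ?_⟩
  have h2 : m ≤ Nat.log 2 (n + 2) := Nat.le_log_of_pow_le one_lt_two (by omega)
  have h3 := hm (Nat.log 2 (n + 2) + 1) (by omega)
  have h4 := Nat.pow_log_le_self 2 (show n + 2 ≠ 0 by omega)
  rw [div_lt_div_iff₀ (by positivity) (by positivity), one_mul] at h3
  have h5 : (Nat.log 2 (n + 2) + 1) ^ k * (4 * (C + 1)) < 2 ^ (Nat.log 2 (n + 2) + 1) := by
    exact_mod_cast h3
  have h6 : 2 ≤ n := le_trans (Nat.le_add_left _ _) hn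
  rw [pow_succ] at h5
  nlinarith [Nat.zero_le ((Nat.log 2 (n + 2) + 1) ^ k)]

/-- **a zero estimate of small exponent forces an algebraic relation** -/
theorem siegel {s : ℕ} (g : Fin (s + 1) → (𝓞 K)⟦X⟧) (w : Fin (s + 1) → ℕ) (hw : ∀ i, w i ≠ 0)
    {c : ℕ} (hg : ∀ i, Gr c (g i)) {O : Type*} [CommRing O] [IsDomain O] [CharZero O] {p : ℕ}
    (hp : p.Prime) (hu : ¬ IsUnit (p : O)) (ι : 𝓞 K →+* O) {a b C : ℕ} (hab : a < s * b)
    (ze : ∀ (D j n : ℕ) (P : MvPolynomial (Fin (s + 1)) ℤ), P.IsWeightedHomogeneous w D →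
      (∀ m < n, coeff m (MvPolynomial.aeval g P) = 0) →
      ¬ (p : O) ^ j ∣ ι (coeff n (MvPolynomial.aeval g P)) → n ^ b ≤ C * (j + D) ^ a) :
    ∃ (D : ℕ) (P : MvPolynomial (Fin (s + 1)) ℤ), P ≠ 0 ∧ P.IsWeightedHomogeneous w D ∧
      MvPolynomial.aeval g P = 0 := by
  classical
  obtain ⟨c₀, H⟩ := exists_aux (K := K)
  obtain ⟨d, hd⟩ : ∃ d, d = Module.finrank ℚ K := ⟨_, rfl⟩
  have hd0 : 0 < d := hd ▸ Module.finrank_pos
  have hs : s ≠ 0 := by rintro rfl; simp at hab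
  obtain ⟨L, hL⟩ : ∃ L, L = ∏ i, w i := ⟨_, rfl⟩
  have hL0 : 0 < L := hL ▸ Finset.prod_pos fun i _ => Nat.pos_of_ne_zero (hw i)
  have hq : ∀ i, L / w i * w i = L := fun i =>
    Nat.div_mul_cancel (hL ▸ Finset.dvd_prod_of_mem _ (Finset.mem_univ i))
  obtain ⟨c₁, hc₁⟩ : ∃ c₁, c₁ = 2 * (2 * d) ^ s + c₀ + 2 := ⟨_, rfl⟩
  obtain ⟨c₃, hc₃⟩ : ∃ c₃, c₃ = (c + 1) * L * s * (2 * d) + (s + 1) := ⟨_, rfl⟩
  obtain ⟨c₄, hc₄⟩ : ∃ c₄, c₄ = (2 * c₃ + c₁) * d + L * s * (2 * d) := ⟨_, rfl⟩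
  obtain ⟨T₀, hT₀⟩ := exists_log (C ^ s * c₄ ^ (a * s)) (a * s)
  obtain ⟨T, hT, hT1⟩ : ∃ T, T₀ ≤ T ∧ 1 ≤ T := ⟨T₀ + 1, by omega, by omega⟩
  let r : (Fin s → Fin (2 * d * T)) → Fin (s + 1) → ℕ := fun x =>
    Fin.cons (s * (2 * d * T) - ∑ i, (x i : ℕ)) fun i => x i
  have hr : ∀ x, ∑ i, r x i = s * (2 * d * T) := fun x => by
    have h1 : ∑ i, (x i : ℕ) ≤ s * (2 * d * T) := by
      simpa using Finset.sum_le_card_nsmul Finset.univ (fun i => (x i : ℕ)) _ fun i _ => (x i).2.le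
    simp only [r, Fin.sum_univ_succ, Fin.cons_zero, Fin.cons_succ]
    omega
  let e : (Fin s → Fin (2 * d * T)) → Fin (s + 1) →₀ ℕ := fun x =>
    Finsupp.equivFunOnFinite.symm fun i => r x i * (L / w i)
  have he : Function.Injective e := fun x y h => funext fun i => Fin.ext (by
    have h1 : r x i.succ * (L / w i.succ) = r y i.succ * (L / w i.succ) :=
      DFunLike.congr_fun h i.succ
    refine Nat.eq_of_mul_eq_mul_right (Nat.pos_of_ne_zero fun h2 => ?_) h1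
    have h3 := hq i.succ
    rw [h2] at h3
    omega)
  have hE : ∀ x, Gr (c₃ * T) (∏ i, g i ^ e x i) := fun x => by
    refine (gr_prod Finset.univ fun i => (hg i).pow (e x i)).mono ?_
    have h1 : ∑ i, (c + 1) * e x i ≤ ∑ i, (c + 1) * L * r x i := Finset.sum_le_sum fun i _ => by
      rw [mul_assoc, mul_comm L]
      exact Nat.mul_le_mul_left _ (Nat.mul_le_mul_left _ (Nat.div_le_self _ _))
    rw [← Finset.mul_sum Finset.univ (r x), hr] at h1
    rw [Finset.card_univ, Fintype.card_fin, hc₃, add_mul _ _ T]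
    exact Nat.add_le_add (h1.trans_eq (by ring)) (Nat.le_mul_of_pos_right _ hT1)
  have hcard : Fintype.card (Fin s → Fin (2 * d * T)) = (2 * d) ^ s * T ^ s := by
    simp [mul_pow]
  obtain ⟨t, t0, t1, t2⟩ := H (fun x => ∏ i, g i ^ e x i) (c₃ * T) (T ^ s) hE
    (pow_pos hT1 _) (by
      rw [hcard, ← hd]
      exact Nat.mul_le_mul_right _ (Nat.le_self_pow hs _))
  let P : MvPolynomial (Fin (s + 1)) ℤ := ∑ x, MvPolynomial.monomial (e x) (t x)
  have hP : P.IsWeightedHomogeneous w (L * (s * (2 * d * T))) :=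
    MvPolynomial.IsWeightedHomogeneous.sum _ _ _ fun x _ =>
      MvPolynomial.isWeightedHomogeneous_monomial _ _ _ (by
        rw [Finsupp.weight_apply, Finsupp.sum_fintype _ _ (by simp), ← hr x, Finset.mul_sum]
        refine Finset.sum_congr rfl fun i _ => ?_
        show r x i * (L / w i) * w i = _
        rw [mul_assoc, hq, mul_comm])
  have hF : MvPolynomial.aeval g P = ∑ x, t x • ∏ i, g i ^ e x i := by
    simp only [P, map_sum, MvPolynomial.aeval_monomial, Finsupp.prod_pow, eq_intCast, zsmul_eq_mul]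
  refine ⟨_, P, fun h => t0 (funext fun x => ?_), hP, ?_⟩
  · have h1 := congrArg (MvPolynomial.coeff (e x)) h
    simpa [P, MvPolynomial.coeff_sum, MvPolynomial.coeff_monomial, he.eq_iff] using h1
  by_contra h0
  have hex : ∃ n, coeff n (MvPolynomial.aeval g P) ≠ 0 := by
    by_contra h
    push Not at h
    exact h0 (PowerSeries.ext h)
  obtain ⟨n, hn, hn1⟩ : ∃ n, coeff n (MvPolynomial.aeval g P) ≠ 0 ∧
      ∀ m < n, coeff m (MvPolynomial.aeval g P) = 0 :=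
    ⟨Nat.find hex, Nat.find_spec hex, fun m hm => not_not.1 (Nat.find_min hex hm)⟩
  have h1 : T ^ s ≤ n := not_lt.1 fun h => hn (hF ▸ t1 n h)
  obtain ⟨Q, hQ⟩ : ∃ Q : ℝ, Q = n + 2 := ⟨_, rfl⟩
  have hQ2 : 2 ≤ Q := by rw [hQ]; linarith [(Nat.cast_nonneg n : (0 : ℝ) ≤ n)]
  have h2 : ((T ^ s : ℕ) : ℝ) + 2 ≤ Q := by rw [hQ]; gcongr
  have h3 : (Fintype.card (Fin s → Fin (2 * d * T)) : ℝ) ≤ Q ^ (2 * d) ^ s * Q := by
    rw [hcard, Nat.cast_mul]
    refine mul_le_mul (le_trans ?_ (pow_le_pow_left₀ zero_le_two hQ2 _)) (by linarith)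
      (by positivity) (by positivity)
    exact_mod_cast Nat.lt_two_pow_self.le
  have h4 : house ((coeff n (MvPolynomial.aeval g P) : 𝓞 K) : K) ≤ Q ^ (2 * (c₃ * T) + c₁) := by
    rw [hF, show ((coeff n (∑ x, t x • ∏ i, g i ^ e x i) : 𝓞 K) : K) =
      ∑ x, (t x : K) * (coeff n (∏ i, g i ^ e x i) : 𝓞 K) by
        simp only [map_sum, map_zsmul]
        simp only [zsmul_eq_mul]]
    refine (house_sum_le_sum_house _ _).trans ((Finset.sum_le_card_nsmul _ _
      (Q ^ (2 * d) ^ s * Q * (Q ^ c₀ * Q ^ (c₃ * T)) * Q ^ (c₃ * T)) fun x _ => ?_).trans ?_)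
    · refine (house_mul_le _ _).trans (mul_le_mul ?_ (hQ ▸ hE x n) (house_nonneg _)
        (by positivity))
      rw [house_intCast, Int.cast_abs]
      refine (t2 x).trans ?_
      gcongr
    · rw [nsmul_eq_mul, Finset.card_univ]
      refine (mul_le_mul_of_nonneg_right h3 (by positivity)).trans_eq ?_
      rw [hc₁]
      ring
  obtain ⟨l, hl⟩ : ∃ l, l = Nat.log 2 (n + 2) + 1 := ⟨_, rfl⟩
  have h5 : Q < 2 ^ l := by
    rw [hQ, hl]
    exact_mod_cast Nat.lt_pow_succ_log_self one_lt_two (n + 2)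
  have h6 := ze _ (l * ((2 * (c₃ * T) + c₁) * d)) n P hP hn1 fun h => by
    have h7 := (liouville hp hu ι hn h).trans
      (pow_le_pow_left₀ (house_nonneg _) h4 _)
    rw [← pow_mul, ← hd, pow_mul] at h7
    exact absurd h7 (not_le.2 (pow_lt_pow_left₀ h5 (by linarith)
      (Nat.mul_pos (by omega) hd0).ne'))
  have h7 : l * ((2 * (c₃ * T) + c₁) * d) + L * (s * (2 * d * T)) ≤ c₄ * l * T := by
    have k1 : c₁ ≤ c₁ * T := Nat.le_mul_of_pos_right _ hT1
    have k2 : L * (s * (2 * d * T)) ≤ L * (s * (2 * d * T)) * l :=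
      Nat.le_mul_of_pos_right _ (by omega)
    calc _ ≤ l * ((2 * (c₃ * T) + c₁ * T) * d) + L * (s * (2 * d * T)) * l := by gcongr
      _ = _ := by rw [hc₄]; ring
  have h8 : 0 < n := (pow_pos hT1 _).trans_le h1
  have h9 : n * n ^ a ≤ C ^ s * c₄ ^ (a * s) * l ^ (a * s) * n ^ a :=
    calc n * n ^ a ≤ (n ^ b) ^ s := by
          rw [← pow_succ', ← pow_mul]
          exact Nat.pow_le_pow_right h8 (by rw [mul_comm]; omega)
      _ ≤ (C * (c₄ * l * T) ^ a) ^ s := Nat.pow_le_pow_left (h6.trans (by gcongr)) _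
      _ = C ^ s * c₄ ^ (a * s) * l ^ (a * s) * (T ^ s) ^ a := by ring
      _ ≤ _ := by gcongr
  have h10 := hT₀ n (hT.trans ((Nat.le_self_pow hs _).trans h1))
  rw [← hl] at h10
  exact absurd (Nat.le_of_mul_le_mul_right h9 (pow_pos h8 _)) (not_le.2 h10)

end Vale.Agent.P022K.UC
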