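import Mathlib

/-!
# P022K, block UC: the volume argument
-/

set_option linter.all false

open MvPolynomial

noncomputable section

namespace Vale.Agent.P022K.UC.Vol

variable {O : Type*} [CommRing O] {σ : Type*} (π : O)

/-- the ideal `(π, X i)` -/
def mm (σ : Type*) (π : O) : Ideal (MvPolynomial σ O) :=
  Ideal.span (insert (C π) (Set.range X))

/-- `X i ↦ π X i` -/
def sc : MvPolynomial σ O →ₐ[O] MvPolynomial σ O := aeval fun i => C π * X i

theorem coeff_sc (t : MvPolynomial σ O) (a : σ →₀ ℕ) :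
    coeff a (sc π t) = π ^ a.degree * coeff a t := by
  classical
  induction t using MvPolynomial.induction_on' with
  | monomial b c =>
    have h : sc π (monomial b c) = monomial b (π ^ b.degree * c) := by
      rw [sc, aeval_monomial, monomial_eq, Finsupp.prod, Finsupp.prod, Finsupp.degree_apply]
      simp only [mul_pow, Finset.prod_mul_distrib, Finset.prod_pow_eq_pow_sum, map_mul, map_pow,
        algebraMap_eq]
      ring
    rw [h, coeff_monomial, coeff_monomial]
    split_ifs with e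
    · rw [e]
    · rw [mul_zero]
  | add p q hp hq => rw [map_add, coeff_add, coeff_add, hp, hq, mul_add]

variable {π}

theorem mem_pow_of {n : ℕ} {t : MvPolynomial σ O} (h : ∀ a, π ^ (n - a.degree) ∣ coeff a t) :
    t ∈ mm σ π ^ n := by
  rw [t.as_sum]
  refine Ideal.sum_mem _ fun a _ => ?_
  obtain ⟨c, hc⟩ := h a
  rw [hc, monomial_eq, map_mul, map_pow, mul_right_comm]
  refine Ideal.mul_mem_right _ _ (Ideal.pow_le_pow_right (n := n - a.degree + a.degree) (by omega) ?_)
  rw [pow_add]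
  refine Ideal.mul_mem_mul (Ideal.pow_mem_pow (Ideal.subset_span (Set.mem_insert _ _)) _) ?_
  rw [Finsupp.degree_apply, ← Finset.prod_pow_eq_pow_sum]
  exact Ideal.prod_mem_prod fun i _ => Ideal.pow_mem_pow
    (Ideal.subset_span (Set.mem_insert_of_mem _ (Set.mem_range_self i))) _

theorem dvd_of_mem {n : ℕ} {t : MvPolynomial σ O} (h : t ∈ mm σ π ^ n) : C π ^ n ∣ sc π t := by
  have h1 : mm σ π ≤ (Ideal.span {C π}).comap (sc π) := Ideal.span_le.2 (by
    rintro _ (rfl | ⟨i, rfl⟩) <;> simp [sc, Ideal.mem_span_singleton])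
  have h2 := Ideal.le_comap_pow _ n (Ideal.pow_right_mono h1 n h)
  rwa [Ideal.mem_comap, Ideal.span_singleton_pow, Ideal.mem_span_singleton] at h2

theorem map_mem {O' : Type*} [CommRing O'] (f : MvPolynomial σ O →+* O') {I : Ideal O'}
    (h1 : f (C π) ∈ I) (h2 : ∀ i, f (X i) ∈ I) {n : ℕ} {t : MvPolynomial σ O}
    (h : t ∈ mm σ π ^ n) : f t ∈ I ^ n :=
  Ideal.le_comap_pow _ n (Ideal.pow_right_mono (show mm σ π ≤ I.comap f from Ideal.span_le.2 (by
    rintro _ (rfl | ⟨i, rfl⟩)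
    exacts [h1, h2 i])) n h)

variable [IsDomain O]

theorem mem_iff (h0 : π ≠ 0) {n : ℕ} {t : MvPolynomial σ O} :
    t ∈ mm σ π ^ n ↔ ∀ a, π ^ (n - a.degree) ∣ coeff a t := by
  refine ⟨fun h a => ?_, mem_pow_of⟩
  have h1 := dvd_of_mem h
  rw [← map_pow, C_dvd_iff_dvd_coeff] at h1
  have h2 := (pow_dvd_pow π (show min n a.degree + (n - a.degree) ≤ n by omega)).trans (h1 a)
  rcases le_total n a.degree with h3 | h3
  · simp [Nat.sub_eq_zero_of_le h3]
  · rwa [coeff_sc, min_eq_right h3, pow_add, mul_dvd_mul_iff_left (pow_ne_zero _ h0)] at h2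

theorem mem_iff' (h0 : π ≠ 0) {n : ℕ} {t : MvPolynomial σ O} :
    t ∈ mm σ π ^ n ↔ C π ^ n ∣ sc π t := by
  refine ⟨dvd_of_mem, fun h => mem_pow_of fun a => ?_⟩
  rw [← map_pow, C_dvd_iff_dvd_coeff] at h
  have h1 := h a
  rcases le_total n a.degree with h3 | h3
  · simp [Nat.sub_eq_zero_of_le h3]
  · rwa [coeff_sc, ← Nat.add_sub_cancel' h3, pow_add, mul_dvd_mul_iff_left (pow_ne_zero _ h0)] at h1

/-- the order is a valuation -/
theorem ord_mul (hπ : Prime π) {a b : ℕ} {t u : MvPolynomial σ O} (ht : t ∉ mm σ π ^ (a + 1))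
    (h : t * u ∈ mm σ π ^ (a + b)) : u ∈ mm σ π ^ b := by
  rw [mem_iff' hπ.ne_zero] at ht h ⊢
  have hp : Prime (C π : MvPolynomial σ O) := (prime_C_iff σ).2 hπ
  rw [map_mul] at h
  generalize sc π t = x at ht h
  induction a generalizing x with
  | zero => exact hp.pow_dvd_of_dvd_mul_left b (by simpa using ht) (by simpa using h)
  | succ a ih =>
    by_cases h1 : C π ∣ x
    · obtain ⟨y, rfl⟩ := h1
      rw [pow_succ', mul_dvd_mul_iff_left hp.ne_zero] at ht
      rw [add_right_comm, pow_succ', mul_assoc, mul_dvd_mul_iff_left hp.ne_zero] at h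
      exact ih y ht h
    · exact hp.pow_dvd_of_dvd_mul_left b h1 ((pow_dvd_pow _ (by omega)).trans h)

variable [IsDiscreteValuationRing O] [Fintype σ]

theorem len_pow (hπ : Irreducible π) (n : ℕ) : Module.length O (O ⧸ Ideal.span {π ^ n}) = n := by
  rw [← Ideal.span_singleton_pow, ← hπ.maximalIdeal_eq]
  exact IsDiscreteValuationRing.length_quotient_pow_maximalIdeal O n

theorem len_mm [DecidableEq σ] (hπ : Irreducible π) {n N : ℕ} (h : n ≤ N) :
    Module.length O (MvPolynomial σ O ⧸ mm σ π ^ n) =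
      (∑ a : σ → Fin N, (n - ∑ i, (a i : ℕ)) : ℕ) := by
  let e : (σ → Fin N) → σ →₀ ℕ := fun a => Finsupp.equivFunOnFinite.symm fun i => a i
  have he : Function.Injective e := fun a b h => funext fun i => Fin.ext (DFunLike.congr_fun h i)
  have hd : ∀ a, (e a).degree = ∑ i, (a i : ℕ) := fun a => Finsupp.degree_eq_sum _
  let κ : MvPolynomial σ O →ₗ[O] ∀ a : σ → Fin N, O ⧸ Ideal.span {π ^ (n - ∑ i, (a i : ℕ))} :=
    LinearMap.pi fun a => (Submodule.mkQ _).comp (lcoeff O (e a))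
  have h1 : Function.Surjective κ := fun y => by
    choose x hx using fun a => Ideal.Quotient.mk_surjective (y a)
    refine ⟨∑ a, monomial (e a) (x a), funext fun a => ?_⟩
    rw [← hx]
    show Ideal.Quotient.mk _ (coeff (e a) _) = _
    simp [coeff_sum, coeff_monomial, he.eq_iff]
  have h2 : LinearMap.ker κ = (mm σ π ^ n).restrictScalars O := by
    ext t
    rw [Submodule.restrictScalars_mem, mem_iff hπ.ne_zero, LinearMap.mem_ker, funext_iff]
    have h3 : ∀ a, κ t a = 0 ↔ π ^ (n - (e a).degree) ∣ coeff (e a) t := fun a => by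
      rw [hd, ← Ideal.mem_span_singleton]
      exact Ideal.Quotient.eq_zero_iff_mem
    refine ⟨fun h4 a => ?_, fun h4 a => (h3 a).2 (h4 _)⟩
    by_cases h5 : ∀ i, a i < N
    · have h6 := (h3 fun i => ⟨a i, h5 i⟩).1 (h4 _)
      rwa [show e (fun i => ⟨a i, h5 i⟩) = a from Finsupp.ext fun _ => rfl] at h6
    · push Not at h5
      obtain ⟨i, hi⟩ := h5
      rw [Nat.sub_eq_zero_of_le (h.trans (hi.trans (Finsupp.le_degree i a))), pow_zero]
      exact one_dvd _
  rw [← (Submodule.Quotient.restrictScalarsEquiv O (mm σ π ^ n)).length_eq,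
    ← (Submodule.quotEquivOfEq _ _ h2).length_eq, (κ.quotKerEquivOfSurjective h1).length_eq,
    Module.length_pi_of_fintype]
  simp only [len_pow hπ, Nat.cast_sum]

/-- the count, for an abstract target -/
theorem len_le (hπ : Irreducible π) {Q : Type*} [AddCommGroup Q] [Module O Q]
    (ρ : MvPolynomial σ O →ₗ[O] Q) (hρ : Function.Surjective ρ) {N o : ℕ}
    (hN : ∀ u ∈ mm σ π ^ N, ρ u = 0) {t : MvPolynomial σ O} (ht : t ∉ mm σ π ^ (o + 1))
    (h : ∀ u, ρ (t * u) = 0) : Module.length O Q ≤ (o * N ^ Fintype.card σ : ℕ) := by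
  classical
  let ρ' : (MvPolynomial σ O ⧸ (mm σ π ^ N).restrictScalars O) →ₗ[O] Q := Submodule.liftQ _ ρ hN
  have h1 : Function.Surjective ρ' := fun y => by
    obtain ⟨x, rfl⟩ := hρ y
    exact ⟨Submodule.Quotient.mk x, rfl⟩
  have h2 := Module.length_eq_add_of_exact _ ρ' (Submodule.subtype_injective _) h1
    (LinearMap.exact_subtype_ker_map ρ')
  let μ : MvPolynomial σ O →ₗ[O] LinearMap.ker ρ' := LinearMap.codRestrict _
    ((Submodule.mkQ _).comp (LinearMap.mulLeft O t)) h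
  have h3 : LinearMap.ker μ ≤ (mm σ π ^ (N - o)).restrictScalars O := fun u hu => by
    have h4 : t * u ∈ mm σ π ^ N :=
      (Submodule.Quotient.mk_eq_zero _).1 (congrArg Subtype.val hu)
    rcases le_total N o with h5 | h5
    · simp [Nat.sub_eq_zero_of_le h5]
    · exact ord_mul hπ.prime ht (by rwa [Nat.add_sub_cancel' h5])
  have h4 := (Module.length_le_of_surjective (Submodule.factor h3)
    (Submodule.factor_surjective h3)).trans (Module.length_le_of_injective
      ((LinearMap.ker μ).liftQ μ le_rfl) (LinearMap.ker_eq_bot.1 (Submodule.ker_liftQ_eq_bot _ _ _ le_rfl)))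
  rw [(Submodule.Quotient.restrictScalarsEquiv O _).length_eq] at h2 h4
  rw [len_mm hπ le_rfl] at h2
  rw [len_mm hπ (Nat.sub_le N o)] at h4
  have h5 : ∑ a : σ → Fin N, (N - ∑ i, (a i : ℕ)) ≤
      ∑ a : σ → Fin N, (N - o - ∑ i, (a i : ℕ)) + o * N ^ Fintype.card σ := by
    refine (Finset.sum_le_sum (g := fun a => N - o - ∑ i, (a i : ℕ) + o) fun a _ => by omega).trans ?_
    simp [Finset.sum_add_distrib, mul_comm]
  refine (ENat.add_le_add_iff_left (ENat.coe_ne_top _)).1
    (((add_le_add_left h4 _).trans h2.ge).trans ?_)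
  exact_mod_cast h5

theorem len_le' (hπ : Irreducible π) {Q : Type*} [AddCommGroup Q] [Module O Q]
    (ρ : MvPolynomial σ O →ₗ[O] Q) (hρ : Function.Surjective ρ) {N : ℕ}
    (hN : ∀ u ∈ mm σ π ^ N, ρ u = 0) : Module.length O Q ≤ (N * N ^ Fintype.card σ : ℕ) := by
  refine len_le hπ ρ hρ hN (t := C π ^ N) (fun h => ?_) fun u => hN _ (Ideal.mul_mem_right _ _
    (Ideal.pow_mem_pow (Ideal.subset_span (Set.mem_insert _ _)) _))
  have h1 := (mem_iff hπ.ne_zero).1 h 0
  rw [← map_pow, coeff_zero_C, map_zero, Nat.sub_zero, pow_dvd_pow_iff hπ.ne_zero hπ.not_isUnit] at h1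
  omega

theorem len_le_pi (hπ : Irreducible π) {Q ι : Type*} [AddCommGroup Q] [Module O Q] [Fintype ι]
    (ρ : ι → MvPolynomial σ O →ₗ[O] Q) (hρ : ∀ q, ∃ x : ι → MvPolynomial σ O, q = ∑ i, ρ i (x i))
    {N o : ℕ} (hN : ∀ i, ∀ u ∈ mm σ π ^ N, ρ i u = 0) {t : MvPolynomial σ O}
    (ht : t ∉ mm σ π ^ (o + 1)) (h : ∀ i u, ρ i (t * u) = 0) :
    Module.length O Q ≤ (Fintype.card ι * (o * N ^ Fintype.card σ) : ℕ) := by
  let s : (∀ i, LinearMap.range (ρ i)) →ₗ[O] Q :=
    ∑ i, (LinearMap.range (ρ i)).subtype.comp (LinearMap.proj i)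
  have h1 : Function.Surjective s := fun q => by
    obtain ⟨x, rfl⟩ := hρ q
    exact ⟨fun i => ⟨ρ i (x i), x i, rfl⟩, by simp [s]⟩
  refine (Module.length_le_of_surjective s h1).trans ?_
  rw [Module.length_pi_of_fintype]
  refine (Finset.sum_le_sum fun i _ => len_le hπ (ρ i).rangeRestrict (ρ i).surjective_rangeRestrict
    (fun u hu => Subtype.ext (hN i u hu)) ht fun u => Subtype.ext (h i u)).trans ?_
  simp

section lattice

variable {T : Type*} [AddCommGroup T] [Module O T] [Module.Finite O T] [Module.IsTorsionFree O T]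

theorem exists_red (hπ : Irreducible π) (h : ℕ) :
    ∃ ρ : T →ₗ[O] (Fin (Module.finrank O T) → O ⧸ Ideal.span {π ^ h}), Function.Surjective ρ ∧
      (∀ x, ρ (π ^ h • x) = 0) ∧
      Module.length O (Fin (Module.finrank O T) → O ⧸ Ideal.span {π ^ h}) =
        (h * Module.finrank O T : ℕ) := by
  have : Module.Free O T := Module.free_of_finite_type_torsion_free'
  let B := Module.finBasis O T
  refine ⟨LinearMap.pi fun i => (Submodule.mkQ _).comp (B.coord i), fun y => ?_, fun x => ?_, ?_⟩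
  · choose x hx using fun a => Ideal.Quotient.mk_surjective (y a)
    refine ⟨B.equivFun.symm x, funext fun i => ?_⟩
    rw [← hx]
    exact congrArg _ (congrFun (B.equivFun.apply_symm_apply x) i)
  · funext i
    rw [map_smul]
    exact Ideal.Quotient.eq_zero_iff_mem.2 (Ideal.mem_span_singleton.2 (dvd_mul_right _ _))
  · simp [Module.length_pi_of_fintype, len_pow hπ, mul_comm]

/-- **VOL** for a cyclic module: `f` is onto a lattice of rank at least `d` -/
theorem vol_lin (hπ : Irreducible π) (f : MvPolynomial σ O →ₗ[O] T) (hf : Function.Surjective f)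
    {h N o d : ℕ} (hd : d ≤ Module.finrank O T) (hN : ∀ u ∈ mm σ π ^ N, ∃ x, f u = π ^ h • x)
    (hc : o * N ^ Fintype.card σ < h * d) {t : MvPolynomial σ O}
    (ht : ∀ u, ∃ x, f (t * u) = π ^ h • x) : t ∈ mm σ π ^ (o + 1) := by
  by_contra h1
  obtain ⟨ρ, k1, k2, k3⟩ := exists_red (T := T) hπ h
  have h2 := len_le hπ (ρ.comp f) (k1.comp hf) (N := N) (fun u hu => by
    obtain ⟨x, hx⟩ := hN u hu
    rw [LinearMap.comp_apply, hx, k2]) h1 fun u => by
    obtain ⟨x, hx⟩ := ht u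
    rw [LinearMap.comp_apply, hx, k2]
  rw [k3, Nat.cast_le] at h2
  exact absurd ((Nat.mul_le_mul_left h hd).trans h2) (not_le.2 hc)

/-- **VOL** for a module with `card ι` generators -/
theorem vol_pi (hπ : Irreducible π) {ι : Type*} [Fintype ι] (f : ι → MvPolynomial σ O →ₗ[O] T)
    (hf : ∀ q, ∃ x : ι → MvPolynomial σ O, q = ∑ i, f i (x i)) {h N o d : ℕ}
    (hd : d ≤ Module.finrank O T) (hN : ∀ i, ∀ u ∈ mm σ π ^ N, ∃ x, f i u = π ^ h • x)
    (hc : Fintype.card ι * (o * N ^ Fintype.card σ) < h * d) {t : MvPolynomial σ O}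
    (ht : ∀ i u, ∃ x, f i (t * u) = π ^ h • x) : t ∈ mm σ π ^ (o + 1) := by
  by_contra h1
  obtain ⟨ρ, k1, k2, k3⟩ := exists_red (T := T) hπ h
  have h2 := len_le_pi hπ (fun i => ρ.comp (f i)) (fun q => by
    obtain ⟨x, rfl⟩ := k1 q
    obtain ⟨b, rfl⟩ := hf x
    exact ⟨b, by simp⟩) (N := N) (fun i u hu => by
    obtain ⟨x, hx⟩ := hN i u hu
    rw [LinearMap.comp_apply, hx, k2]) h1 fun i u => by
    obtain ⟨x, hx⟩ := ht i u
    rw [LinearMap.comp_apply, hx, k2]
  rw [k3, Nat.cast_le] at h2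
  exact absurd ((Nat.mul_le_mul_left h hd).trans h2) (not_le.2 hc)

theorem vol_le_lin (hπ : Irreducible π) (f : MvPolynomial σ O →ₗ[O] T)
    (hf : Function.Surjective f) {h N : ℕ} (hN : ∀ u ∈ mm σ π ^ N, ∃ x, f u = π ^ h • x) :
    h * Module.finrank O T ≤ N ^ (Fintype.card σ + 1) := by
  obtain ⟨ρ, k1, k2, k3⟩ := exists_red (T := T) hπ h
  have h2 := len_le' hπ (ρ.comp f) (k1.comp hf) (N := N) fun u hu => by
    obtain ⟨x, hx⟩ := hN u hu
    rw [LinearMap.comp_apply, hx, k2]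
  rwa [k3, Nat.cast_le, ← pow_succ'] at h2

end lattice

variable {T : Type*} [CommRing T] [Algebra O T] [Module.Finite O T] [Module.IsTorsionFree O T]

/-- **VOL** -/
theorem vol (hπ : Irreducible π) (f : MvPolynomial σ O →ₐ[O] T) (hf : Function.Surjective f)
    {h N o d : ℕ} (hd : d ≤ Module.finrank O T)
    (hN : ∀ u ∈ mm σ π ^ N, algebraMap O T π ^ h ∣ f u) (hc : o * N ^ Fintype.card σ < h * d)
    {t : MvPolynomial σ O} (ht : algebraMap O T π ^ h ∣ f t) : t ∈ mm σ π ^ (o + 1) := by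
  have h1 : ∀ u, algebraMap O T π ^ h ∣ f u → ∃ x, f.toLinearMap u = π ^ h • x :=
    fun u ⟨x, hx⟩ => ⟨x, by rwa [Algebra.smul_def, map_pow]⟩
  exact vol_lin hπ f.toLinearMap hf hd (fun u hu => h1 u (hN u hu)) hc fun u =>
    h1 _ (by rw [map_mul]; exact ht.mul_right _)

/-- **VOL** when `T` is generated by the `y i` over the image of `f` -/
theorem vol_gen (hπ : Irreducible π) (f : MvPolynomial σ O →ₐ[O] T) {ι : Type*} [Fintype ι]
    (y : ι → T) (hf : ∀ q, ∃ x : ι → MvPolynomial σ O, q = ∑ i, f (x i) * y i)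
    {h N o d : ℕ} (hd : d ≤ Module.finrank O T)
    (hN : ∀ u ∈ mm σ π ^ N, algebraMap O T π ^ h ∣ f u)
    (hc : Fintype.card ι * (o * N ^ Fintype.card σ) < h * d)
    {t : MvPolynomial σ O} (ht : algebraMap O T π ^ h ∣ f t) : t ∈ mm σ π ^ (o + 1) := by
  have h1 : ∀ i u, algebraMap O T π ^ h ∣ f u →
      ∃ x, ((LinearMap.mulRight O (y i)).comp f.toLinearMap) u = π ^ h • x :=
    fun i u ⟨x, hx⟩ => ⟨x * y i, by
      rw [Algebra.smul_def, map_pow, ← mul_assoc, ← hx]; rfl⟩
  exact vol_pi hπ (fun i => (LinearMap.mulRight O (y i)).comp f.toLinearMap) hf hd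
    (fun i u hu => h1 i u (hN u hu)) hc fun i u => h1 i _ (by rw [map_mul]; exact ht.mul_right _)

theorem vol_le (hπ : Irreducible π) (f : MvPolynomial σ O →ₐ[O] T) (hf : Function.Surjective f)
    {h N : ℕ} (hN : ∀ u ∈ mm σ π ^ N, algebraMap O T π ^ h ∣ f u) :
    h * Module.finrank O T ≤ N ^ (Fintype.card σ + 1) :=
  vol_le_lin hπ f.toLinearMap hf fun u hu => by
    obtain ⟨x, hx⟩ := hN u hu
    exact ⟨x, by rwa [Algebra.smul_def, map_pow]⟩

end Vale.Agent.P022K.UC.Vol
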