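import Vale.Agent.P022K.UC.Vol

/-!
# P022K, block UC: the volume argument, determinant form
-/

set_option linter.all false

open MvPolynomial

noncomputable section

namespace Vale.Agent.P022K.UC.Vol

variable {O : Type*} [CommRing O] [IsDomain O] [IsDiscreteValuationRing O] {π : O}
  {κ : Type*} [Fintype κ] [DecidableEq κ]

theorem ord_prod {ι : Type*} (s : Finset ι) (a : ι → O) (h : ∀ i, a i ≠ 0) :
    Ring.ord O (∏ i ∈ s, a i) = ∑ i ∈ s, Ring.ord O (a i) := by
  classical
  induction s using Finset.induction_on with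
  | empty => simp [Ring.ord_one]
  | insert i s hi ih =>
    rw [Finset.prod_insert hi, Finset.sum_insert hi, Ring.ord_mul' O (mem_nonZeroDivisors_of_ne_zero (h i)), ih]

theorem len_coker (E : Matrix κ κ O) (hE : E.det ≠ 0) :
    Module.length O ((κ → O) ⧸ LinearMap.range (Matrix.toLin' E)) = Ring.ord O E.det := by
  set N := LinearMap.range (Matrix.toLin' E)
  have hi : Function.Injective (Matrix.toLin' E) := by
    rw [← LinearMap.ker_eq_bot, Matrix.ker_toLin'_eq_bot_iff]
    exact fun v hv => Matrix.eq_zero_of_mulVec_eq_zero hE hv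
  let e : (κ → O) ≃ₗ[O] N := LinearEquiv.ofInjective _ hi
  let b := Pi.basisFun O κ
  have h : Module.finrank O N = Module.finrank O (κ → O) := e.symm.finrank_eq
  let a := Submodule.smithNormalFormCoeffs b h
  let b' := Submodule.smithNormalFormTopBasis b h
  let e' : (κ → O) ≃ₗ[O] N := b'.equiv (Submodule.smithNormalFormBotBasis b h) (Equiv.refl _)
  have h1 : LinearMap.toMatrix b' b' (N.subtype ∘ₗ ↑e') = Matrix.diagonal a := by
    ext i j
    have ha : (N.subtype ∘ₗ ↑e') (b' j) = a j • b' j := by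
      show ((e' (b' j) : N) : κ → O) = _
      rw [b'.equiv_apply]
      exact Submodule.smithNormalFormBotBasis_def b h j
    rw [LinearMap.toMatrix_apply, ha, map_smul, Module.Basis.repr_self, Finsupp.smul_single,
      smul_eq_mul, mul_one, Matrix.diagonal_apply, Finsupp.single_apply]
    by_cases h : i = j
    · simp [h]
    · simp [h, Ne.symm h]
  have h2 := LinearMap.associated_det_comp_equiv N.subtype e e'
  rw [← LinearMap.det_toMatrix b' (N.subtype ∘ₗ ↑e'), h1, Matrix.det_diagonal,
    show N.subtype ∘ₗ ↑e = Matrix.toLin' E from rfl, LinearMap.det_toLin'] at h2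
  rw [Ring.ord_eq_of_associated h2, ord_prod _ _ (Submodule.smithNormalFormCoeffs_ne_zero b h),
    (Submodule.quotientEquivPiSpan N b h).length_eq, Module.length_pi_of_fintype]
  rfl

theorem ord_le (hπ : Irreducible π) {x : O} {D : ℕ} (h : ¬ π ^ (D + 1) ∣ x) : Ring.ord O x ≤ D := by
  have h0 : x ≠ 0 := fun e => h (e ▸ dvd_zero _)
  obtain ⟨n, hn⟩ := IsDiscreteValuationRing.associated_pow_irreducible h0 hπ
  rw [Ring.ord_eq_of_associated hn, Ring.ord_pow (mem_nonZeroDivisors_of_ne_zero hπ.ne_zero),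
    Ring.ord_of_irreducible hπ, nsmul_one, Nat.cast_le]
  by_contra h1
  exact h ((pow_dvd_pow π (by omega)).trans hn.symm.dvd)

variable {σ : Type*} [Fintype σ]

/-- **VOL**, determinant form -/
theorem vol_det (hπ : Irreducible π) {ι : Type*} [Fintype ι]
    (φ : ι → MvPolynomial σ O →ₗ[O] (κ → O)) (E : Matrix κ κ O)
    (hE : ∀ k, ∃ x : ι → MvPolynomial σ O, ∀ j, E j k = ∑ i, φ i (x i) j) {h N o D : ℕ}
    (hD : ¬ π ^ (D + 1) ∣ E.det) (hN : ∀ i, ∀ u ∈ mm σ π ^ N, ∀ j, π ^ h ∣ φ i u j)
    (hc : Fintype.card ι * (o * N ^ Fintype.card σ) + D < h * Fintype.card κ)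
    {t : MvPolynomial σ O} (ht : ∀ i u j, π ^ h ∣ φ i (t * u) j) : t ∈ mm σ π ^ (o + 1) := by
  by_contra h1
  let ρ : (κ → O) →ₗ[O] (κ → O ⧸ Ideal.span {π ^ h}) :=
    LinearMap.pi fun j => (Submodule.mkQ _).comp (LinearMap.proj j)
  have k1 : Function.Surjective ρ := fun y => by
    choose x hx using fun a => Ideal.Quotient.mk_surjective (y a)
    exact ⟨x, funext hx⟩
  have k2 : ∀ v : κ → O, (∀ j, π ^ h ∣ v j) → ρ v = 0 := fun v hv => funext fun j =>
    Ideal.Quotient.eq_zero_iff_mem.2 (Ideal.mem_span_singleton.2 (hv j))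
  let s : (ι → MvPolynomial σ O) →ₗ[O] (κ → O ⧸ Ideal.span {π ^ h}) :=
    ρ.comp (∑ i, (φ i).comp (LinearMap.proj i))
  have k3 : ∀ x, s x = ρ (∑ i, φ i (x i)) := fun x => by simp [s]
  have k4 : ∀ i u, ρ (φ i u) ∈ LinearMap.range s := fun i u => by
    classical
    refine ⟨Pi.single i u, ?_⟩
    rw [k3, Finset.sum_eq_single i (fun j _ hj => by simp [hj]) (by simp), Pi.single_eq_same]
  have h2 := len_le_pi hπ (Q := LinearMap.range s)
    (fun i => LinearMap.codRestrict _ (ρ.comp (φ i)) (k4 i)) (by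
      rintro ⟨_, x, rfl⟩
      exact ⟨x, Subtype.ext (by simp [k3])⟩) (N := N)
    (fun i u hu => Subtype.ext (k2 _ (hN i u hu))) h1 fun i u => Subtype.ext (k2 _ (ht i u))
  have h3 := Module.length_eq_add_of_exact _ (LinearMap.range s).mkQ
    (Submodule.subtype_injective _) (Submodule.mkQ_surjective _) (LinearMap.exact_subtype_mkQ _)
  have h4 : LinearMap.range (Matrix.toLin' E) ≤ LinearMap.ker ((LinearMap.range s).mkQ.comp ρ) := by
    rw [Matrix.range_toLin', Submodule.span_le]
    rintro _ ⟨k, rfl⟩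
    obtain ⟨x, hx⟩ := hE k
    refine (Submodule.Quotient.mk_eq_zero _).2 ⟨x, ?_⟩
    rw [k3]
    exact congrArg ρ (funext fun j => by simp [hx])
  have h5 := Module.length_le_of_surjective (Submodule.liftQ _ _ h4) fun y => by
    obtain ⟨x, rfl⟩ := ((Submodule.mkQ_surjective _).comp k1) y
    exact ⟨Submodule.Quotient.mk x, rfl⟩
  rw [len_coker E fun e => hD (e ▸ dvd_zero _)] at h5
  have h6 := h3.le.trans (add_le_add h2 (h5.trans (ord_le hπ hD)))
  rw [Module.length_pi_of_fintype] at h6
  simp only [len_pow hπ, Finset.sum_const, Finset.card_univ, nsmul_eq_mul] at h6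
  rw [mul_comm h] at hc
  exact absurd (by exact_mod_cast h6) (not_le.2 hc)

theorem span_pow_le {R ι : Type*} [CommRing R] (s : Finset ι) (x : ι → R) {I : Ideal R} {n : ℕ}
    (h : ∀ i ∈ s, x i ^ n ∈ I) : Ideal.span (x '' s) ^ (s.card * n + 1) ≤ I := by
  classical
  induction s using Finset.induction_on with
  | empty => simp
  | insert i s hi ih =>
    rw [Finset.coe_insert, Set.image_insert_eq, Ideal.span_insert, Finset.card_insert_of_notMem hi,
      show (s.card + 1) * n + 1 = n + (s.card * n + 1) by ring]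
    refine Ideal.sup_pow_add_le_pow_sup_pow.trans (sup_le ?_ (ih fun j hj => h j (by simp [hj])))
    rw [Ideal.span_singleton_pow, Ideal.span_singleton_le_iff_mem]
    exact h i (by simp)

/-- if the `n`-th powers of the generators lie in an ideal, so does a power of `mm` -/
theorem kill {O R : Type*} [CommRing O] [CommRing R] {π : O} (f : MvPolynomial σ O →+* R)
    {I : Ideal R} {n N : ℕ} (h1 : f (C π) ^ n ∈ I) (h2 : ∀ i, f (X i) ^ n ∈ I)
    (hN : (Fintype.card σ + 1) * n < N) {u : MvPolynomial σ O} (hu : u ∈ mm σ π ^ N) :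
    f u ∈ I := by
  have h3 := span_pow_le (I := I.comap f) (n := n) Finset.univ
    (fun i : Option σ => i.elim (C π) X) fun i _ => by
      rw [Ideal.mem_comap, map_pow]
      cases i with
      | none => exact h1
      | some i => exact h2 i
  rw [Finset.card_univ, Fintype.card_option, Finset.coe_univ, Set.image_univ,
    Option.range_eq] at h3
  exact h3 (Ideal.pow_le_pow_right hN hu)

end Vale.Agent.P022K.UC.Vol
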